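import Vale.Agent.P307.R2.H541.Iso

/-!
Elementary maps of a level `τ` below the size of the strong submodels: partial maps on sets of size
at most `τ` which extend to larger sets of size at most `τ`, and which are induced by the group on
the sets of size less than `τ`.
-/

universe u

open Set Cardinal Function

namespace Vale.Agent.P307.R2.H541

/-- Elementary maps of level `τ`. -/
structure PG.EM {C : Type u} (M : PG C) (τ : Cardinal.{u}) where
  E : Set C → (C → C) → Prop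
  hτ : ℵ₀ ≤ τ
  card : ∀ {D f}, E D f → #D ≤ τ
  congr : ∀ {D} {f f' : C → C}, E D f → (∀ x ∈ D, f x = f' x) → E D f'
  mono : ∀ {D D' f}, E D f → D' ⊆ D → E D' f
  ofG : ∀ {D : Set C} {g : Equiv.Perm C}, g ∈ M.G → #D ≤ τ → E D g
  comp : ∀ {D f g}, E D f → E (f '' D) g → E D (g ∘ f)
  inv : ∀ {D f}, E D f → ∃ g, E (f '' D) g ∧ ∀ x ∈ D, g (f x) = x
  ext : ∀ {D f} {B : Set C}, E D f → #B ≤ τ → ∃ f', E (D ∪ B) f' ∧ ∀ x ∈ D, f' x = f x
  small : ∀ {D f}, E D f → #D < τ → ∃ g ∈ M.G, ∀ x ∈ D, g x = f x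

namespace PG.EM

variable {C : Type u} {M : PG C} {τ : Cardinal.{u}} (Γ : M.EM τ) {D D' B : Set C} {f g : C → C}

include Γ in
theorem union_le {A B : Set C} (hA : #A ≤ τ) (hB : #B ≤ τ) : #(A ∪ B : Set C) ≤ τ :=
  (mk_union_le A B).trans ((add_le_add hA hB).trans (add_eq_self Γ.hτ).le)

include Γ in
theorem union_lt {A B : Set C} (hA : #A < τ) (hB : #B < τ) : #(A ∪ B : Set C) < τ :=
  (mk_union_le A B).trans_lt (add_lt_of_lt Γ.hτ hA hB)

/-- Extension to a given larger set. -/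
theorem ext' (h : Γ.E D f) (hD' : #D' ≤ τ) (hDD' : D ⊆ D') :
    ∃ f', Γ.E D' f' ∧ ∀ x ∈ D, f' x = f x := by
  obtain ⟨f', h1, h2⟩ := Γ.ext h hD'
  rw [union_eq_self_of_subset_left hDD'] at h1
  exact ⟨f', h1, h2⟩

theorem injOn (h : Γ.E D f) : InjOn f D := by
  obtain ⟨g, -, h1⟩ := Γ.inv h
  intro x hx y hy hxy
  rw [← h1 x hx, ← h1 y hy, hxy]

/-- Restriction to a set of size less than `τ`. -/
theorem restr (h : Γ.E D f) (hD' : D' ⊆ D) (hc : #D' < τ) : ∃ g ∈ M.G, ∀ x ∈ D', g x = f x :=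
  Γ.small (Γ.mono h hD') hc

/-- Composition with an element of the group. -/
theorem comp_G (h : Γ.E D f) {g : Equiv.Perm C} (hg : g ∈ M.G) : Γ.E D fun x => g (f x) :=
  Γ.comp h (Γ.ofG hg (mk_image_le.trans (Γ.card h)))

/-- Composition with the inverse of an element of the group. -/
theorem comp_inv (h : Γ.E D f) {g : Equiv.Perm C} (hg : g ∈ M.G) :
    Γ.E (g '' D) fun x => f ((g⁻¹ : Equiv.Perm C) x) := by
  refine Γ.comp (f := (g⁻¹ : Equiv.Perm C)) (g := f) (Γ.ofG (M.G.inv_mem hg)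
    (mk_image_le.trans (Γ.card h))) ?_
  have h1 : (g⁻¹ : Equiv.Perm C) '' ((g : C → C) '' D) = D := by
    rw [← image_comp]
    have : ((g⁻¹ : Equiv.Perm C) : C → C) ∘ g = id := by
      funext a
      exact inv_ap g a
    rw [this, image_id]
  rw [h1]
  exact h

/-- A set on the right side is pulled back. -/
theorem pull (h : Γ.E D f) (hB : #B ≤ τ) : ∃ k F : C → C, Γ.E (D ∪ k '' B) F ∧
    (∀ x ∈ D, F x = f x) ∧ ∀ b ∈ B, F (k b) = b := by
  obtain ⟨g, h1, h2⟩ := Γ.inv h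
  obtain ⟨g', h3, h4⟩ := Γ.ext h1 hB
  obtain ⟨F, h5, h6⟩ := Γ.inv h3
  have h7 : ∀ x ∈ D, g' (f x) = x := fun x hx => by
    rw [h4 _ (mem_image_of_mem f hx), h2 x hx]
  refine ⟨g', F, ?_, fun x hx => ?_, fun b hb => h6 b (Or.inr hb)⟩
  · have h8 : g' '' (f '' D ∪ B) = D ∪ g' '' B := by
      rw [image_union]
      congr 1
      ext x
      constructor
      · rintro ⟨_, ⟨y, hy, rfl⟩, rfl⟩
        rw [h7 y hy]
        exact hy
      · intro hx
        exact ⟨f x, mem_image_of_mem f hx, h7 x hx⟩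
    rw [← h8]
    exact h5
  · have h9 := h6 (f x) (Or.inl (mem_image_of_mem f hx))
    rwa [h7 x hx] at h9

end PG.EM

end Vale.Agent.P307.R2.H541
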