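import Vale.Agent.P307.R2.H427.EMapPG
import Vale.Agent.P307.R2.H806.RealPG

/-!
A saturated submodel of size `τ⁺` of the saturated member of size `θ⁺`, for a smaller base point
`τ`, around a given set of size `τ`; small tuples are conjugate in the submodel if and only if they
are conjugate in the whole member.
-/

set_option linter.unusedSectionVars false

universe u

open FirstOrder Cardinal Set

namespace Vale.Agent.P307.R2.H541

open Vale.Agent.P307 Vale.Agent.P307.H304 Vale.Agent.P307.R2.H287 Vale.Agent.P307.R2.H1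
  Vale.Agent.P307.R2.H971 Vale.Agent.P307.R2.H804 Language.Structure Language.Substructure

variable {L : Language.{u, u}} {K : AEC L} {ℓ θ τ : Cardinal.{u}}
  {κf α : Cardinal.{u} → Cardinal.{u}} {C : Type u} [L.Structure C]

/-- Saturation and isomorphisms. -/
theorem Sat.of_equiv {C D : Type u} [L.Structure C] [L.Structure D] (h : Sat K θ C)
    (e : C ≃[L] D) (hC : K.mem C) : Sat K θ D := by
  intro A B _ _ i f hi hf hA hB
  obtain ⟨g, hg, hg'⟩ := h A B (e.symm.toEmbedding.comp i) f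
    (AEC.Emb.comp (AEC.Emb.of_equiv e.symm (K.mem_iso e hC)) hi) hf hA hB
  refine ⟨e.toEmbedding.comp g, AEC.Emb.comp (AEC.Emb.of_equiv e hC) hg, fun a => ?_⟩
  change e (g (f a)) = i a
  rw [hg' a]
  exact e.apply_symm_apply (i a)

section

variable (h₀ : BasePt K ℓ κf α θ) (hK : K.IsLS ℓ)
  (hunb : ∀ ν, ν < κf ν ∧ K.CategoricalIn (κf ν)) (hst : Stab K ℓ α (H287.thr κf))
  (hCm : K.mem C) (hs : Sat K θ C) (hCc : #C = Order.succ θ)

include h₀ hK hunb hCm hCc

/-- The member of size `θ⁺` is saturated over its submodels of size `τ`. -/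
theorem sat_low (hτ : BasePt K ℓ κf α τ) (hτθ : τ < θ) : Sat K τ C := by
  refine hτ.sat hK hunb ?_
  rw [hCc]
  exact (h₀.pt.thr τ hτθ).le.trans (Order.le_succ θ)

/-- **A saturated submodel of size `τ⁺` around a set of size `τ`.** -/
theorem exists_low (hτ : BasePt K ℓ κf α τ) (hτθ : τ < θ) {Y : Set C} (hY : #Y ≤ τ) :
    ∃ C' : L.Substructure C, K.le C' ∧ #C' = Order.succ τ ∧ Sat K τ C' ∧ Y ⊆ C' := by
  have hsC := sat_low h₀ hK hunb hCm hCc hτ hτθ
  have hτC : τ ≤ #C := by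
    rw [hCc]
    exact hτθ.le.trans (Order.le_succ θ)
  obtain ⟨C₁, _, hC₁m, hC₁c, hC₁s⟩ := hτ.exists_saturated hK hunb
  obtain ⟨N, hN, hNY, hNc⟩ := exists_sub_card hK hτ.pt.lt.le hCm hτC Y hY
  obtain ⟨A, hA, -, hAc⟩ := exists_sub_card hK hτ.pt.lt.le hC₁m
    ((Order.le_succ τ).trans hC₁c.ge) ∅ (by simp)
  obtain ⟨e₀⟩ := hτ.pt.cat.2 N A (K.mem_of_le _ hN).1 (K.mem_of_le _ hA).1 hNc hAc
  obtain ⟨e, he, he'⟩ := hsC.exists_emb hK hτ.pt.lt.le hC₁c
    (A.subtype.comp e₀.toEmbedding) N.subtype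
    (AEC.Emb.comp (AEC.emb_subtype.2 hA) (AEC.Emb.of_equiv e₀ (K.mem_of_le _ hN).1))
    (AEC.emb_subtype.2 hN) hNc
  refine ⟨e.toHom.range, he, ?_, ?_, ?_⟩
  · exact (mk_congr e.equivRange.toEquiv).symm.trans hC₁c
  · exact Sat.of_equiv hC₁s e.equivRange hC₁m
  · intro y hy
    exact ⟨A.subtype.comp e₀.toEmbedding ⟨y, hNY hy⟩, he' ⟨y, hNY hy⟩⟩

include hst hs

/-- Conjugacy of small tuples is absolute. -/
theorem low_conj (hτ : BasePt K ℓ κf α τ) (hτθ : τ < θ) {C' : L.Substructure C}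
    (hC' : K.le C') (hC'c : #C' = Order.succ τ) (hC's : Sat K τ C') {A : Set C'} (hA : #A < τ)
    (f : C' → C') :
    (∃ g ∈ (pg hτ hK hunb hst (K.mem_of_le _ hC').1 hC's hC'c).G, ∀ a ∈ A, g a = f a) ↔
      ∃ g ∈ (pg h₀ hK hunb hst hCm hs hCc).G, ∀ a ∈ A, g (a : C) = (f a : C) := by
  have hℓσ : ℓ ≤ max ℓ #A := le_max_left _ _
  have hστ : max ℓ #A < τ := max_lt hτ.pt.lt hA
  have hAσ : #A ≤ max ℓ #A := le_max_right _ _
  have hσα : max ℓ #A ≤ α (max ℓ #A) := (hst _ hℓσ).1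
  have hℓα : ℓ ≤ α (max ℓ #A) := hℓσ.trans hσα
  have h0 : ℵ₀ ≤ α (max ℓ #A) := hK.1.trans hℓα
  have hthr : thr κf (α (max ℓ #A)) ≤ #C' := by
    rw [hC'c]
    exact (hτ.pt.thr _ (hτ.al _ hστ)).le.trans (Order.le_succ τ)
  have h1 : EqS L (α (max ℓ #A)) (fun a : A => (a : C')) fun a => ((a : C') : C) :=
    EqS.map_emb hK hunb hℓα C'.subtype (AEC.emb_subtype.2 hC') hthr (hAσ.trans hσα) _
  have h2 : EqS L (α (max ℓ #A)) (fun a : A => f a) fun a : A => (f a : C) :=
    EqS.map_emb hK hunb hℓα C'.subtype (AEC.emb_subtype.2 hC') hthr (hAσ.trans hσα) _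
  constructor
  · rintro ⟨g, ⟨e, he⟩, hg⟩
    have h3 := H804.EqS.equiv h0 (hAσ.trans hσα) e fun a : A => (a : C')
    have h4 : (fun a : A => e (a : C')) = fun a : A => f a := by
      funext a
      rw [he]
      exact hg a a.2
    rw [h4] at h3
    obtain ⟨k, hk, hk'⟩ := exists_mem_autG h₀ hK hunb hst hCm hs hCc hℓσ (hστ.trans hτθ) hAσ _ _
      ((h1.symm.trans h3).trans h2)
    exact ⟨k, hk, fun a ha => hk' ⟨a, ha⟩⟩
  · rintro ⟨g, ⟨e, he⟩, hg⟩
    have h3 := H804.EqS.equiv h0 (hAσ.trans hσα) e fun a : A => ((a : C') : C)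
    have h4 : (fun a : A => e ((a : C') : C)) = fun a : A => (f a : C) := by
      funext a
      rw [he]
      exact hg a a.2
    rw [h4] at h3
    obtain ⟨k, hk, hk'⟩ := exists_mem_autG hτ hK hunb hst (K.mem_of_le _ hC').1 hC's hC'c hℓσ
      hστ hAσ _ _ ((h1.trans h3).trans h2.symm)
    exact ⟨k, hk, fun a ha => hk' ⟨a, ha⟩⟩

/-- Strong submodels of size `τ` of the submodel. -/
theorem low_mem (hτ : BasePt K ℓ κf α τ) {C' : L.Substructure C}
    (hC' : K.le C') (hC'c : #C' = Order.succ τ) (hC's : Sat K τ C') {N : Set C'} :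
    N ∈ (pg hτ hK hunb hst (K.mem_of_le _ hC').1 hC's hC'c).S ↔
      ∃ D : L.Substructure C, K.le D ∧ #D = τ ∧ (D : Set C) = Subtype.val '' N := by
  constructor
  · rintro ⟨D, hD, hDc, rfl⟩
    refine ⟨D.map C'.subtype.toHom, K.le_trans C' D hD hC', ?_, rfl⟩
    rw [← hDc]
    exact mk_image_eq (s := (D : Set C')) C'.subtype.injective
  · rintro ⟨D, hD, hDc, hDN⟩
    have hDC' : D ≤ C' := by
      intro x hx
      have h1 : x ∈ Subtype.val '' N := by
        rw [← hDN]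
        exact hx
      obtain ⟨y, -, rfl⟩ := h1
      exact y.2
    obtain ⟨k, hk, hk'⟩ := exists_lift D.subtype C'.subtype (AEC.emb_subtype.2 hD)
      (AEC.emb_subtype.2 hC') fun d => ⟨⟨d, hDC' d.2⟩, rfl⟩
    refine ⟨k.toHom.range, hk, ?_, ?_⟩
    · exact (mk_congr k.equivRange.toEquiv).symm.trans hDc
    · ext y
      constructor
      · rintro ⟨d, rfl⟩
        have h1 : ((k d : C') : C) ∈ Subtype.val '' N := by
          rw [← hDN]
          have h2 : ((k d : C') : C) = d := hk' d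
          rw [h2]
          exact d.2
        obtain ⟨z, hz, hzy⟩ := h1
        have h3 : z = k d := Subtype.ext hzy
        change k d ∈ N
        rw [← h3]
        exact hz
      · intro hy
        have h1 : (y : C) ∈ (D : Set C) := by
          rw [hDN]
          exact ⟨y, hy, rfl⟩
        exact ⟨⟨y, h1⟩, Subtype.ext (hk' ⟨y, h1⟩)⟩

/-- The automorphisms of the submodel are elementary maps of level `τ` of the whole member. -/
theorem low_emp (hτ : BasePt K ℓ κf α τ) (hτθ : τ < θ) {C' : L.Substructure C}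
    (hC' : K.le C') (hC'c : #C' = Order.succ τ) (hC's : Sat K τ C') {g : Equiv.Perm C'}
    (hg : g ∈ (pg hτ hK hunb hst (K.mem_of_le _ hC').1 hC's hC'c).G) {z : Set C'} (hz : #z ≤ τ)
    {f : C → C} (hf : ∀ x ∈ z, f x = g x) : EMp L τ (Subtype.val '' z) f := by
  classical
  obtain ⟨e, he⟩ := hg
  obtain ⟨N, hN, hNz, hNc⟩ := exists_sub_card hK hτ.pt.lt.le (K.mem_of_le _ hC').1
    ((Order.le_succ τ).trans hC'c.ge) z hz
  -- the submodel of `C`
  have hN' : K.le (N.map C'.subtype.toHom) := K.le_trans C' N hN hC'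
  have hN'c : #(N.map C'.subtype.toHom : L.Substructure C) = τ := by
    rw [← hNc]
    exact mk_image_eq (s := (N : Set C')) C'.subtype.injective
  obtain ⟨k, hk, hk'⟩ := exists_lift (N.map C'.subtype.toHom).subtype
    (C'.subtype.comp N.subtype) (AEC.emb_subtype.2 hN')
    (AEC.Emb.comp (AEC.emb_subtype.2 hC') (AEC.emb_subtype.2 hN)) (by
      rintro ⟨_, y, hy, rfl⟩
      exact ⟨⟨y, hy⟩, rfl⟩)
  let F : (N.map C'.subtype.toHom : L.Substructure C) ↪[L] C :=
    ((C'.subtype.comp e.toEmbedding).comp N.subtype).comp k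
  have hF : K.Emb F := AEC.Emb.comp (AEC.Emb.comp (AEC.Emb.comp (AEC.emb_subtype.2 hC')
    (AEC.Emb.of_equiv e (K.mem_of_le _ hC').1)) (AEC.emb_subtype.2 hN)) hk
  let f' : C → C := fun x => if hx : x ∈ C' then e ⟨x, hx⟩ else x
  have hf' : ∀ x : C', f' x = e x := fun x => dif_pos x.2
  have hFf : ∀ x : (N.map C'.subtype.toHom : L.Substructure C), f' x = F x := by
    intro x
    have h1 : (((k x : N) : C') : C) = x := hk' x
    have h2 : f' x = e ((k x : N) : C') := by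
      rw [← h1]
      exact hf' _
    exact h2
  have h3 := EMp.of_emb h₀ hK hunb hτ hτθ hCc hN' hN'c F hF hFf
  have h4 := (pgEM h₀ hK hunb hst hCm hs hCc hτ hτθ).mono h3 (D' := Subtype.val '' z) (by
    rintro _ ⟨x, hx, rfl⟩
    exact ⟨x, hNz hx, rfl⟩)
  refine (pgEM h₀ hK hunb hst hCm hs hCc hτ hτθ).congr h4 ?_
  rintro _ ⟨x, hx, rfl⟩
  rw [hf' x, he x, hf x hx]

end

end Vale.Agent.P307.R2.H541
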