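import Vale.Agent.P307.R2.H427.Mon4
import Vale.Agent.P307.R2.H287.Unif2

/-!
The question, from the existence of a good geometry.
-/

universe u

open FirstOrder Cardinal Set Function Language

namespace Vale.Agent.P307.R2.H427

open scoped Classical

/-- Above a cardinal depending only on `l`, one categoricity cardinal gives unboundedly many. -/
theorem exists_unbounded (l : Cardinal.{u}) : ∃ μ : Cardinal.{u}, l ≤ μ ∧
    ∀ (L : Language.{u, u}) (K : AEC L), K.LS ≤ l → ∀ κ, μ ≤ κ → K.CategoricalIn κ →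
      ∀ ν : Cardinal.{u}, ∃ κ', ν < κ' ∧ K.CategoricalIn κ' := by
  obtain ⟨Λ, hΛ⟩ : ∃ Λ : Type u, #Λ = l := ⟨l.out, mk_out l⟩
  have h : ∀ c : CodeTy Λ, ∃ ν : Cardinal.{u}, (∃ ν', ∀ κ ∈ spec c, κ ≤ ν') →
      ∀ κ ∈ spec c, κ ≤ ν := by
    intro c
    by_cases hb : ∃ ν', ∀ κ ∈ spec c, κ ≤ ν'
    · obtain ⟨ν, hν⟩ := hb
      exact ⟨ν, fun _ => hν⟩
    · exact ⟨0, fun h => absurd h hb⟩
  choose ν hν using h
  have hbν : BddAbove (Set.range ν) := bddAbove_of_small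
  refine ⟨max l (Order.succ (⨆ c, ν c)), le_max_left _ _, ?_⟩
  intro L K hK κ hκ hcat χ
  have hLS : K.IsLS #Λ := AEC.isLS_of_LS_le (hK.trans hΛ.ge)
  obtain ⟨c, hc⟩ : ∃ c : CodeTy Λ, ∀ κ, κ ∈ spec c ↔ K.CategoricalIn κ := by
    obtain ⟨c, h1, h2⟩ := exists_code K hLS
    exact ⟨c, h1⟩
  by_contra h1
  push Not at h1
  have h2 : ∀ κ ∈ spec c, κ ≤ χ := fun κ' hκ' => by
    by_contra h3
    push Not at h3
    exact h1 κ' h3 ((hc κ').1 hκ')
  have h4 := hν c ⟨χ, h2⟩ κ ((hc κ).2 hcat)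
  have h5 : ν c < κ := (Order.lt_succ_of_le (le_ciSup hbν c)).trans_le
    ((le_max_right _ _).trans hκ)
  exact absurd h5 (not_lt.2 h4)

/-- `K` has a good geometry: a homogeneous member `CC` and a geometry of its strong substructures
with `l` elements over one of them. -/
def HasGeo {L : Language.{u, u}} (K : AEC L) : Prop :=
  ∃ (l : Cardinal.{u}) (CC : Type u) (_ : L.Structure CC) (P : L.Substructure CC) (Q : Set CC)
    (C : Geo K l l P Q), K.IsLS l ∧ K.CategoricalIn l ∧ Mon K l CC ∧ #P = l ∧ K.le P ∧ C.Inv ∧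
      CrossIso C C (Language.Equiv.refl L P)

/-- **The question, from the existence of a good geometry** for the classes categorical in
unboundedly many cardinals. -/
theorem q1_of_geo (H : ∀ (L : Language.{u, u}) (K : AEC L),
      (∀ ν : Cardinal.{u}, ∃ κ, ν < κ ∧ K.CategoricalIn κ) → HasGeo K) (l : Cardinal.{u}) :
    ∃ μ : Cardinal.{u}, l ≤ μ ∧ ∀ (L : Language.{u, u}) (K : AEC L), K.LS ≤ l →
      ∀ κ, μ ≤ κ → K.CategoricalIn κ → ∀ κ', μ ≤ κ' → K.CategoricalIn κ' := by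
  obtain ⟨μ₀, hμ₀, h0⟩ := exists_unbounded l
  obtain ⟨μ₁, -, h1⟩ := H67.exists_threshold l
  refine ⟨max μ₀ μ₁, hμ₀.trans (le_max_left _ _), ?_⟩
  intro L K hK κ hκ hcat κ' hκ'
  have hunb := h0 L K hK κ ((le_max_left _ _).trans hκ) hcat
  obtain ⟨χ, CC, _, P, Q, C, hLS, hχ, hmon, hPl, hP, hinv, hI⟩ := H L K hunb
  refine h1 L K hK ⟨χ, fun θ hθ => ?_⟩ κ' ((le_max_right _ _).trans hκ')
  refine categoricalIn_of_geo hLS hχ hmon hPl hP hinv hI (fun ν hν => ?_) θ hθ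
  obtain ⟨ρ, hρ, hρcat⟩ := hunb ν
  obtain ⟨⟨M, _, hM, hMρ⟩, -⟩ := hρcat
  exact exists_mem_card hLS hν hM (hρ.le.trans hMρ.ge)

end Vale.Agent.P307.R2.H427
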