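import Vale.Agent.P307.R2.H427.Chart3
import Vale.Agent.P307.R2.H514.GapStd
import Vale.Agent.P307.R2.H83.Last

/-!
The standard families generate: the instance of the generators of standard families.
-/

set_option linter.unusedSectionVars false

universe u v

open FirstOrder Cardinal Set

namespace Vale.Agent.P307.R2.H427

open Vale.Agent.P307 Vale.Agent.P307.H304 Vale.Agent.P307.R2.H287 Vale.Agent.P307.R2.H1
  Vale.Agent.P307.R2.H806 Vale.Agent.P307.R2.H971 Vale.Agent.P307.R2.H541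
  Language.Structure Language.Substructure
open Vale.Agent.P307.R2.H533 (iun ibd IFam IRef)
open Vale.Agent.P307.R2.H83 (StdGen IRefL)

open scoped Classical

variable {ι : Type v} {L : Language.{u, u}} {K : AEC L} {ℓ θ σ : Cardinal.{u}}
  {κf α : Cardinal.{u} → Cardinal.{u}} {C : Type u} [L.Structure C]

section

variable (h₀ : BasePt K ℓ κf α θ) (hK : K.IsLS ℓ)
  (hunb : ∀ ν, ν < κf ν ∧ K.CategoricalIn (κf ν)) (hst : Stab K ℓ α (H287.thr κf))
  (hCm : K.mem C) (hs : Sat K θ C) (hCc : #C = Order.succ θ)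

/-- Reflection of the pieces of size at most `σ` of a standard family. -/
theorem Chart.irefLev (hσ : ℓ ≤ σ) (hσθ : σ < θ) (c : Chart ι K ℓ θ σ C)
    (b : Finset ι → SuccTy θ) (F : Finset (Finset ι)) :
    IRefL (pg h₀ hK hunb hst hCm hs hCc) σ (c.St b) F := fun x E _ hE =>
  c.iref h₀ hK hunb hst hCm hs hCc hσ hσθ b F x E hE

/-- **The standard families generate**, if reflection at the level `σ` implies full reflection for
the boundaries of the faces. -/
theorem Chart.stdGen (hσ : ℓ ≤ σ) (hσθ : σ < θ) (c : Chart ι K ℓ θ σ C)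
    {F : Finset (Finset ι)} (hr : ∀ v ∈ F, ∃ i, c.r i = v)
    (hFU : ∀ v ∈ F, v.Nonempty → ∀ A : Finset ι → Set C,
      IFam (pg h₀ hK hunb hst hCm hs hCc) A v.ssubsets →
      IRefL (pg h₀ hK hunb hst hCm hs hCc) σ A v.ssubsets →
      IRef (pg h₀ hK hunb hst hCm hs hCc) A v.ssubsets) :
    StdGen (pg h₀ hK hunb hst hCm hs hCc) F c.St where
  mem b v _ := c.St_mem h₀ hK hunb hst hCm hs hCc hσ hσθ b v
  mono b v _ w hw := Chart.St_mono hw
  loc b b' v _ h := Chart.St_congr h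
  conj P hP := by
    obtain ⟨g, hg, h⟩ := c.conj h₀ hK hunb hst hCm hs hCc hσ hσθ (fun _ => c.a₀) hP
    exact ⟨_, g, hg, h⟩
  gap b v hv hv0 D hD Z _ hZ := by
    have hDc : #D ≤ θ := ((pg h₀ hK hunb hst hCm hs hCc).S_card hD).le
    exact c.gap h₀ hK hunb hst hCm hs hCc hσ hσθ b hv0 (hr v hv) hDc hZ
  ref b v hv hv0 := hFU v hv hv0 _ (c.ifam h₀ hK hunb hst hCm hs hCc hσ hσθ b
    (H533.down_ssubsets hv0)) (c.irefLev h₀ hK hunb hst hCm hs hCc hσ hσθ b _)

/-- **Existence** of generators of standard families at all large enough levels. -/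
theorem exists_stdGen {F : Finset (Finset ι)}
    (hFU : ∀ v ∈ F, v.Nonempty → ∃ τ₀ < θ, ∀ A : Finset ι → Set C,
      IFam (pg h₀ hK hunb hst hCm hs hCc) A v.ssubsets →
      IRefL (pg h₀ hK hunb hst hCm hs hCc) τ₀ A v.ssubsets →
      IRef (pg h₀ hK hunb hst hCm hs hCc) A v.ssubsets) :
    ∃ σ₀ < θ, ℓ ≤ σ₀ ∧ ∀ σ, σ₀ ≤ σ → σ < θ → ∃ c : Chart ι K ℓ θ σ C,
      (∀ v ∈ F, ∃ i, c.r i = v) ∧ StdGen (pg h₀ hK hunb hst hCm hs hCc) F c.St := by
  have h1 : ∃ σ₀ < θ, ℓ ≤ σ₀ ∧ ∀ v ∈ F, v.Nonempty → ∀ A : Finset ι → Set C,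
      IFam (pg h₀ hK hunb hst hCm hs hCc) A v.ssubsets →
      IRefL (pg h₀ hK hunb hst hCm hs hCc) σ₀ A v.ssubsets →
      IRef (pg h₀ hK hunb hst hCm hs hCc) A v.ssubsets := by
    choose! τ₀ hτ₀ hτ₀' using hFU
    have key : ∀ F' : Finset (Finset ι), F' ⊆ F → ∃ σ₀ < θ, ℓ ≤ σ₀ ∧
        ∀ v ∈ F', v.Nonempty → τ₀ v ≤ σ₀ := by
      intro F'
      induction F' using Finset.induction_on with
      | empty => exact fun _ => ⟨ℓ, h₀.pt.lt, le_rfl, by simp⟩
      | insert w F' hw ih =>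
        intro hsub
        obtain ⟨σ₀, h2, h3, h4⟩ := ih ((Finset.subset_insert w F').trans hsub)
        by_cases hw0 : w.Nonempty
        · refine ⟨max σ₀ (τ₀ w), max_lt h2 (hτ₀ w (hsub (Finset.mem_insert_self w F')) hw0),
            h3.trans (le_max_left _ _), fun v hv hv0 => ?_⟩
          rcases Finset.mem_insert.1 hv with rfl | hv
          · exact le_max_right _ _
          · exact (h4 v hv hv0).trans (le_max_left _ _)
        · refine ⟨σ₀, h2, h3, fun v hv hv0 => ?_⟩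
          rcases Finset.mem_insert.1 hv with rfl | hv
          · exact absurd hv0 hw0
          · exact h4 v hv hv0
    obtain ⟨σ₀, h2, h3, h4⟩ := key F (Finset.Subset.refl F)
    exact ⟨σ₀, h2, h3, fun v hv hv0 A hA hR => hτ₀' v hv hv0 A hA (hR.level (h4 v hv hv0))⟩
  obtain ⟨σ₀, h2, h3, h4⟩ := h1
  refine ⟨σ₀, h2, h3, fun σ hσ hσθ => ?_⟩
  obtain ⟨c, hc⟩ := exists_chart h₀ hK hunb hst hCm hs hCc (h3.trans hσ) hσθ F
  exact ⟨c, hc, c.stdGen h₀ hK hunb hst hCm hs hCc (h3.trans hσ) hσθ hc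
    fun v hv hv0 A hA hR => h4 v hv hv0 A hA (hR.level hσ)⟩

end

end Vale.Agent.P307.R2.H427
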