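import Vale.Agent.P307.R2.H427.StdG
import Vale.Agent.P307.R2.H302.ChartTm
import Vale.Agent.P307.R2.H732.Tx

/-!
The standard families: the instance of the generators with bounded reflection and tameness.
-/

set_option linter.unusedSectionVars false

universe u v

open FirstOrder Cardinal Set

namespace Vale.Agent.P307.R2.H427

open Vale.Agent.P307 Vale.Agent.P307.H304 Vale.Agent.P307.R2.H287 Vale.Agent.P307.R2.H1
  Vale.Agent.P307.R2.H806 Vale.Agent.P307.R2.H971 Vale.Agent.P307.R2.H541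
  Vale.Agent.P307.R2.H514 Language.Structure Language.Substructure
open Vale.Agent.P307.R2.H533 (iun ibd IFam IRef)
open Vale.Agent.P307.R2.H83 (StdGen IRefL)
open Vale.Agent.P307.R2.H732 (Gen)

variable {ι : Type v} {L : Language.{u, u}} {K : AEC L} {ℓ θ σ ρ τ : Cardinal.{u}}
  {κf α : Cardinal.{u} → Cardinal.{u}} {C : Type u} [L.Structure C]

section

variable (h₀ : BasePt K ℓ κf α θ) (hK : K.IsLS ℓ)
  (hunb : ∀ ν, ν < κf ν ∧ K.CategoricalIn (κf ν)) (hst : Stab K ℓ α (H287.thr κf))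
  (hCm : K.mem C) (hs : Sat K θ C) (hCc : #C = Order.succ θ)

/-- **Generators of standard families** with bounded reflection and tameness. -/
theorem pg_gen (F : Finset (Finset ι)) (hσ : σ < θ) (hρ : ρ < θ) (hτ : τ < θ) :
    ∃ (β : Type u) (St : (Finset ι → β) → Finset ι → Set C),
      Gen (pg h₀ hK hunb hst hCm hs hCc) (fun s => tH (max ℓ s)) σ ρ τ F St := by
  have h1 : ℓ ≤ max ℓ τ := le_max_left _ _
  have h2 : max ℓ τ < θ := max_lt h₀.pt.lt hτ
  obtain ⟨c, hc⟩ := exists_chart h₀ hK hunb hst hCm hs hCc (ι := ι) h1 h2 F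
  refine ⟨SuccTy θ, c.St, ?_⟩
  exact
    { mem := fun b v _ => c.St_mem h₀ hK hunb hst hCm hs hCc h1 h2 b v
      mono := fun b v _ w hw => Chart.St_mono hw
      loc := fun b b' v _ h => Chart.St_congr h
      conj := fun P hP => by
        obtain ⟨g, hg, h⟩ := c.conj h₀ hK hunb hst hCm hs hCc h1 h2 (fun _ => c.a₀) hP
        exact ⟨_, g, hg, h⟩
      gap := fun b v hv hv0 D hD Z _ hZ => by
        have hDc : #D ≤ θ := ((pg h₀ hK hunb hst hCm hs hCc).S_card hD).le
        exact c.gap h₀ hK hunb hst hCm hs hCc h1 h2 b hv0 (hc v hv) hDc hZ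
      refL := fun b => (c.irefLev h₀ hK hunb hst hCm hs hCc h1 h2 b F).level (le_max_right _ _)
      tm := fun b => c.tmL h₀ hK hunb hst hCm hs hCc b F hσ hρ }

end

end Vale.Agent.P307.R2.H427
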