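import Vale.Agent.P307.R2.H427.Low

/-!
Maps which preserve the types of the tiny pieces are elementary maps of level `τ`, over tame sets.
-/

set_option linter.unusedSectionVars false

universe u

open FirstOrder Cardinal Set

namespace Vale.Agent.P307.R2.H541

open Vale.Agent.P307 Vale.Agent.P307.H304 Vale.Agent.P307.R2.H287 Vale.Agent.P307.R2.H1
  Vale.Agent.P307.R2.H971 Vale.Agent.P307.R2.H804 Language.Structure Language.Substructure

variable {L : Language.{u, u}} {K : AEC L} {ℓ θ τ : Cardinal.{u}}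
  {κf α : Cardinal.{u} → Cardinal.{u}} {C : Type u} [L.Structure C]

/-- The types of tiny sets over `Y` are determined by the pieces of `Y` of a fixed tiny size, for
tiny pieces. -/
def PG.Tmt {C : Type u} (M : PG C) (τ : Cardinal.{u}) (Y : Set C) : Prop :=
  ∀ σ < τ, ∃ H < τ, ∀ E : Set C, #E ≤ σ → ∀ g ∈ M.G,
    (∀ A ⊆ Y, #A ≤ H → ∃ h ∈ M.G, (∀ a ∈ A, h a = a) ∧ ∀ e ∈ E, h e = g e) →
      ∀ A ⊆ Y, #A < τ → ∃ h ∈ M.G, (∀ a ∈ A, h a = a) ∧ ∀ e ∈ E, h e = g e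

section

variable (h₀ : BasePt K ℓ κf α θ) (hK : K.IsLS ℓ)
  (hunb : ∀ ν, ν < κf ν ∧ K.CategoricalIn (κf ν)) (hst : Stab K ℓ α (H287.thr κf))
  (hCm : K.mem C) (hs : Sat K θ C) (hCc : #C = Order.succ θ)

include h₀ hK hunb hst hCm hs hCc

/-- Tameness in the submodel. -/
theorem low_tm (hτ : BasePt K ℓ κf α τ) (hτθ : τ < θ) {C' : L.Substructure C}
    (hC' : K.le C') (hC'c : #C' = Order.succ τ) (hC's : Sat K τ C') {Y : Set C'}
    (hY : (pg h₀ hK hunb hst hCm hs hCc).Tmt τ (Subtype.val '' Y)) :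
    (pg hτ hK hunb hst (K.mem_of_le _ hC').1 hC's hC'c).Tm Y := by
  classical
  have hτ0 : ℵ₀ ≤ τ := hK.1.trans hτ.pt.lt.le
  have hcj := fun {A : Set C'} (hA : #A < τ) (f : C' → C') =>
    low_conj h₀ hK hunb hst hCm hs hCc hτ hτθ hC' hC'c hC's hA f
  have hun : ∀ {A B : Set C'}, #A < τ → #B < τ → #(A ∪ B : Set C') < τ := fun hA hB =>
    (mk_union_le _ _).trans_lt (add_lt_of_lt hτ0 hA hB)
  intro σ hσ
  change σ < τ at hσ
  obtain ⟨H, hH, h1⟩ := hY σ hσ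
  refine ⟨H, hH, fun E hE g hg hgA A hA hAc => ?_⟩
  change #A < τ at hAc
  have hEc : #E < τ := hE.trans_lt hσ
  obtain ⟨g₁, hg₁, hg₁E⟩ := (hcj hEc g).1 ⟨g, hg, fun _ _ => rfl⟩
  -- the function which is the identity on `A` and `g` on `E`
  have key : ∀ B : Set C', #B < τ → ((∃ h ∈ (pg hτ hK hunb hst (K.mem_of_le _ hC').1 hC's hC'c).G,
      (∀ a ∈ B, h a = a) ∧ ∀ e ∈ E, h e = g e) ↔ ∃ h ∈ (pg h₀ hK hunb hst hCm hs hCc).G,
      (∀ a ∈ Subtype.val '' B, h a = a) ∧ ∀ e ∈ Subtype.val '' E, h e = g₁ e) := by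
    intro B hB
    constructor
    · rintro ⟨h, hh, h2, h3⟩
      obtain ⟨k, hk, hk'⟩ := (hcj (hun hB hEc) h).1 ⟨h, hh, fun _ _ => rfl⟩
      refine ⟨k, hk, ?_, ?_⟩
      · rintro _ ⟨b, hb, rfl⟩
        rw [hk' b (Or.inl hb), h2 b hb]
      · rintro _ ⟨e, he, rfl⟩
        rw [hk' e (Or.inr he), h3 e he, hg₁E e he]
    · rintro ⟨h, hh, h2, h3⟩
      have h4 : ∀ a ∈ B ∪ E, h (a : C) ∈ C' := by
        rintro a (ha | ha)
        · rw [h2 a ⟨a, ha, rfl⟩]
          exact a.2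
        · rw [h3 a ⟨a, ha, rfl⟩, hg₁E a ha]
          exact (g a).2
      let f : C' → C' := fun a => if ha : h (a : C) ∈ C' then ⟨h a, ha⟩ else a
      have hf : ∀ a ∈ B ∪ E, (f a : C) = h a := by
        intro a ha
        have h5 : f a = ⟨h a, h4 a ha⟩ := dif_pos (h4 a ha)
        rw [h5]
      obtain ⟨k, hk, hk'⟩ := (hcj (hun hB hEc) f).2 ⟨h, hh, fun a ha => (hf a ha).symm⟩
      refine ⟨k, hk, fun b hb => Subtype.ext ?_, fun e he => Subtype.ext ?_⟩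
      · rw [hk' b (Or.inl hb), hf b (Or.inl hb), h2 b ⟨b, hb, rfl⟩]
      · rw [hk' e (Or.inr he), hf e (Or.inr he), h3 e ⟨e, he, rfl⟩, hg₁E e he]
  refine (key A hAc).2 (h1 (Subtype.val '' E) (mk_image_le.trans hE) g₁ hg₁ ?_ _
    (image_mono hA) (mk_image_le.trans_lt hAc))
  intro B hB hBH
  obtain ⟨B', hB', rfl⟩ := subset_image_iff.1 hB
  have hB'c : #B' = #(Subtype.val '' B' : Set C) := (mk_image_eq Subtype.val_injective).symm
  exact (key B' (by rw [hB'c]; exact hBH.trans_lt hH)).1 (hgA B' hB' (by rw [hB'c]; exact hBH))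

/-- **Full elementarity, between two levels**: a map on a set of size `τ` which preserves the types
of the tiny pieces and has a tame image is elementary of level `τ`. -/
theorem emp_of_let (hτ : BasePt K ℓ κf α τ) (hτθ : τ < θ) {z : Set C} (hz : #z ≤ τ)
    {f : C → C} (hf : ∀ A ⊆ z, #A < τ → ∃ g ∈ (pg h₀ hK hunb hst hCm hs hCc).G, ∀ a ∈ A, g a = f a)
    (hT : (pg h₀ hK hunb hst hCm hs hCc).Tmt τ (f '' z)) : EMp L τ z f := by
  classical
  have hτ0 : ℵ₀ ≤ τ := hK.1.trans hτ.pt.lt.le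
  obtain ⟨C', hC', hC'c, hC's, hYC'⟩ := exists_low h₀ hK hunb hCm hCc hτ hτθ
    (Y := z ∪ f '' z) ((mk_union_le _ _).trans ((add_le_add hz (mk_image_le.trans hz)).trans
      (add_eq_self hτ0).le))
  let z' : Set C' := Subtype.val ⁻¹' z
  let f' : C' → C' := fun x => if hx : f x ∈ C' then ⟨f x, hx⟩ else x
  have hf' : ∀ x ∈ z', (f' x : C) = f x := by
    intro x hx
    have h1 : f x ∈ C' := hYC' (Or.inr (mem_image_of_mem f hx))
    have h2 : f' x = ⟨f x, h1⟩ := dif_pos h1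
    rw [h2]
  have hzz : Subtype.val '' z' = z := by
    ext x
    constructor
    · rintro ⟨y, hy, rfl⟩
      exact hy
    · intro hx
      exact ⟨⟨x, hYC' (Or.inl hx)⟩, hx, rfl⟩
  have hz'c : #z' ≤ τ := by
    rw [← mk_image_eq (s := z') Subtype.val_injective, hzz]
    exact hz
  have hLE : (pg hτ hK hunb hst (K.mem_of_le _ hC').1 hC's hC'c).LE f' z' := by
    intro A hA hAc
    change #A < τ at hAc
    refine (low_conj h₀ hK hunb hst hCm hs hCc hτ hτθ hC' hC'c hC's hAc f').2 ?_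
    obtain ⟨g, hg, hgf⟩ := hf (Subtype.val '' A) (by
      rw [← hzz]
      exact image_mono hA) (mk_image_le.trans_lt hAc)
    exact ⟨g, hg, fun a ha => by rw [hgf a ⟨a, ha, rfl⟩, hf' a (hA ha)]⟩
  have him : Subtype.val '' (f' '' z') = f '' z := by
    ext x
    constructor
    · rintro ⟨_, ⟨y, hy, rfl⟩, rfl⟩
      rw [hf' y hy]
      exact mem_image_of_mem f hy
    · rintro ⟨y, hy, rfl⟩
      refine ⟨_, ⟨⟨y, hYC' (Or.inl hy)⟩, hy, rfl⟩, ?_⟩
      exact hf' ⟨y, hYC' (Or.inl hy)⟩ hy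
  have hTm := low_tm h₀ hK hunb hst hCm hs hCc hτ hτθ hC' hC'c hC's (Y := f' '' z') (by
    rw [him]
    exact hT)
  obtain ⟨D, hD, hDc, hDz⟩ := pg_ls hτ hK (K.mem_of_le _ hC').1 hC'c (X := z') hz'c
  obtain ⟨g, hg, hgf⟩ := PG.LE.exists_aut (pg_real hτ hK hunb hst (K.mem_of_le _ hC').1 hC's hC'c)
    (N := (D : Set C')) ⟨D, hD, hDc, rfl⟩ hDz hLE hTm
  have h5 := low_emp h₀ hK hunb hst hCm hs hCc hτ hτθ hC' hC'c hC's hg hz'c (f := f)
    (fun x hx => by rw [hgf x hx, hf' x hx])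
  rwa [hzz] at h5

/-- The same with the tameness of the domain. -/
theorem emp_of_let' (hτ : BasePt K ℓ κf α τ) (hτθ : τ < θ) {z : Set C} (hz : #z ≤ τ)
    {f : C → C} (hf : ∀ A ⊆ z, #A < τ → ∃ g ∈ (pg h₀ hK hunb hst hCm hs hCc).G, ∀ a ∈ A, g a = f a)
    (hT : (pg h₀ hK hunb hst hCm hs hCc).Tmt τ z) : EMp L τ z f := by
  classical
  have hτ0 : ℵ₀ ≤ τ := hK.1.trans hτ.pt.lt.le
  have hinj : ∀ x ∈ z, ∀ y ∈ z, f x = f y → x = y := by
    intro x hx y hy hxy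
    obtain ⟨g, -, hg⟩ := hf {x, y} (by
      rintro w (rfl | rfl)
      · exact hx
      · exact hy) ((lt_aleph0_iff_set_finite.2 (toFinite _)).trans_le hτ0)
    apply g.injective
    rw [hg x (Or.inl rfl), hg y (Or.inr rfl), hxy]
  let k : C → C := fun y => if h : ∃ x ∈ z, f x = y then h.choose else y
  have hk : ∀ x ∈ z, k (f x) = x := by
    intro x hx
    have h : ∃ w ∈ z, f w = f x := ⟨x, hx, rfl⟩
    have h3 : k (f x) = h.choose := dif_pos h
    rw [h3]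
    exact hinj _ h.choose_spec.1 _ hx h.choose_spec.2
  have hkz : k '' (f '' z) = z := by
    ext x
    constructor
    · rintro ⟨_, ⟨y, hy, rfl⟩, rfl⟩
      rw [hk y hy]
      exact hy
    · intro hx
      exact ⟨f x, mem_image_of_mem f hx, hk x hx⟩
  have h1 := emp_of_let h₀ hK hunb hst hCm hs hCc hτ hτθ (z := f '' z) (mk_image_le.trans hz)
    (f := k) (by
    intro A hA hAc
    obtain ⟨g, hg, hgf⟩ := hf (k '' A) (by
      rw [← hkz]
      exact image_mono hA) (mk_image_le.trans_lt hAc)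
    refine ⟨g⁻¹, (pg h₀ hK hunb hst hCm hs hCc).G.inv_mem hg, fun a ha => ?_⟩
    obtain ⟨x, hx, rfl⟩ := hA ha
    have h2 := hgf (k (f x)) (mem_image_of_mem k ha)
    rw [hk x hx] at h2
    rw [Equiv.Perm.inv_eq_iff_eq, hk x hx, h2]) (by
    rw [hkz]
    exact hT)
  obtain ⟨f', h2, h3⟩ := (pgEM h₀ hK hunb hst hCm hs hCc hτ hτθ).inv h1
  rw [hkz] at h2
  refine (pgEM h₀ hK hunb hst hCm hs hCc hτ hτθ).congr h2 fun x hx => ?_
  have h4 := h3 (f x) (mem_image_of_mem f hx)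
  rwa [hk x hx] at h4

end

end Vale.Agent.P307.R2.H541
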