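import Vale.Agent.P307.R2.H806.TwoPG
import Vale.Agent.P307.R2.H732.Tx2
import Vale.Agent.P307.R2.H427.Low2

/-!
Elementary maps of the level of a smaller base point, on strong submodels and on tame sets: images,
extensions and extensions with a given range.
-/

set_option linter.unusedSectionVars false

universe u

open FirstOrder Cardinal Set

namespace Vale.Agent.P307.R2.H541

open Vale.Agent.P307 Vale.Agent.P307.H304 Vale.Agent.P307.R2.H287 Vale.Agent.P307.R2.H1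
  Vale.Agent.P307.R2.H971 Vale.Agent.P307.R2.H804 Language.Structure Language.Substructure

namespace PG

/-- Homogeneity over sets, from the tameness of the domain. -/
theorem LE.exists_aut' {C : Type u} {M : PG C} (hR : M.Real) {X N : Set C} (hN : N ∈ M.S)
    {f : C → C} (hfN : ∀ x ∈ X, f x ∈ N) (hf : M.LE f X) (hT : M.Tm X) :
    ∃ g ∈ M.G, ∀ x ∈ X, g x = f x := by
  classical
  have hinj : ∀ x ∈ X, ∀ y ∈ X, f x = f y → x = y := by
    intro x hx y hy hxy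
    obtain ⟨g, -, hg⟩ := hf {x, y} (by
      rintro w (rfl | rfl)
      · exact hx
      · exact hy) (small_finite (toFinite _))
    apply g.injective
    rw [hg x (Or.inl rfl), hg y (Or.inr rfl), hxy]
  let k : C → C := fun y => if h : ∃ x ∈ X, f x = y then h.choose else y
  have hk : ∀ x ∈ X, k (f x) = x := by
    intro x hx
    have h : ∃ w ∈ X, f w = f x := ⟨x, hx, rfl⟩
    have h3 : k (f x) = h.choose := dif_pos h
    rw [h3]
    exact hinj _ h.choose_spec.1 _ hx h.choose_spec.2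
  have hkX : k '' (f '' X) = X := by
    ext x
    constructor
    · rintro ⟨_, ⟨y, hy, rfl⟩, rfl⟩
      rw [hk y hy]
      exact hy
    · intro hx
      exact ⟨f x, mem_image_of_mem f hx, hk x hx⟩
  obtain ⟨g, hg, hgk⟩ := LE.exists_aut hR (X := f '' X) (N := N) hN (by
    rintro _ ⟨x, hx, rfl⟩
    exact hfN x hx) (f := k) (by
    intro A hA hAc
    obtain ⟨g, hg, hgf⟩ := hf (k '' A) (by
      rw [← hkX]
      exact image_mono hA) (small_image k hAc)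
    refine ⟨g⁻¹, M.G.inv_mem hg, fun a ha => ?_⟩
    obtain ⟨x, hx, rfl⟩ := hA ha
    have h2 := hgf (k (f x)) (mem_image_of_mem k ha)
    rw [hk x hx] at h2
    rw [hk x hx, ← h2, inv_ap]) (by rw [hkX]; exact hT)
  refine ⟨g⁻¹, M.G.inv_mem hg, fun x hx => ?_⟩
  have h1 := hgk (f x) (mem_image_of_mem f hx)
  rw [hk x hx] at h1
  calc g⁻¹ x = g⁻¹ (g (f x)) := by rw [h1]
    _ = f x := inv_ap g _

end PG

variable {L : Language.{u, u}} {K : AEC L} {ℓ θ τ : Cardinal.{u}}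
  {κf α : Cardinal.{u} → Cardinal.{u}} {C : Type u} [L.Structure C]

/-- The strong submodels of size `τ`. -/
def mS (K : AEC L) (τ : Cardinal.{u}) (C : Type u) [L.Structure C] : Set (Set C) :=
  {N | ∃ D : L.Substructure C, K.le D ∧ #D = τ ∧ (D : Set C) = N}

section

variable (h₀ : BasePt K ℓ κf α θ) (hK : K.IsLS ℓ)
  (hunb : ∀ ν, ν < κf ν ∧ K.CategoricalIn (κf ν)) (hst : Stab K ℓ α (H287.thr κf))
  (hCm : K.mem C) (hs : Sat K θ C) (hCc : #C = Order.succ θ)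

/-- Types over strong submodels are tame. -/
theorem pg_tm_mem {N : Set C} (hN : N ∈ (pg h₀ hK hunb hst hCm hs hCc).S) :
    (pg h₀ hK hunb hst hCm hs hCc).Tm N := by
  have h1 := pg_tm_two h₀ hK hunb hst hCm hs hCc hN hN hN Subset.rfl Subset.rfl
    (PG.Ind.of_sub Subset.rfl)
  rwa [union_self] at h1

theorem mem_mS_of_low (hτ : BasePt K ℓ κf α τ) {C' : L.Substructure C} (hC' : K.le C')
    (hC'c : #C' = Order.succ τ) (hC's : Sat K τ C') {N : Set (C' : Set C)}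
    (hN : N ∈ (pgLow hK hunb hst hτ hC' hC'c hC's).S) : Subtype.val '' N ∈ mS K τ C := by
  obtain ⟨D, hD, hDc, rfl⟩ := hN
  refine ⟨D.map C'.subtype.toHom, K.le_trans C' D hD hC', ?_, rfl⟩
  rw [← hDc]
  exact mk_image_eq (s := (D : Set C')) C'.subtype.injective

/-- Tameness at the lower level, in all the saturated submodels around the set. -/
def TmA (hK : K.IsLS ℓ) (hunb : ∀ ν, ν < κf ν ∧ K.CategoricalIn (κf ν))
    (hst : Stab K ℓ α (H287.thr κf)) (hτ : BasePt K ℓ κf α τ) (X : Set C) : Prop :=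
  ∀ (C' : L.Substructure C) (hC' : K.le C') (hC'c : #C' = Order.succ τ) (hC's : Sat K τ C'),
    X ⊆ C' → (pgLow hK hunb hst hτ hC' hC'c hC's).Tm (PG.tr (C' : Set C) X)

theorem tmA_mem (hτ : BasePt K ℓ κf α τ) {N : Set C} (hN : N ∈ mS K τ C) :
    TmA hK hunb hst hτ N := fun C' hC' hC'c hC's hNC' =>
  pg_tm_mem (C := C') hτ hK hunb hst (K.mem_of_le _ hC').1 hC's hC'c
    (tr_mem hK hunb hst hτ hC' hC'c hC's hN hNC')

include h₀ hCm hs hCc in
/-- Tameness in the whole member gives tameness at the lower level. -/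
theorem tmA_of_tmt (hτ : BasePt K ℓ κf α τ) (hτθ : τ < θ) {X : Set C}
    (hT : (pg h₀ hK hunb hst hCm hs hCc).Tmt τ X) : TmA hK hunb hst hτ X :=
  fun C' hC' hC'c hC's hXC' => low_tm h₀ hK hunb hst hCm hs hCc hτ hτθ hC' hC'c hC's (by
    have h1 : Subtype.val '' PG.tr (C' : Set C) X = X := PG.image_tr hXC'
    change (pg h₀ hK hunb hst hCm hs hCc).Tmt τ (Subtype.val '' PG.tr (C' : Set C) X)
    rw [h1]
    exact hT)

include h₀ hCm hs hCc in
/-- Maps which preserve the types of the tiny pieces of a tame set are induced by automorphisms of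
saturated submodels. -/
theorem exists_low_aut (hτ : BasePt K ℓ κf α τ) (hτθ : τ < θ) {X Y : Set C} (hX : #X ≤ τ)
    (hY : #Y ≤ τ) {f : C → C}
    (hf : ∀ A ⊆ X, #A < τ → ∃ g ∈ (pg h₀ hK hunb hst hCm hs hCc).G, ∀ a ∈ A, g a = f a)
    (hT : TmA hK hunb hst hτ X) :
    ∃ (C' : L.Substructure C) (hC' : K.le C') (hC'c : #C' = Order.succ τ) (hC's : Sat K τ C'),
      X ⊆ C' ∧ Y ⊆ C' ∧ ∃ g ∈ (pgLow hK hunb hst hτ hC' hC'c hC's).G,
        ∀ x : (C' : Set C), (x : C) ∈ X → (g x : C) = f x := by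
  classical
  have hτ0 : ℵ₀ ≤ τ := aleph0_le_pt hτ hK
  obtain ⟨C', hC', hC'c, hC's, hYC'⟩ := exists_low h₀ hK hunb hCm hCc hτ hτθ
    (Y := X ∪ f '' X ∪ Y) ((mk_union_le _ _).trans ((add_le_add ((mk_union_le _ _).trans
      ((add_le_add hX (mk_image_le.trans hX)).trans (add_eq_self hτ0).le)) hY).trans
      (add_eq_self hτ0).le))
  have hXC' : X ⊆ C' := fun x hx => hYC' (Or.inl (Or.inl hx))
  have hfC' : ∀ x ∈ X, f x ∈ C' := fun x hx => hYC' (Or.inl (Or.inr (mem_image_of_mem f hx)))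
  refine ⟨C', hC', hC'c, hC's, hXC', fun y hy => hYC' (Or.inr hy), ?_⟩
  have hL := pg_low h₀ hK hunb hst hCm hs hCc hτ hτθ hC' hC'c hC's
  let f' : ↥(C' : Set C) → ↥(C' : Set C) := fun x => if hx : f x ∈ C' then ⟨f x, hx⟩ else x
  have hf' : ∀ x : (C' : Set C), (x : C) ∈ X → (f' x : C) = f x := by
    intro x hx
    have h2 : f' x = ⟨f x, hfC' x hx⟩ := dif_pos (hfC' x hx)
    rw [h2]
  have hLE := hL.le_dn (X := X) hf' hf
  have hc : #(f' '' PG.tr (C' : Set C) X) ≤ τ :=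
    mk_image_le.trans ((PG.mk_tr_le (D := (C' : Set C)) X).trans hX)
  obtain ⟨D, hD, hDc, hDz⟩ := pg_ls (C := C') hτ hK (K.mem_of_le _ hC').1 hC'c
    (X := f' '' PG.tr (C' : Set C) X) hc
  obtain ⟨g, hg, hgf⟩ := PG.LE.exists_aut' (pg_real (C := C') hτ hK hunb hst
    (K.mem_of_le _ hC').1 hC's hC'c) (X := PG.tr (C' : Set C) X) (N := (D : Set C'))
    ⟨D, hD, hDc, rfl⟩ (fun x hx => hDz (mem_image_of_mem f' hx)) hLE (hT C' hC' hC'c hC's hXC')
  exact ⟨g, hg, fun x hx => by rw [hgf x hx, hf' x hx]⟩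

include h₀ hCm hs hCc in
/-- Images of strong submodels. -/
theorem pack_im (hτ : BasePt K ℓ κf α τ) (hτθ : τ < θ) :
    ∀ E ∈ mS K τ C, ∀ f : C → C,
      (∀ A ⊆ E, #A < τ → ∃ g ∈ (pg h₀ hK hunb hst hCm hs hCc).G, ∀ a ∈ A, g a = f a) →
      f '' E ∈ mS K τ C := by
  intro E hE f hf
  obtain ⟨DE, hDE, hDEc, hDE'⟩ := id hE
  have hEc : #E ≤ τ := by
    rw [← hDE']
    exact hDEc.le
  obtain ⟨C', hC', hC'c, hC's, hEC', -, g, hg, hgf⟩ := exists_low_aut h₀ hK hunb hst hCm hs hCc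
    hτ hτθ (Y := ∅) hEc (by simp) hf (tmA_mem hK hunb hst hτ hE)
  have h1 := mem_mS_of_low hK hunb hst hτ hC' hC'c hC's
    ((pgLow hK hunb hst hτ hC' hC'c hC's).S_inv hg
      (tr_mem hK hunb hst hτ hC' hC'c hC's hE hEC'))
  convert h1 using 1
  ext x
  constructor
  · rintro ⟨y, hy, rfl⟩
    exact ⟨g ⟨y, hEC' hy⟩, mem_image_of_mem g hy, hgf ⟨y, hEC' hy⟩ hy⟩
  · rintro ⟨_, ⟨y, hy, rfl⟩, rfl⟩
    exact ⟨y, hy, (hgf y hy).symm⟩

include h₀ hCm hs hCc in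
/-- Extensions of elementary maps. -/
theorem pack_amal (hτ : BasePt K ℓ κf α τ) (hτθ : τ < θ) :
    ∀ E ∈ mS K τ C, ∀ E' ∈ mS K τ C, E ⊆ E' → ∀ f : C → C,
      (∀ A ⊆ E, #A < τ → ∃ g ∈ (pg h₀ hK hunb hst hCm hs hCc).G, ∀ a ∈ A, g a = f a) →
      ∃ f' : C → C, (∀ a ∈ E, f' a = f a) ∧
        ∀ A ⊆ E', #A < τ → ∃ g ∈ (pg h₀ hK hunb hst hCm hs hCc).G, ∀ a ∈ A, g a = f' a := by
  classical
  intro E hE E' hE' hEE' f hf
  obtain ⟨DE, hDE, hDEc, hDE1⟩ := id hE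
  obtain ⟨DE', hDE', hDE'c, hDE'1⟩ := id hE'
  have hEc : #E ≤ τ := by
    rw [← hDE1]
    exact hDEc.le
  have hE'c : #E' ≤ τ := by
    rw [← hDE'1]
    exact hDE'c.le
  obtain ⟨C', hC', hC'c, hC's, hEC', hE'C', g, hg, hgf⟩ := exists_low_aut h₀ hK hunb hst hCm hs
    hCc hτ hτθ (Y := E') hEc hE'c hf (tmA_mem hK hunb hst hτ hE)
  let f' : C → C := fun x => if hx : x ∈ C' then g ⟨x, hx⟩ else x
  have hf' : ∀ x : (C' : Set C), f' x = g x := fun x => dif_pos x.2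
  refine ⟨f', fun a ha => ?_, fun A hA hAc => ?_⟩
  · exact (hf' ⟨a, hEC' ha⟩).trans (hgf ⟨a, hEC' ha⟩ ha)
  · have hL := pg_low h₀ hK hunb hst hCm hs hCc hτ hτθ hC' hC'c hC's
    obtain ⟨k, hk, hk'⟩ := hL.up' (hA.trans hE'C') hAc hg
    refine ⟨k, hk, fun a ha => ?_⟩
    exact (hk' ⟨a, hE'C' (hA ha)⟩ ha).trans (hf' ⟨a, hE'C' (hA ha)⟩).symm

include h₀ hCm hs hCc in
/-- Extensions of elementary maps with a given range. -/
theorem pack_back (hτ : BasePt K ℓ κf α τ) (hτθ : τ < θ) {X : Set C} (hX : #X ≤ τ)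
    (hT : TmA hK hunb hst hτ X) :
    ∀ F ∈ mS K τ C, ∀ f : C → C,
      (∀ A ⊆ X, #A < τ → ∃ g ∈ (pg h₀ hK hunb hst hCm hs hCc).G, ∀ a ∈ A, g a = f a) →
      (∀ a ∈ X, f a ∈ F) →
      ∃ E ∈ mS K τ C, X ⊆ E ∧ ∃ f' : C → C, (∀ a ∈ X, f' a = f a) ∧
        (∀ A ⊆ E, #A < τ → ∃ g ∈ (pg h₀ hK hunb hst hCm hs hCc).G, ∀ a ∈ A, g a = f' a) ∧
        f' '' E = F := by
  classical
  intro F hF f hf hfF
  obtain ⟨DF, hDF, hDFc, hDF1⟩ := id hF
  have hFc : #F ≤ τ := by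
    rw [← hDF1]
    exact hDFc.le
  obtain ⟨C', hC', hC'c, hC's, hXC', hFC', g, hg, hgf⟩ := exists_low_aut h₀ hK hunb hst hCm hs
    hCc hτ hτθ (Y := F) hX hFc hf hT
  let f' : C → C := fun x => if hx : x ∈ C' then g ⟨x, hx⟩ else x
  have hf' : ∀ x : (C' : Set C), f' x = g x := fun x => dif_pos x.2
  have h1 := mem_mS_of_low hK hunb hst hτ hC' hC'c hC's
    ((pgLow hK hunb hst hτ hC' hC'c hC's).S_inv
      ((pgLow hK hunb hst hτ hC' hC'c hC's).G.inv_mem hg)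
      (tr_mem hK hunb hst hτ hC' hC'c hC's hF hFC'))
  refine ⟨_, h1, fun x hx => ?_, f', fun x hx => ?_, fun A hA hAc => ?_, ?_⟩
  · refine ⟨⟨x, hXC' hx⟩, ⟨g ⟨x, hXC' hx⟩, ?_, PG.inv_ap _ _⟩, rfl⟩
    change (g ⟨x, hXC' hx⟩ : C) ∈ F
    rw [hgf ⟨x, hXC' hx⟩ hx]
    exact hfF x hx
  · exact (hf' ⟨x, hXC' hx⟩).trans (hgf ⟨x, hXC' hx⟩ hx)
  · have hAC' : A ⊆ (C' : Set C) := by
      intro a ha
      obtain ⟨y, -, rfl⟩ := hA ha
      exact y.2
    have hL := pg_low h₀ hK hunb hst hCm hs hCc hτ hτθ hC' hC'c hC's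
    obtain ⟨k, hk, hk'⟩ := hL.up' hAC' hAc hg
    refine ⟨k, hk, fun a ha => ?_⟩
    exact (hk' ⟨a, hAC' ha⟩ ha).trans (hf' ⟨a, hAC' ha⟩).symm
  · ext x
    constructor
    · rintro ⟨_, ⟨_, ⟨y, hy, rfl⟩, rfl⟩, rfl⟩
      have h2 := hf' (g⁻¹ y)
      rw [PG.ap_inv] at h2
      rw [h2]
      exact hy
    · intro hx
      refine ⟨_, ⟨g⁻¹ ⟨x, hFC' hx⟩, ⟨⟨x, hFC' hx⟩, hx, rfl⟩, rfl⟩, ?_⟩
      have h2 := hf' (g⁻¹ ⟨x, hFC' hx⟩)
      rw [PG.ap_inv] at h2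
      exact h2

end

end Vale.Agent.P307.R2.H541
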