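import Vale.Agent.P307.R2.H68.Fcl

/-!
The shift of the points outside a closed set in the orders `Ω ×ₗ B`, for every block `B` with
enough room below its small subsets.
-/

set_option linter.unusedSectionVars false

universe u

open FirstOrder Cardinal Set

namespace Vale.Agent.P307.R2.H427

open Vale.Agent.P307 Vale.Agent.P307.H304 Vale.Agent.P307.R2.H287 Vale.Agent.P307.R2.H1
  Vale.Agent.P307.R2.H806 Vale.Agent.P307.R2.H971 Vale.Agent.P307.R2.H541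
  Language.Structure Language.Substructure
open Vale.Agent.P307.R2.H68 (part mem_part mk_part_le le_mk_part part_mono
  exists_finset_term_of_mem mk_sigma_finset_le)

/-- Below every subset of size at most `σ` there is room for every order of size at most `σ`. -/
def Bot (σ : Cardinal.{u}) (B : Type u) [LinearOrder B] : Prop :=
  ∀ R : Set B, #R ≤ σ → ∀ (W : Type u) [LinearOrder W], #W ≤ σ →
    ∃ e : W → B, StrictMono e ∧ ∀ w, ∀ r ∈ R, e w < r

theorem Bot.mono {σ σ' : Cardinal.{u}} {B : Type u} [LinearOrder B] (h : Bot σ B) (h' : σ' ≤ σ) :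
    Bot σ' B := fun R hR W _ hW => h R (hR.trans h') W (hW.trans h')

/-- The standard block has room. -/
theorem bot_blk {σ : Cardinal.{u}} (hσ : ℵ₀ ≤ σ) : Bot σ (H68.Blk σ) := by
  intro R hR W _ hW
  obtain ⟨e, he⟩ := H68.exists_strictMono_uTy hσ W hW
  obtain ⟨ξ, hξ⟩ := exists_gt_of_small hσ
    ((fun j : H68.Blk σ => OrderDual.ofDual (ofLex j).1) '' R) (mk_image_le.trans hR)
  refine ⟨fun w => toLex (OrderDual.toDual ξ, e w), fun x y hxy => ?_, fun w r hr => ?_⟩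
  · exact (Prod.Lex.lt_iff).2 (Or.inr ⟨rfl, he hxy⟩)
  · exact (Prod.Lex.lt_iff).2 (Or.inl (hξ _ ⟨r, hr, rfl⟩))

variable {Ω B : Type u} [LinearOrder Ω] [LinearOrder B]

/-- Points of `Ω` are moved up to `G`. -/
theorem exists_shiftB {σ : Cardinal.{u}} (hσ : ℵ₀ ≤ σ) (hB : Bot σ B) [WellFoundedLT Ω]
    (G : Set Ω) {P Q : Type u} (hP : #P ≤ σ) (hQ : #Q ≤ σ) (v : P → Ω ×ₗ B) (w : Q → Ω ×ₗ B)
    (hv : ∀ p, v p ∈ part G) (hw : ∀ q, ∃ g ∈ G, (ofLex (w q)).1 ≤ g) :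
    ∃ w' : Q → Ω ×ₗ B, (∀ q, IsLeast {g | g ∈ G ∧ (ofLex (w q)).1 ≤ g} (ofLex (w' q)).1) ∧
      (∀ q, w q ∈ part G → w' q = w q) ∧
      ∀ x y : P ⊕ Q, Sum.elim v w x ≤ Sum.elim v w y ↔ Sum.elim v w' x ≤ Sum.elim v w' y := by
  classical
  -- the next point of `G`
  have hnx : ∀ a : Ω, ∃ b, (∃ g ∈ G, a ≤ g) → IsLeast {g | g ∈ G ∧ a ≤ g} b := by
    intro a
    by_cases h : ∃ g ∈ G, a ≤ g
    · obtain ⟨g, hg, hag⟩ := h
      have hne : {g | g ∈ G ∧ a ≤ g}.Nonempty := ⟨g, hg, hag⟩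
      refine ⟨wellFounded_lt.min _ hne, fun _ => ⟨wellFounded_lt.min_mem _ _, fun x hx => ?_⟩⟩
      exact not_lt.1 (wellFounded_lt.not_lt_min _ hx)
    · exact ⟨a, fun h' => absurd h' h⟩
  choose nx hnx using hnx
  let R : Set (Ω ×ₗ B) := range (Sum.elim v w)
  have hR : #R ≤ σ := by
    refine mk_range_le.trans ?_
    rw [mk_sum, lift_id, lift_id]
    exact (add_le_add hP hQ).trans (add_eq_self hσ).le
  obtain ⟨e, he, hξ⟩ := hB ((fun j : Ω ×ₗ B => (ofLex j).2) '' R) (mk_image_le.trans hR) R hR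
  have hξ' : ∀ x : R, ∀ y ∈ R, e x < (ofLex y).2 := fun x y hy => hξ x _ ⟨y, hy, rfl⟩
  have hex : ∀ y ∈ R, ∃ g ∈ G, (ofLex y).1 ≤ g := by
    rintro _ ⟨p | q, rfl⟩
    · exact ⟨_, hv p, le_rfl⟩
    · exact hw q
  let F : Ω ×ₗ B → Ω ×ₗ B := fun y => if h : y ∈ R ∧ y ∉ part G then
    toLex (nx (ofLex y).1, e ⟨y, h.1⟩) else y
  have hFG : ∀ y, y ∈ part G → F y = y := fun y hy => dif_neg fun h => h.2 hy
  have hFn : ∀ y (hy : y ∈ R), y ∉ part G → F y =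
      toLex (nx (ofLex y).1, e ⟨y, hy⟩) := fun y hy h => dif_pos ⟨hy, h⟩
  -- strictly above
  have hlt : ∀ y ∈ R, y ∉ part G → (ofLex y).1 < nx (ofLex y).1 := by
    intro y hy hyG
    have h1 := (hnx _ (hex y hy)).1
    refine lt_of_le_of_ne h1.2 fun h2 => hyG ?_
    change (ofLex y).1 ∈ G
    rw [h2]
    exact h1.1
  have hF : ∀ y ∈ R, ∀ z ∈ R, y < z → F y < F z := by
    intro y hy z hz hyz
    have hyz1 : (ofLex y).1 ≤ (ofLex z).1 := by
      rcases (Prod.Lex.lt_iff).1 hyz with h | h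
      · exact h.le
      · exact h.1.le
    by_cases h1 : y ∈ part G <;> by_cases h2 : z ∈ part G
    · rw [hFG y h1, hFG z h2]
      exact hyz
    · rw [hFG y h1, hFn z hz h2]
      refine (Prod.Lex.lt_iff).2 (Or.inl ?_)
      exact hyz1.trans_lt (hlt z hz h2)
    · rw [hFG z h2, hFn y hy h1]
      have h3 : nx (ofLex y).1 ≤ (ofLex z).1 := (hnx _ (hex y hy)).2 ⟨h2, hyz1⟩
      rcases h3.lt_or_eq with h4 | h4
      · exact (Prod.Lex.lt_iff).2 (Or.inl h4)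
      · exact (Prod.Lex.lt_iff).2 (Or.inr ⟨h4, hξ' _ z hz⟩)
    · rw [hFn y hy h1, hFn z hz h2]
      have h3 : nx (ofLex y).1 ≤ nx (ofLex z).1 := by
        have h4 := (hnx _ (hex z hz)).1
        exact (hnx _ (hex y hy)).2 ⟨h4.1, hyz1.trans h4.2⟩
      rcases h3.lt_or_eq with h4 | h4
      · exact (Prod.Lex.lt_iff).2 (Or.inl h4)
      · exact (Prod.Lex.lt_iff).2 (Or.inr ⟨h4, he hyz⟩)
  refine ⟨fun q => F (w q), fun q => ?_, fun q hq => hFG _ hq, ?_⟩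
  · have hq : w q ∈ R := ⟨Sum.inr q, rfl⟩
    by_cases h1 : w q ∈ part G
    · change IsLeast _ (ofLex (F (w q))).1
      rw [hFG _ h1]
      exact ⟨⟨h1, le_rfl⟩, fun x hx => hx.2⟩
    · change IsLeast _ (ofLex (F (w q))).1
      rw [hFn _ hq h1]
      exact hnx _ (hex _ hq)
  · have h1 : ∀ x : P ⊕ Q, Sum.elim v (fun q => F (w q)) x = F (Sum.elim v w x) := by
      rintro (p | q)
      · exact (hFG _ (hv p)).symm
      · rfl
    intro x y
    rw [h1, h1]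
    have hx : Sum.elim v w x ∈ R := ⟨x, rfl⟩
    have hy : Sum.elim v w y ∈ R := ⟨y, rfl⟩
    constructor
    · intro h
      rcases h.lt_or_eq with h | h
      · exact (hF _ hx _ hy h).le
      · rw [h]
    · intro h
      by_contra h2
      exact absurd (hF _ hy _ hx (not_le.1 h2)) h.not_gt

variable {L : Language.{u, u}} {K : AEC L} {ℓ θ : Cardinal.{u}}
  {κf α : Cardinal.{u} → Cardinal.{u}} {C : Type u} [L.Structure C]

/-- **The shift**, general form. -/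
theorem exists_shift_hullB (hK : K.IsLS ℓ) (hunb : ∀ ν, ν < κf ν ∧ K.CategoricalIn (κf ν))
    {σ μ : Cardinal.{u}} (hℓ : ℓ ≤ σ) (hσμ : σ ≤ μ) (hB : Bot σ B) {t : Tpl K ℓ}
    [WellFoundedLT Ω] (F : EM t (Ω ×ₗ B)) (hF : H287.thr κf μ ≤ #F.N) (G : Set Ω)
    {ι ζ : Type u} (hι : #ι ≤ σ) (hζ : #ζ ≤ σ) (S S' : ι → Set Ω)
    (hS : ∀ i, ∀ x ∈ S i, ∃ g ∈ S' i, IsLeast {g | g ∈ G ∧ x ≤ g} g)
    (m : ζ → F.N) (hm : ∀ j, m j ∈ hull F (part G))
    (r : ι → F.N) (hr : ∀ i, r i ∈ hull F (part (S i))) :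
    ∃ r' : ι → F.N, (∀ i, r' i ∈ hull F (part (S' i ∩ G))) ∧
      EqS L μ (Sum.elim m r) (Sum.elim m r') := by
  have hσ : ℵ₀ ≤ σ := t.hν.trans hℓ
  choose wm sm hwm hsm using fun j => exists_finset_term_of_mem F (hm j)
  choose wr sr hwr hsr using fun i => exists_finset_term_of_mem F (hr i)
  have hP : #(Σ j, (wm j : Set (Ω ×ₗ B))) ≤ σ := mk_sigma_finset_le hσ wm hζ
  have hQ : #(Σ i, (wr i : Set (Ω ×ₗ B))) ≤ σ := mk_sigma_finset_le hσ wr hι
  let v : (Σ j, (wm j : Set (Ω ×ₗ B))) → Ω ×ₗ B := fun p => p.2.1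
  let w : (Σ i, (wr i : Set (Ω ×ₗ B))) → Ω ×ₗ B := fun p => p.2.1
  have hw : ∀ q, ∃ g ∈ S' q.1, IsLeast {g | g ∈ G ∧ (ofLex (w q)).1 ≤ g} g := fun q =>
    hS q.1 _ (hwr q.1 _ q.2.2)
  obtain ⟨w', h1, -, h3⟩ := exists_shiftB hσ hB G hP hQ v w (fun p => hwm p.1 _ p.2.2)
    (fun q => by
      obtain ⟨g, -, hg⟩ := hw q
      exact ⟨g, hg.1⟩)
  have h1' : ∀ q, w' q ∈ (part (S' q.1 ∩ G) : Set (Ω ×ₗ B)) := by
    intro q
    obtain ⟨g, hgS, hg⟩ := hw q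
    have h4 := (h1 q).unique hg
    rw [mem_part, h4]
    exact ⟨hgS, hg.1.1⟩
  let fm : ∀ j, wm j → (Σ j, (wm j : Set (Ω ×ₗ B))) := fun j k => ⟨j, k.1, k.2⟩
  let fr : ∀ i, wr i → (Σ i, (wr i : Set (Ω ×ₗ B))) := fun i k => ⟨i, k.1, k.2⟩
  let s : ζ ⊕ ι → (exLang L t.Λ).Term ((Σ j, (wm j : Set (Ω ×ₗ B))) ⊕
      (Σ i, (wr i : Set (Ω ×ₗ B)))) :=
    Sum.elim (fun j => (sm j).relabel fun k => Sum.inl (fm j k))
      (fun i => (sr i).relabel fun k => Sum.inr (fr i k))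
  have hPQ : #((Σ j, (wm j : Set (Ω ×ₗ B))) ⊕ (Σ i, (wr i : Set (Ω ×ₗ B)))) ≤ μ := by
    rw [mk_sum, lift_id, lift_id]
    exact ((add_le_add hP hQ).trans (add_eq_self hσ).le).trans hσμ
  have hζι : #(ζ ⊕ ι) ≤ μ := by
    rw [mk_sum, lift_id, lift_id]
    exact ((add_le_add hζ hι).trans (add_eq_self hσ).le).trans hσμ
  have h4 := eqS_pat hK hunb (hℓ.trans hσμ) F F hF hF hPQ (Sum.elim v w) (Sum.elim v w') h3
    hζι s
  have h5 : (fun x => (s x).realize fun q => F.c (Sum.elim v w q)) = Sum.elim m r := by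
    funext x
    rcases x with j | i
    · change ((sm j).relabel fun k => Sum.inl (fm j k)).realize _ = m j
      rw [Language.Term.realize_relabel, ← hsm j]
      rfl
    · change ((sr i).relabel fun k => Sum.inr (fr i k)).realize _ = r i
      rw [Language.Term.realize_relabel, ← hsr i]
      rfl
  have h6 : (fun x => (s x).realize fun q => F.c (Sum.elim v w' q)) =
      Sum.elim m (fun i => (sr i).realize fun k => F.c (w' (fr i k))) := by
    funext x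
    rcases x with j | i
    · change ((sm j).relabel fun k => Sum.inl (fm j k)).realize _ = m j
      rw [Language.Term.realize_relabel, ← hsm j]
      rfl
    · change ((sr i).relabel fun k => Sum.inr (fr i k)).realize _ = _
      rw [Language.Term.realize_relabel]
      rfl
  refine ⟨fun i => (sr i).realize fun k => F.c (w' (fr i k)), fun i => ?_, ?_⟩
  · exact (mem_closure_image_iff F.c _ _).2 ⟨(sr i).relabel fun k => ⟨w' (fr i k), h1' (fr i k)⟩, by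
      rw [Language.Term.realize_relabel]
      rfl⟩
  · rw [h5, h6] at h4
    exact h4

section

variable (h₀ : BasePt K ℓ κf α θ) (hK : K.IsLS ℓ)
  (hunb : ∀ ν, ν < κf ν ∧ K.CategoricalIn (κf ν)) (hst : Stab K ℓ α (H287.thr κf))
  (hCm : K.mem C) (hs : Sat K θ C) (hCc : #C = Order.succ θ)

include h₀ hK hunb hst hCm hs hCc

/-- The shift by automorphisms of `C`, general form. -/
theorem exists_shift_autB {σ : Cardinal.{u}} (hσ : ℓ ≤ σ) (hσθ : σ < θ) (hB : Bot σ B)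
    {t : Tpl K ℓ} [WellFoundedLT Ω] (F : EM t (Ω ×ₗ B)) (hF : θ ≤ #F.N)
    (e : F.N ↪[L] C) (he : K.Emb e) (G : Set Ω) {ι ζ : Type u} (hι : #ι ≤ σ) (hζ : #ζ ≤ σ)
    (S S' : ι → Set Ω) (hS : ∀ i, ∀ x ∈ S i, ∃ g ∈ S' i, IsLeast {g | g ∈ G ∧ x ≤ g} g)
    (m : ζ → F.N) (hm : ∀ j, m j ∈ hull F (part G))
    (r : ι → F.N) (hr : ∀ i, r i ∈ hull F (part (S i))) :
    ∃ g ∈ autG L C, (∀ j, g (e (m j)) = e (m j)) ∧
      ∀ i, ∃ x ∈ hull F (part (S' i ∩ G)), g (e (r i)) = e x := by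
  have hσ0 : ℵ₀ ≤ σ := hK.1.trans hσ
  have hσα : σ ≤ α σ := (hst σ hσ).1
  have hthr : H287.thr κf (α σ) ≤ #F.N := (h₀.pt.thr _ (h₀.al σ hσθ)).le.trans hF
  obtain ⟨r', h1, h2⟩ := exists_shift_hullB hK hunb hσ hσα hB F hthr G hι hζ S S' hS m hm r hr
  have hc : #(ζ ⊕ ι) ≤ σ := by
    rw [mk_sum, lift_id, lift_id]
    exact (add_le_add hζ hι).trans (add_eq_self hσ0).le
  have h3 := EqS.map_emb hK hunb (hσ.trans hσα) e he hthr (hc.trans hσα) (Sum.elim m r)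
  have h4 := EqS.map_emb hK hunb (hσ.trans hσα) e he hthr (hc.trans hσα) (Sum.elim m r')
  have h5 : EqS L (α σ) (fun x => e (Sum.elim m r x)) (fun x => e (Sum.elim m r' x)) :=
    (h3.symm.trans h2).trans h4
  obtain ⟨g, hg, hg'⟩ := exists_mem_autG h₀ hK hunb hst hCm hs hCc hσ hσθ hc _ _ h5
  exact ⟨g, hg, fun j => hg' (Sum.inl j), fun i => ⟨r' i, h1 i, hg' (Sum.inr i)⟩⟩

end

end Vale.Agent.P307.R2.H427
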