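import Vale.Agent.P307.R2.H68.SatB

/-!
EM models over orders with a convex part isomorphic to `θ⁺ ×ₗ B` are saturated.
-/

set_option linter.unusedSectionVars false

universe u

open FirstOrder Cardinal Set

namespace Vale.Agent.P307.R2.H427

open Vale.Agent.P307 Vale.Agent.P307.H304 Vale.Agent.P307.R2.H287 Vale.Agent.P307.R2.H1
  Vale.Agent.P307.R2.H806 Vale.Agent.P307.R2.H971 Language.Structure Language.Substructure
open Vale.Agent.P307.R2.H68 (part mk_part_le le_mk_part)

variable {L : Language.{u, u}} {K : AEC L} {ℓ θ T ν : Cardinal.{u}}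

section order

variable {J A : Type u} [LinearOrder J] [LinearOrder A] {s : A → J}

theorem side_lt (hc : (range s).OrdConnected) {y : J} (hy : y ∉ range s) {a b : A}
    (h : s a < y) : s b < y := by
  rcases lt_trichotomy (s b) y with h1 | h1 | h1
  · exact h1
  · exact absurd ⟨b, h1⟩ hy
  · exact absurd (hc.out ⟨a, rfl⟩ ⟨b, rfl⟩ ⟨h.le, h1.le⟩) hy

theorem side_gt (hc : (range s).OrdConnected) {y : J} (hy : y ∉ range s) {a b : A}
    (h : y < s a) : y < s b := by
  rcases lt_trichotomy (s b) y with h1 | h1 | h1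
  · exact absurd (hc.out ⟨b, rfl⟩ ⟨a, rfl⟩ ⟨h1.le, h.le⟩) hy
  · exact absurd ⟨b, h1⟩ hy
  · exact h1

end order

/-- EM models over orders with a long convex part are saturated. -/
theorem sat_em_long (hAB : AB K θ T) (hK : K.IsLS ℓ) (hℓ : ℓ ≤ θ) (hext : LargeExt K θ T)
    (t : Tpl K ν) (hν : ν ≤ θ) {B : Type u} [LinearOrder B] [Nonempty B] (hB : #B ≤ θ)
    {J : Type u} [LinearOrder J] (s : SuccTy θ ×ₗ B → J) (hs : StrictMono s)
    (hc : (range s).OrdConnected) (E : EM t J) : Sat K θ E.N := by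
  classical
  have hθ : ℵ₀ ≤ θ := hK.1.trans hℓ
  refine sat_em_gen hAB hK hℓ hext t hν (fun V hV => ?_) E
  obtain ⟨i, hi, hic⟩ := exists_bound hθ ((fun j : SuccTy θ ×ₗ B => (ofLex j).1) '' (s ⁻¹' V))
    (mk_image_le.trans ((mk_preimage_of_injective _ _ hs.injective).trans hV))
  let Ω : Type u := SuccTy (max θ T)
  have h1 : Ordinal.type (α := SuccTy θ) (· < ·) ≤ Ordinal.type (α := Ω) (· < ·) := by
    rw [Ordinal.type_toType, Ordinal.type_toType]
    exact ord_le_ord.2 (Order.succ_le_succ (le_max_left _ _))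
  obtain ⟨emb⟩ := Ordinal.type_le_iff.1 h1
  have hemb : StrictMono emb := fun a b hab => emb.map_rel_iff.2 hab
  let b₀ : B := Classical.arbitrary B
  let a₀ : SuccTy θ ×ₗ B := toLex (i, b₀)
  let d₀ : Ω ×ₗ B := toLex (emb i, b₀)
  let Q : Type u := {y : J // y ∉ range s ∨ y = s a₀}
  let q₀ : Q := ⟨s a₀, Or.inr rfl⟩
  let J₀ : Type u := {p : Q ×ₗ (Ω ×ₗ B) // (ofLex p).1 = q₀ ∨ (ofLex p).2 = d₀}
  let V' : Set J := V ∪ s '' part (Iio i)
  have hreg : ∀ a : SuccTy θ ×ₗ B, s a ∈ V' → (ofLex a).1 < i := by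
    rintro a (ha | ⟨b, hb, hba⟩)
    · exact hi _ ⟨a, ha, rfl⟩
    · rw [← hs.injective hba]
      exact hb
  -- the map
  let e : V' → J₀ := fun v => if h : (v : J) ∈ range s then
    ⟨toLex (q₀, toLex (emb (ofLex h.choose).1, (ofLex h.choose).2)), Or.inl rfl⟩ else
    ⟨toLex (⟨v, Or.inl h⟩, d₀), Or.inr rfl⟩
  have he1 : ∀ (v : V') (a : SuccTy θ ×ₗ B), s a = v →
      e v = ⟨toLex (q₀, toLex (emb (ofLex a).1, (ofLex a).2)), Or.inl rfl⟩ := by
    intro v a ha
    have h : (v : J) ∈ range s := ⟨a, ha⟩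
    have h2 : h.choose = a := hs.injective (h.choose_spec.trans ha.symm)
    have h3 : e v = ⟨toLex (q₀, toLex (emb (ofLex h.choose).1, (ofLex h.choose).2)),
      Or.inl rfl⟩ := dif_pos h
    rw [h3]
    apply Subtype.ext
    change toLex (q₀, toLex (emb (ofLex h.choose).1, (ofLex h.choose).2)) = _
    rw [h2]
  have he2 : ∀ (v : V') (h : (v : J) ∉ range s), e v = ⟨toLex (⟨v, Or.inl h⟩, d₀), Or.inr rfl⟩ :=
    fun v h => dif_neg h
  have hemono : StrictMono e := by
    intro v w hvw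
    have hvw' : (v : J) < w := hvw
    by_cases h1 : (v : J) ∈ range s <;> by_cases h2 : (w : J) ∈ range s
    · obtain ⟨a, ha⟩ := h1
      obtain ⟨b, hb⟩ := h2
      rw [he1 v a ha, he1 w b hb]
      rw [← ha, ← hb] at hvw'
      have h3 := hs.lt_iff_lt.1 hvw'
      refine Prod.Lex.lt_iff.2 (Or.inr ⟨rfl, ?_⟩)
      rcases Prod.Lex.lt_iff.1 h3 with h | h
      · exact Prod.Lex.lt_iff.2 (Or.inl (hemb h))
      · exact Prod.Lex.lt_iff.2 (Or.inr ⟨congrArg emb h.1, h.2⟩)
    · obtain ⟨a, ha⟩ := h1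
      rw [he1 v a ha, he2 w h2]
      refine Prod.Lex.lt_iff.2 (Or.inl ?_)
      rw [← ha] at hvw'
      exact side_lt hc h2 hvw'
    · obtain ⟨b, hb⟩ := h2
      rw [he2 v h1, he1 w b hb]
      refine Prod.Lex.lt_iff.2 (Or.inl ?_)
      rw [← hb] at hvw'
      exact side_gt hc h1 hvw'
    · rw [he2 v h1, he2 w h2]
      exact Prod.Lex.lt_iff.2 (Or.inl hvw')
  refine ⟨V', J₀, inferInstance, e, subset_union_left, ?_, hemono, ?_, ?_⟩
  · refine le_antisymm ((mk_union_le _ _).trans (add_le_of_le hθ hV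
      (mk_image_le.trans (mk_part_le hθ hic.le hB)))) ?_
    have h2 : θ ≤ #(s '' (part (Iio i) : Set (SuccTy θ ×ₗ B)) : Set J) := by
      rw [mk_image_eq hs.injective]
      exact le_mk_part hic.ge
    exact h2.trans (mk_le_mk_of_subset subset_union_right)
  · have h2 : T ≤ #Ω := by
      change T ≤ #((Order.succ (max θ T)).ord.ToType)
      rw [mk_toType, card_ord]
      exact (le_max_right _ _).trans (Order.le_succ _)
    refine h2.trans (mk_le_of_injective (f := fun ω : Ω =>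
      (⟨toLex (q₀, toLex (ω, b₀)), Or.inl rfl⟩ : J₀)) ?_)
    intro ω ω' h
    have h3 := congrArg Subtype.val h
    have h4 : (q₀, toLex (ω, b₀)) = ((q₀, toLex (ω', b₀)) : Q × (Ω ×ₗ B)) := toLex.injective h3
    have h5 : toLex (ω, b₀) = toLex (ω', b₀) := congrArg Prod.snd h4
    exact congrArg Prod.fst (toLex.injective h5)
  · intro Y hY hYe
    let Y₁ : Set Ω := (fun p : J₀ => (ofLex (ofLex p.1).2).1) '' Y
    have hY₁ : #Y₁ ≤ θ := mk_image_le.trans hY
    have hx : ∀ x < i, emb x ∈ Y₁ := by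
      intro x hx
      have h2 : s (toLex (x, b₀)) ∈ V' := Or.inr ⟨toLex (x, b₀), hx, rfl⟩
      refine ⟨e ⟨_, h2⟩, hYe ⟨_, rfl⟩, ?_⟩
      rw [he1 ⟨_, h2⟩ (toLex (x, b₀)) rfl]
      rfl
    obtain ⟨τ, hτ, hτ'⟩ := exists_collapse emb i Y₁ hY₁ hx
    let f : Y → J := fun p => if (ofLex p.1.1).1 = q₀ then
      s (toLex (τ ⟨(ofLex (ofLex p.1.1).2).1, ⟨p.1, p.2, rfl⟩⟩, (ofLex (ofLex p.1.1).2).2)) else
      (ofLex p.1.1).1.1
    have hf1 : ∀ p : Y, (ofLex p.1.1).1 = q₀ → f p = s (toLex (τ ⟨(ofLex (ofLex p.1.1).2).1,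
        ⟨p.1, p.2, rfl⟩⟩, (ofLex (ofLex p.1.1).2).2)) := fun p h => if_pos h
    have hf2 : ∀ p : Y, (ofLex p.1.1).1 ≠ q₀ → f p = (ofLex p.1.1).1.1 := fun p h => if_neg h
    have hnr : ∀ p : Y, (ofLex p.1.1).1 ≠ q₀ → (ofLex p.1.1).1.1 ∉ range s := by
      intro p h
      rcases (ofLex p.1.1).1.2 with h2 | h2
      · exact h2
      · exact absurd (Subtype.ext h2) h
    refine ⟨f, ?_, ?_⟩
    · intro p q hpq
      have hpq' : p.1.1 < q.1.1 := hpq
      by_cases h1 : (ofLex p.1.1).1 = q₀ <;> by_cases h2 : (ofLex q.1.1).1 = q₀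
      · rw [hf1 p h1, hf1 q h2]
        refine hs ?_
        rcases Prod.Lex.lt_iff.1 hpq' with h | h
        · rw [h1, h2] at h
          exact absurd h (lt_irrefl _)
        · rcases Prod.Lex.lt_iff.1 h.2 with h3 | h3
          · exact Prod.Lex.lt_iff.2 (Or.inl (hτ h3))
          · refine Prod.Lex.lt_iff.2 (Or.inr ⟨?_, h3.2⟩)
            change τ _ = τ _
            congr 1
            exact Subtype.ext h3.1
      · rw [hf1 p h1, hf2 q h2]
        have h3 : (ofLex p.1.1).1 < (ofLex q.1.1).1 := by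
          rcases Prod.Lex.lt_iff.1 hpq' with h | h
          · exact h
          · exact absurd (h.1.symm.trans h1) h2
        rw [h1] at h3
        exact side_lt hc (hnr q h2) (a := a₀) h3
      · rw [hf2 p h1, hf1 q h2]
        have h3 : (ofLex p.1.1).1 < (ofLex q.1.1).1 := by
          rcases Prod.Lex.lt_iff.1 hpq' with h | h
          · exact h
          · exact absurd (h.1.trans h2) h1
        rw [h2] at h3
        exact side_gt hc (hnr p h1) (a := a₀) h3
      · rw [hf2 p h1, hf2 q h2]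
        have h3 : (ofLex p.1.1).1 < (ofLex q.1.1).1 := by
          rcases Prod.Lex.lt_iff.1 hpq' with h | h
          · exact h
          · have h4 : (ofLex p.1.1).2 = d₀ := p.1.2.resolve_left h1
            have h5 : (ofLex q.1.1).2 = d₀ := q.1.2.resolve_left h2
            have h6 := h.2
            rw [h4, h5] at h6
            exact absurd h6 (lt_irrefl _)
        exact h3
    · intro v hv
      by_cases h : (v : J) ∈ range s
      · obtain ⟨a, ha⟩ := h
        have h2 := he1 v a ha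
        have h3 : (ofLex (e v).1).1 = q₀ := by
          rw [h2]
          rfl
        rw [hf1 ⟨e v, hv⟩ h3]
        have ha' : (ofLex a).1 < i := hreg a (by
          rw [ha]
          exact v.2)
        have h4 : (ofLex (ofLex (e v).1).2).1 = emb (ofLex a).1 := by
          rw [h2]
          rfl
        have h5 : (ofLex (ofLex (e v).1).2).2 = (ofLex a).2 := by
          rw [h2]
          rfl
        have h6 : τ ⟨(ofLex (ofLex (e v).1).2).1, ⟨e v, hv, rfl⟩⟩ = (ofLex a).1 := by
          rw [← hτ' (ofLex a).1 ha']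
          congr 1
          exact Subtype.ext h4
        change s (toLex (τ ⟨(ofLex (ofLex (e v).1).2).1, ⟨e v, hv, rfl⟩⟩,
          (ofLex (ofLex (e v).1).2).2)) = (v : J)
        rw [h6, h5]
        exact ha
      · have h2 := he2 v h
        have h3 : (ofLex (e v).1).1 ≠ q₀ := by
          rw [h2]
          intro h4
          have h5 : (v : J) = s a₀ := congrArg Subtype.val h4
          exact h ⟨a₀, h5.symm⟩
        rw [hf2 ⟨e v, hv⟩ h3]
        change (ofLex (e v).1).1.1 = v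
        rw [h2]
        rfl

end Vale.Agent.P307.R2.H427
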