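import Vale.Agent.P307.R2.H427.BotOrd
import Vale.Agent.P307.R2.H427.Chart3

/-!
The standard families over an arbitrary block: charts of the whole member over the order of the
regions, the families of models given by bounds.
-/

set_option linter.unusedSectionVars false

universe u v

open FirstOrder Cardinal Set

namespace Vale.Agent.P307.R2.H427

open Vale.Agent.P307 Vale.Agent.P307.H304 Vale.Agent.P307.R2.H287 Vale.Agent.P307.R2.H1
  Vale.Agent.P307.R2.H806 Vale.Agent.P307.R2.H971 Vale.Agent.P307.R2.H541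
  Language.Structure Language.Substructure
open Vale.Agent.P307.R2.H68 (part mk_part_le le_mk_part part_mono exists_finset_term_of_mem)
open Vale.Agent.P307.R2.H533 (iun ibd IFam IRef)

open scoped Classical

variable {ι : Type v} {L : Language.{u, u}} {K : AEC L} {ℓ θ σ : Cardinal.{u}} {B : Type u}
  [LinearOrder B]
  {κf α : Cardinal.{u} → Cardinal.{u}} {C : Type u} [L.Structure C]

variable (ι K ℓ θ B C) in
/-- The data of the standard families: a chart of the whole member, the faces of the regions, and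
the bound of the empty face. -/
structure ChartB where
  m : ℕ
  r : Fin m → Finset ι
  a₀ : SuccTy θ
  t : Tpl K ℓ
  E : EM t (Reg θ m ×ₗ B)
  e : E.N ≃[L] C
  hr : ∃ i, r i = ∅
  ha : #(Iio a₀) = θ

namespace ChartB

variable (c : ChartB ι K ℓ θ B C)

/-- The bounds. -/
noncomputable def bd (b : Finset ι → SuccTy θ) (w : Finset ι) : SuccTy θ :=
  if w = ∅ then c.a₀ else b w

/-- The index set of a face: the tops of all the regions, and the points of the regions of the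
subfaces below the bounds. -/
def Sx (b : Finset ι → SuccTy θ) (v : Finset ι) : Set (Reg θ c.m) :=
  {p | (∃ i, p = rp i 2 c.a₀) ∨ ∃ i, c.r i ⊆ v ∧ ∃ x ≤ c.bd b (c.r i), p = rp i 0 x}

/-- The standard family. -/
def St (b : Finset ι → SuccTy θ) (v : Finset ι) : Set C :=
  c.e '' (hullL c.E (part (c.Sx b v)) : Set c.E.N)

variable {c} {b b' : Finset ι → SuccTy θ} {v w : Finset ι}

theorem top_mem (i : Fin c.m) : rp i 2 c.a₀ ∈ c.Sx b v := Or.inl ⟨i, rfl⟩

theorem reg_mem {i : Fin c.m} {x : SuccTy θ} :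
    rp i 0 x ∈ c.Sx b v ↔ c.r i ⊆ v ∧ x ≤ c.bd b (c.r i) := by
  constructor
  · rintro (⟨j, h⟩ | ⟨j, h1, y, h2, h3⟩)
    · have h1 := (rp_inj.1 h).2.1
      exact absurd h1 (by decide)
    · obtain ⟨rfl, -, rfl⟩ := rp_inj.1 h3
      exact ⟨h1, h2⟩
  · rintro ⟨h1, h2⟩
    exact Or.inr ⟨i, h1, x, h2, rfl⟩

theorem Sx_mono (h : w ⊆ v) : c.Sx b w ⊆ c.Sx b v := by
  rintro p (hp | ⟨i, h1, h2⟩)
  · exact Or.inl hp
  · exact Or.inr ⟨i, h1.trans h, h2⟩

theorem Sx_congr (h : ∀ w ⊆ v, w.Nonempty → b w = b' w) : c.Sx b v = c.Sx b' v := by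
  have h1 : ∀ i, c.r i ⊆ v → c.bd b (c.r i) = c.bd b' (c.r i) := by
    intro i hi
    unfold bd
    by_cases h2 : c.r i = ∅
    · rw [if_pos h2, if_pos h2]
    · rw [if_neg h2, if_neg h2]
      exact h _ hi (Finset.nonempty_iff_ne_empty.2 h2)
  ext p
  constructor
  · rintro (hp | ⟨i, h2, x, h3, h4⟩)
    · exact Or.inl hp
    · exact Or.inr ⟨i, h2, x, by rwa [← h1 i h2], h4⟩
  · rintro (hp | ⟨i, h2, x, h3, h4⟩)
    · exact Or.inl hp
    · exact Or.inr ⟨i, h2, x, by rwa [h1 i h2], h4⟩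

theorem St_mono (h : w ⊆ v) : c.St b w ⊆ c.St b v :=
  image_mono (hullL_mono c.E (part_mono (Sx_mono h)))

theorem St_congr (h : ∀ w ⊆ v, w.Nonempty → b w = b' w) : c.St b v = c.St b' v := by
  unfold St
  rw [Sx_congr h]

theorem mk_Sx_le (hθ : ℵ₀ ≤ θ) : #(c.Sx b v) ≤ θ := by
  have h1 : c.Sx b v ⊆ (range fun i : ULift.{u} (Fin c.m) => rp i.down 2 c.a₀) ∪
      ⋃ i : ULift.{u} (Fin c.m), (rp i.down 0) '' Iic (c.bd b (c.r i.down)) := by
    rintro p (⟨i, rfl⟩ | ⟨i, -, x, h3, rfl⟩)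
    · exact Or.inl ⟨⟨i⟩, rfl⟩
    · exact Or.inr (mem_iUnion.2 ⟨⟨i⟩, x, h3, rfl⟩)
  have h2 : #(ULift.{u} (Fin c.m)) ≤ θ := (lt_aleph0_of_finite _).le.trans hθ
  refine (mk_le_mk_of_subset h1).trans ((mk_union_le _ _).trans
    (add_le_of_le hθ (mk_range_le.trans h2) ((mk_iUnion_le _).trans ?_)))
  refine (mul_le_mul' h2 (ciSup_le' fun i => ?_)).trans (mul_eq_self hθ).le
  exact mk_image_le.trans (Chart.mk_Iic_le hθ _)

theorem le_mk_Sx : θ ≤ #(c.Sx b v) := by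
  obtain ⟨i, hi⟩ := c.hr
  have h1 : (rp i 0) '' Iio c.a₀ ⊆ c.Sx b v := by
    rintro _ ⟨x, hx, rfl⟩
    refine reg_mem.2 ⟨by rw [hi]; exact Finset.empty_subset v, ?_⟩
    unfold bd
    rw [if_pos hi]
    exact (mem_Iio.1 hx).le
  have h2 : #((rp i 0 : SuccTy θ → Reg θ c.m) '' Iio c.a₀) = θ := by
    rw [mk_image_eq, c.ha]
    intro x y hxy
    exact (rp_inj.1 hxy).2.2
  exact h2.ge.trans (mk_le_mk_of_subset h1)

end ChartB

section

variable (h₀ : BasePt K ℓ κf α θ) (hK : K.IsLS ℓ)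
  (hunb : ∀ ν, ν < κf ν ∧ K.CategoricalIn (κf ν)) (hst : Stab K ℓ α (H287.thr κf))
  (hCm : K.mem C) (hs : Sat K θ C) (hCc : #C = Order.succ θ)

/-- The faces of the standard families are models. -/
theorem ChartB.St_mem [Nonempty B] (hB : #B ≤ θ) (c : ChartB ι K ℓ θ B C)
    (b : Finset ι → SuccTy θ) (v : Finset ι) :
    c.St b v ∈ (pg h₀ hK hunb hst hCm hs hCc).S := by
  have hθ := aleph0_le_pt h₀ hK
  have h1 : K.le ((hullL c.E (part (c.Sx b v))).map c.e.toHom) :=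
    K.le_iso c.e _ (le_hullL c.E _)
  refine ⟨(hullL c.E (part (c.Sx b v))).map c.e.toHom, h1, ?_, rfl⟩
  have h2 : #((hullL c.E (part (c.Sx b v))).map c.e.toHom) =
      #(c.e '' (hullL c.E (part (c.Sx b v)) : Set c.E.N) : Set C) := rfl
  rw [h2, mk_image_eq c.e.injective]
  refine le_antisymm (mk_hullL_le c.E h₀.pt.lt.le (mk_part_le hθ (ChartB.mk_Sx_le hθ) hB)) (le_mk_hullL c.E (le_mk_part ?_))
  exact ChartB.le_mk_Sx

/-- The standard families are families of models. -/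
theorem ChartB.ifam [Nonempty B] (hB : #B ≤ θ) (c : ChartB ι K ℓ θ B C)
    (b : Finset ι → SuccTy θ) {F : Finset (Finset ι)} (hF : Down F) :
    IFam (pg h₀ hK hunb hst hCm hs hCc) (c.St b) F :=
  ⟨hF, fun t _ => c.St_mem h₀ hK hunb hst hCm hs hCc hB b t,
    fun _ _ _ h => ChartB.St_mono h⟩

/-- Every model has a copy at the empty face. -/
theorem ChartB.conj [Nonempty B] (hB : #B ≤ θ) (c : ChartB ι K ℓ θ B C)
    (b : Finset ι → SuccTy θ) {P : Set C} (hP : P ∈ (pg h₀ hK hunb hst hCm hs hCc).S) :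
    ∃ g ∈ (pg h₀ hK hunb hst hCm hs hCc).G, g '' P = c.St b ∅ := by
  obtain ⟨g, hg, -, h⟩ := H718.pg_conjS h₀ hK hunb hst hCm hs hCc hP
    (c.St_mem h₀ hK hunb hst hCm hs hCc hB b ∅) (empty_subset P) (empty_subset _)
    (by
      rw [mk_emptyCollection]
      exact aleph0_pos.trans_le (aleph0_le_pt h₀ hK))
  exact ⟨g, hg, h⟩

include h₀ hK hunb hst hCm hs hCc in
/-- **Charts exist**, for every finite set of faces. -/
theorem exists_chartB [Nonempty B] (hB : #B ≤ θ) (F : Finset (Finset ι)) :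
    ∃ c : ChartB ι K ℓ θ B C, ∀ v ∈ F, ∃ i, c.r i = v := by
  have hθ := aleph0_le_pt h₀ hK
  have h1θ : (1 : Cardinal.{u}) ≤ θ := one_le_aleph0.trans hθ
  obtain ⟨t⟩ := exists_tpl' hK hunb
  let F' : Finset (Finset ι) := insert ∅ F
  let m : ℕ := F'.card
  let r : Fin m → Finset ι := fun i => (F'.equivFin.symm i).1
  have hr : ∀ v ∈ F', ∃ i, r i = v := fun v hv =>
    ⟨F'.equivFin ⟨v, hv⟩, by simp only [r, Equiv.symm_apply_apply]⟩
  obtain ⟨i₀, hi₀⟩ := hr ∅ (Finset.mem_insert_self _ _)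
  obtain ⟨a₀, -, ha₀⟩ := exists_bound hθ (∅ : Set (SuccTy θ)) (by simp)
  obtain ⟨E⟩ := exists_em t (Reg θ m ×ₗ B)
  let s : SuccTy θ ×ₗ B → Reg θ m ×ₗ B := fun p =>
    toLex (rp i₀ 0 (ofLex p).1, (ofLex p).2)
  have hs1 : StrictMono s := by
    intro p q hpq
    rcases Prod.Lex.lt_iff.1 hpq with h | h
    · exact Prod.Lex.lt_iff.2 (Or.inl (rp_lt.2 (Or.inr ⟨rfl, Or.inr ⟨rfl, h⟩⟩)))
    · exact Prod.Lex.lt_iff.2 (Or.inr ⟨congrArg (rp i₀ 0) h.1, h.2⟩)
  have hs2 : (range s).OrdConnected := by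
    refine ⟨?_⟩
    rintro _ ⟨p, rfl⟩ _ ⟨q, rfl⟩ z ⟨h1, h2⟩
    obtain ⟨i, k, x, hx⟩ := rp_surj (ofLex z).1
    have h3 : rp i₀ 0 (ofLex p).1 ≤ rp i k x := by
      rw [← hx]
      rcases h1.lt_or_eq with h | h
      · rcases Prod.Lex.lt_iff.1 h with h | h
        · exact h.le
        · exact h.1.le
      · rw [← h]
        exact le_rfl
    have h4 : rp i k x ≤ rp i₀ 0 (ofLex q).1 := by
      rw [← hx]
      rcases h2.lt_or_eq with h | h
      · rcases Prod.Lex.lt_iff.1 h with h | h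
        · exact h.le
        · exact h.1.le
      · rw [h]
        exact le_rfl
    have h5 : i = i₀ ∧ k = 0 := by
      rcases rp_le.1 h3 with h3 | ⟨h3, h3'⟩
      · rcases rp_le.1 h4 with h4 | ⟨h4, -⟩
        · exact absurd (h3.trans h4) (lt_irrefl _)
        · exact absurd h3 (by rw [h4]; exact lt_irrefl _)
      · rcases rp_le.1 h4 with h4 | ⟨-, h4'⟩
        · exact absurd h4 (by rw [h3]; exact lt_irrefl _)
        · refine ⟨h3.symm, ?_⟩
          rcases h4' with h4' | h4'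
          · exact absurd h4' (Fin.not_lt_zero k)
          · exact h4'.1
    refine ⟨toLex (x, (ofLex z).2), ?_⟩
    have h6 : rp i₀ 0 x = (ofLex z).1 := by rw [hx, h5.1, h5.2]
    change toLex (rp i₀ 0 x, (ofLex z).2) = z
    rw [h6]
    rfl
  have hEs : Sat K θ E.N := sat_em_long h₀.ab hK h₀.pt.lt.le (h₀.largeExt hK hunb _) t
    h₀.pt.lt.le hB s hs1 hs2 E
  have hEc : #E.N = Order.succ θ := by
    refine E.card_eq (h₀.pt.lt.le.trans (Order.le_succ θ)) ?_
    have hs0 : ℵ₀ ≤ Order.succ θ := hθ.trans (Order.le_succ θ)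
    have h3 : #(Reg θ m ×ₗ B) = #(Reg θ m × B) := rfl
    have h4 : #(Reg θ m) = Order.succ θ := by
      have h5 : #(Reg θ m) = #((Fin m ×ₗ Fin 4) × SuccTy θ) := rfl
      have h6 : lift.{u} #(Fin m ×ₗ Fin 4) ≤ Order.succ θ := by
        have h7 : #(Fin m ×ₗ Fin 4) < ℵ₀ := by
          have : Finite (Fin m ×ₗ Fin 4) := inferInstanceAs (Finite (Fin m × Fin 4))
          exact lt_aleph0_of_finite _
        have h8 : lift.{u} #(Fin m ×ₗ Fin 4) < ℵ₀ := by
          rw [lift_lt_aleph0]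
          exact h7
        exact h8.le.trans hs0
      rw [h5, mk_prod, mk_toType, card_ord, lift_uzero]
      refine le_antisymm ((mul_le_mul' h6 le_rfl).trans (mul_eq_self hs0).le) ?_
      refine le_mul_left ?_
      have : Nonempty (Fin m ×ₗ Fin 4) := ⟨toLex (i₀, 0)⟩
      rw [Ne, lift_eq_zero]
      exact mk_ne_zero _
    rw [h3, mk_prod, lift_id, lift_id, h4]
    exact mul_eq_left hs0 (hB.trans (Order.le_succ θ)) (mk_ne_zero (B))
  let D' : L.Substructure E.N := hullL E (part ((rp i₀ 0) '' Iio a₀))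
  have hD' : K.le D' := le_hullL E _
  have hDc' : #D' = θ := by
    have h4 : #((rp i₀ 0 : SuccTy θ → Reg θ m) '' Iio a₀) = θ := by
      rw [mk_image_eq, ha₀]
      intro x y hxy
      exact (rp_inj.1 hxy).2.2
    exact le_antisymm (mk_hullL_le E h₀.pt.lt.le (mk_part_le hθ h4.le hB))
      (le_mk_hullL E (le_mk_part h4.ge))
  obtain ⟨D, hD, hDc, -⟩ := pg_ls h₀ hK hCm hCc (X := ∅) (by simp)
  obtain ⟨f⟩ := h₀.pt.cat.2 D' D (K.mem_of_le _ hD').1 (K.mem_of_le _ hD).1 hDc' hDc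
  obtain ⟨e, -⟩ := hEs.exists_iso hK h₀.pt.lt.le hs hEc hCc D'.subtype
    (D.subtype.comp f.toEmbedding) (AEC.emb_subtype.2 hD') (AEC.Emb.comp (AEC.emb_subtype.2 hD)
      (AEC.Emb.of_equiv f (K.mem_of_le _ hD').1)) hDc'
  exact ⟨⟨m, r, a₀, t, E, e, ⟨i₀, hi₀⟩, ha₀⟩, fun v hv => hr v (Finset.mem_insert_of_mem hv)⟩

end

end Vale.Agent.P307.R2.H427
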