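import Vale.Agent.P307.R2.H427.ChartB

/-!
The standard families over an arbitrary block: joint reflection of the small pieces by one shift
of the order.
-/

set_option linter.unusedSectionVars false

universe u v

open FirstOrder Cardinal Set

namespace Vale.Agent.P307.R2.H427

open Vale.Agent.P307 Vale.Agent.P307.H304 Vale.Agent.P307.R2.H287 Vale.Agent.P307.R2.H1
  Vale.Agent.P307.R2.H806 Vale.Agent.P307.R2.H971 Vale.Agent.P307.R2.H541
  Language.Structure Language.Substructure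
open Vale.Agent.P307.R2.H68 (part mk_part_le le_mk_part part_mono exists_finset_term_of_mem)
open Vale.Agent.P307.R2.H533 (iun ibd IFam IRef)

open scoped Classical

variable {ι : Type v} {L : Language.{u, u}} {K : AEC L} {ℓ θ σ : Cardinal.{u}} {B : Type u}
  [LinearOrder B]
  {κf α : Cardinal.{u} → Cardinal.{u}} {C : Type u} [L.Structure C]

namespace ChartB

variable {c : ChartB ι K ℓ θ B C} {b b' : Finset ι → SuccTy θ} {v w : Finset ι}

variable (c) in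
/-- The tops of the regions and the regions of the faces without `x`. -/
def Ex (x : ι) : Set (Reg θ c.m) :=
  {p | (∃ i, p = rp i 2 c.a₀) ∨ ∃ i, x ∉ c.r i ∧ ∃ y, p = rp i 0 y}

theorem Sx_sub_Ex {x : ι} (hx : x ∉ v) : c.Sx b v ⊆ c.Ex x := by
  rintro p (hp | ⟨i, h1, y, h2, h3⟩)
  · exact Or.inl hp
  · exact Or.inr ⟨i, fun h => hx (h1 h), y, h3⟩

theorem exists_least (x : ι) {p : Reg θ c.m} (hp : p ∈ c.Sx b v) :
    ∃ g ∈ c.Sx b (v.erase x), IsLeast {g | g ∈ c.Ex x ∧ p ≤ g} g := by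
  rcases hp with ⟨i, rfl⟩ | ⟨i, h1, y, h2, rfl⟩
  · exact ⟨_, top_mem i, ⟨Or.inl ⟨i, rfl⟩, le_rfl⟩, fun g hg => hg.2⟩
  by_cases hx : x ∈ c.r i
  · refine ⟨_, top_mem i, ⟨Or.inl ⟨i, rfl⟩, rp_le.2 (Or.inr ⟨rfl, Or.inl (by decide)⟩)⟩, ?_⟩
    rintro g ⟨⟨j, rfl⟩ | ⟨j, h3, z, rfl⟩, h4⟩
    · rcases rp_le.1 h4 with h5 | ⟨rfl, -⟩
      · exact rp_le.2 (Or.inl h5)
      · exact le_rfl
    · rcases rp_le.1 h4 with h5 | ⟨rfl, -⟩
      · exact rp_le.2 (Or.inl h5)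
      · exact absurd hx h3
  · refine ⟨_, reg_mem.2 ⟨fun z hz => Finset.mem_erase.2 ⟨?_, h1 hz⟩, h2⟩,
      ⟨Or.inr ⟨i, hx, y, rfl⟩, le_rfl⟩, fun g hg => hg.2⟩
    rintro rfl
    exact hx hz

end ChartB

section

variable (h₀ : BasePt K ℓ κf α θ) (hK : K.IsLS ℓ)
  (hunb : ∀ ν, ν < κf ν ∧ K.CategoricalIn (κf ν)) (hst : Stab K ℓ α (H287.thr κf))
  (hCm : K.mem C) (hs : Sat K θ C) (hCc : #C = Order.succ θ)

/-- **Joint reflection** of the pieces of size at most `σ` of a standard family. -/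
theorem ChartB.iref (hσ : ℓ ≤ σ) (hσθ : σ < θ) (hB : Bot σ B) (c : ChartB ι K ℓ θ B C)
    (b : Finset ι → SuccTy θ) (F : Finset (Finset ι)) (x : ι) (E : Set C) (hE : #E ≤ σ) :
    ∃ g ∈ (pg h₀ hK hunb hst hCm hs hCc).G, ∀ v ∈ F, ∀ e ∈ E, e ∈ c.St b v →
      g e ∈ c.St b (v.erase x) ∧ (x ∉ v → g e = e) := by
  have hσ0 : ℵ₀ ≤ σ := hK.1.trans hσ
  have hF : θ ≤ #c.E.N := by
    rw [mk_congr c.e.toEquiv, hCc]
    exact Order.le_succ θ
  let V : Type u := ULift.{u} (Fin F.card)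
  let ef : F ≃ V := F.equivFin.trans Equiv.ulift.symm
  let Z : Type u := V × E
  have hZ : #Z ≤ σ := by
    have h1 : #V ≤ σ := (lt_aleph0_of_finite _).le.trans hσ0
    change #(V × E) ≤ σ
    rw [mk_prod, lift_id, lift_id]
    exact (mul_le_mul' h1 hE).trans (mul_eq_self hσ0).le
  let fc : V → Finset ι := fun i => (ef.symm i).1
  let P : Type u := {p : Z // (p.2 : C) ∈ c.St b (fc p.1)}
  let Q : Type u := {p : Z // (p.2 : C) ∈ c.St b (fc p.1) ∧ x ∉ fc p.1}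
  have hP : #P ≤ σ := (mk_subtype_le _).trans hZ
  have hQ : #Q ≤ σ := (mk_subtype_le _).trans hZ
  have hmem : ∀ (v : Finset ι) (y : C), y ∈ c.St b v → c.e.symm y ∈ hull c.E (part (c.Sx b v)) := by
    rintro v _ ⟨z, hz, rfl⟩
    rw [Language.Equiv.symm_apply_apply]
    exact hz
  obtain ⟨g, hg, h1, h2⟩ := exists_shift_autB h₀ hK hunb hst hCm hs hCc hσ hσθ hB c.E hF
    c.e.toEmbedding (AEC.Emb.of_equiv c.e c.E.mem) (c.Ex x) hP hQ
    (fun p : P => c.Sx b (fc p.1.1)) (fun p : P => c.Sx b ((fc p.1.1).erase x))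
    (fun p y hy => ChartB.exists_least x hy) (fun p : Q => c.e.symm (p.1.2 : C))
    (fun p => hull_mono c.E (part_mono (ChartB.Sx_sub_Ex p.2.2)) (hmem _ _ p.2.1))
    (fun p : P => c.e.symm (p.1.2 : C)) (fun p => hmem _ _ p.2)
  refine ⟨g, hg, fun v hv y hy hyv => ⟨?_, fun hxv => ?_⟩⟩
  · have hfc : fc (ef ⟨v, hv⟩) = v := by simp only [fc, Equiv.symm_apply_apply]
    obtain ⟨z, hz, hz'⟩ := h2 ⟨(ef ⟨v, hv⟩, ⟨y, hy⟩), by
      change y ∈ c.St b (fc (ef ⟨v, hv⟩))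
      rw [hfc]
      exact hyv⟩
    change g (c.e (c.e.symm y)) = c.e z at hz'
    rw [Language.Equiv.apply_symm_apply] at hz'
    rw [hz']
    refine mem_image_of_mem _ (hull_mono c.E (part_mono ?_) hz)
    change c.Sx b ((fc (ef ⟨v, hv⟩)).erase x) ∩ c.Ex x ⊆ _
    rw [hfc]
    exact inter_subset_left
  · have hfc : fc (ef ⟨v, hv⟩) = v := by simp only [fc, Equiv.symm_apply_apply]
    have h3 := h1 ⟨(ef ⟨v, hv⟩, ⟨y, hy⟩), by
      change y ∈ c.St b (fc (ef ⟨v, hv⟩)) ∧ x ∉ fc (ef ⟨v, hv⟩)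
      rw [hfc]
      exact ⟨hyv, hxv⟩⟩
    change g (c.e (c.e.symm y)) = c.e (c.e.symm y) at h3
    rwa [Language.Equiv.apply_symm_apply] at h3

end

end Vale.Agent.P307.R2.H427
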