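import Vale.Agent.P307.R2.H427.EMap
import Vale.Agent.P307.R2.H541.Inst

/-!
The elementary maps of the level of a smaller base point in the saturated member of size `θ⁺`.
-/

set_option linter.unusedSectionVars false

universe u

open FirstOrder Cardinal Set

namespace Vale.Agent.P307.R2.H541

open Vale.Agent.P307 Vale.Agent.P307.H304 Vale.Agent.P307.R2.H287 Vale.Agent.P307.R2.H1
  Vale.Agent.P307.R2.H971 Vale.Agent.P307.R2.H804 Language.Structure Language.Substructure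

variable {L : Language.{u, u}} {K : AEC L} {ℓ θ τ : Cardinal.{u}}
  {κf α : Cardinal.{u} → Cardinal.{u}} {C : Type u} [L.Structure C]

/-- The graph of a function on a set. -/
def gph (D : Set C) (f : C → C) : Set (C × C) := (fun x => (x, f x)) '' D

variable (L) in
/-- Elementary maps of level `τ`. -/
def EMp (τ : Cardinal.{u}) (D : Set C) (f : C → C) : Prop := #D ≤ τ ∧ Good L τ (gph D f)

theorem EMp.eqS {D : Set C} {f : C → C} (h : EMp L τ D f) {ι : Type u} (a : ι → C)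
    (ha : ∀ i, a i ∈ D) : EqS L τ a fun i => f (a i) := by
  refine h.2.subset ?_
  rintro _ ⟨i, rfl⟩
  exact ⟨a i, ha i, rfl⟩

theorem EMp.of_eqS {D : Set C} {f : C → C} (hD : #D ≤ τ)
    (h : EqS L τ (fun d : D => (d : C)) fun d => f d) : EMp L τ D f := by
  refine ⟨hD, h.subset ?_⟩
  rintro _ ⟨x, hx, rfl⟩
  exact ⟨⟨x, hx⟩, rfl⟩

section

variable (h₀ : BasePt K ℓ κf α θ) (hK : K.IsLS ℓ)
  (hunb : ∀ ν, ν < κf ν ∧ K.CategoricalIn (κf ν)) (hst : Stab K ℓ α (H287.thr κf))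
  (hCm : K.mem C) (hs : Sat K θ C) (hCc : #C = Order.succ θ)

/-- The elementary maps of the level of a smaller base point. -/
def pgEM (hτ : BasePt K ℓ κf α τ) (hτθ : τ < θ) : (pg h₀ hK hunb hst hCm hs hCc).EM τ where
  E := EMp L τ
  hτ := hK.1.trans hτ.pt.lt.le
  card := fun h => h.1
  congr := by
    rintro D f f' ⟨h1, h2⟩ h3
    refine ⟨h1, h2.subset ?_⟩
    rintro _ ⟨x, hx, rfl⟩
    exact ⟨x, hx, Prod.ext rfl (h3 x hx)⟩
  mono := by
    rintro D D' f ⟨h1, h2⟩ h3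
    exact ⟨(mk_le_mk_of_subset h3).trans h1, h2.subset (image_mono h3)⟩
  ofG := by
    rintro D g ⟨e, he⟩ hD
    refine ⟨hD, (good_gr_equiv (hK.1.trans hτ.pt.lt.le) e hD).subset ?_⟩
    rintro _ ⟨x, hx, rfl⟩
    exact mem_gr.2 ⟨hx, (he x).symm⟩
  comp := by
    rintro D f g ⟨h1, h2⟩ ⟨-, h4⟩
    refine ⟨h1, (Good.comp h2 h4).subset ?_⟩
    rintro _ ⟨x, hx, rfl⟩
    exact ⟨f x, ⟨x, hx, rfl⟩, ⟨f x, mem_image_of_mem f hx, rfl⟩⟩
  inv := by
    classical
    rintro D f ⟨h1, h2⟩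
    have hinj : ∀ x ∈ D, ∀ y ∈ D, f x = f y → x = y := fun x hx y hy h =>
      (h2.1.eq_iff (x, f x) ⟨x, hx, rfl⟩ (y, f y) ⟨y, hy, rfl⟩).2 h
    let g : C → C := fun y => if h : ∃ x ∈ D, f x = y then h.choose else y
    have hg : ∀ x ∈ D, g (f x) = x := by
      intro x hx
      have h : ∃ z ∈ D, f z = f x := ⟨x, hx, rfl⟩
      have h3 : g (f x) = h.choose := dif_pos h
      rw [h3]
      exact hinj _ h.choose_spec.1 _ hx h.choose_spec.2
    refine ⟨g, ⟨mk_image_le.trans h1, (Good.swap h2).subset ?_⟩, hg⟩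
    rintro _ ⟨_, ⟨x, hx, rfl⟩, rfl⟩
    exact ⟨x, hx, Prod.ext (hg x hx).symm rfl⟩
  ext := by
    classical
    rintro D f B ⟨h1, h2⟩ hB
    obtain ⟨R, h3, h4, h5⟩ := Good.exists_left h2 B hB
    have h6 : ∀ x ∈ D, (x, f x) ∈ R := fun x hx => h3 ⟨x, hx, rfl⟩
    let f' : C → C := fun x => if x ∈ D then f x else if h : ∃ y, (x, y) ∈ R then h.choose else x
    have h7 : ∀ x ∈ D, f' x = f x := fun x hx => if_pos hx
    have hc : #(D ∪ B : Set C) ≤ τ := (mk_union_le D B).trans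
      ((add_le_add h1 hB).trans (add_eq_self (hK.1.trans hτ.pt.lt.le)).le)
    refine ⟨f', ⟨hc, h4.subset ?_⟩, h7⟩
    rintro _ ⟨x, hx, rfl⟩
    by_cases hxD : x ∈ D
    · change (x, f' x) ∈ R
      rw [h7 x hxD]
      exact h6 x hxD
    · obtain ⟨y, hy⟩ := h5 x (hx.resolve_left hxD)
      have h : ∃ y, (x, y) ∈ R := ⟨y, hy⟩
      have h8 : f' x = h.choose := (if_neg hxD).trans (dif_pos h)
      change (x, f' x) ∈ R
      rw [h8]
      exact h.choose_spec
  small := by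
    rintro D f ⟨h1, h2⟩ hD
    have hℓσ : ℓ ≤ max ℓ #D := le_max_left _ _
    have hστ : max ℓ #D < τ := max_lt hτ.pt.lt hD
    have hDσ : #D ≤ max ℓ #D := le_max_right _ _
    have h3 : EqS L (α (max ℓ #D)) (fun d : D => (d : C)) fun d => f d := by
      refine EqS.mono ((hK.1.trans hℓσ).trans (hst _ hℓσ).1) (hτ.al _ hστ).le (h2.subset ?_)
        (hDσ.trans (hst _ hℓσ).1)
      rintro _ ⟨d, rfl⟩
      exact ⟨d, d.2, rfl⟩
    obtain ⟨g, hg, hg'⟩ := exists_mem_autG h₀ hK hunb hst hCm hs hCc hℓσ (hστ.trans hτθ) hDσ _ _ h3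
    exact ⟨g, hg, fun x hx => hg' ⟨x, hx⟩⟩

include h₀ hK hunb in
/-- Strong embeddings of strong submodels of size `τ` are elementary. -/
theorem EMp.of_emb (hτ : BasePt K ℓ κf α τ) (hτθ : τ < θ) (hCc : #C = Order.succ θ)
    {D : L.Substructure C} (hD : K.le D) (hDc : #D = τ) (e : D ↪[L] C) (he : K.Emb e)
    {f : C → C} (hf : ∀ x : D, f x = e x) : EMp L τ (D : Set C) f := by
  have hthr : thr κf τ ≤ #C := by
    rw [hCc]
    exact (h₀.pt.thr τ hτθ).le.trans (Order.le_succ θ)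
  have h1 := hτ.ab D C C D.subtype e (AEC.emb_subtype.2 hD) he hDc hthr hthr
  refine EMp.of_eqS hDc.le ?_
  refine h1.subset ?_
  rintro _ ⟨d, rfl⟩
  exact ⟨d, Prod.ext rfl (hf d).symm⟩

end

end Vale.Agent.P307.R2.H541
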