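import Vale.Agent.P307.R2.H427.EMap
import Vale.Agent.P307.R2.H229.Tree

/-!
Isolated types are dense over a set whose closed traces behave well: a tree of elementary maps of a
level `τ` (the sizes of the closed traces) below the size of the strong submodels.
-/

universe u v

open Set Cardinal Function

namespace Vale.Agent.P307.R2.H541

variable {C : Type u} {M : PG C} {X E₀ s₀ : Set C} {ν τ : Cardinal.{u}}

/-- Unions of elementary maps along chains of closed sets are elementary. -/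
def PG.EM.Lim (Γ : M.EM τ) (Z : Set (Set C)) (ν : Cardinal.{u}) : Prop :=
  ∀ (ι : Type u) [LinearOrder ι] [WellFoundedLT ι] [Nonempty ι], #ι ≤ ν →
    ∀ z : ι → Set C, Monotone z → (∀ i, z i ∈ Z) → ∀ f : C → C,
      (∀ i, Γ.E (z i) f) → Γ.E (⋃ i, z i) f

/-- Coherent elementary maps on a chain of closed sets. -/
theorem PG.EM.Lim.glue {Γ : M.EM τ} {Z : Set (Set C)} (hL : Γ.Lim Z ν) {ι : Type u}
    [LinearOrder ι] [WellFoundedLT ι] [Nonempty ι] (hι : #ι ≤ ν) {z : ι → Set C}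
    (hz : Monotone z) (hzZ : ∀ i, z i ∈ Z) (F : ι → C → C) (hF : ∀ i, Γ.E (z i) (F i))
    (hco : ∀ k i, k < i → ∀ a ∈ z k, F i a = F k a) :
    ∃ f, Γ.E (⋃ i, z i) f ∧ ∀ i, ∀ a ∈ z i, f a = F i a := by
  classical
  let f : C → C := fun a => if ha : ∃ k : ι, a ∈ z k then F ha.choose a else a
  have hf : ∀ k : ι, ∀ a ∈ z k, f a = F k a := by
    intro k a ha
    have hex' : ∃ k : ι, a ∈ z k := ⟨k, ha⟩
    have h1 : f a = F hex'.choose a := dif_pos hex'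
    rw [h1]
    have hc := hex'.choose_spec
    rcases lt_trichotomy (hex'.choose : ι) k with h | h | h
    · exact (hco _ k h a hc).symm
    · rw [h]
    · exact hco k _ h a ha
  exact ⟨f, hL ι hι z hz hzZ f fun i => Γ.congr (hF i) fun x hx => (hf i x hx).symm, hf⟩

namespace PG.EM

variable (Γ : M.EM τ)

/-- **Density of isolated types.** The tree of elementary maps. -/
theorem exists_isol_of_tree (hs₀X : s₀ ⊆ X) (hν : ℵ₀ ≤ ν) (hντ : ν < τ) (hs₀ : #s₀ ≤ ν)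
    (hE₀ : #E₀ < τ) (Z : Set (Set C)) (hZX : ∀ z ∈ Z, z ⊆ X) (hZc : ∀ z ∈ Z, #z ≤ τ)
    (hZcl : ∀ A ⊆ X, #A ≤ τ → ∃ z ∈ Z, A ⊆ z) (hLim : Γ.Lim Z ν)
    (hT : ∀ g₀ ∈ M.G, (∀ b ∈ s₀, g₀ b = b) → ∀ g ∈ M.G,
      (∀ A ⊆ X, #A ≤ ν → ∃ h ∈ M.G, (∀ a ∈ A, h a = a) ∧ ∀ e ∈ E₀, h (g₀ e) = g (g₀ e)) →
      ∀ A ⊆ X, #A < M.χ → ∃ h ∈ M.G, (∀ a ∈ A, h a = a) ∧ ∀ e ∈ E₀, h (g₀ e) = g (g₀ e))
    (hFew : ∀ z ⊆ X, #z ≤ ν → ∀ J : Type u, ν < #J → ∀ k : J → Equiv.Perm C, (∀ j, k j ∈ M.G) →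
      ∃ j j', j ≠ j' ∧ ∃ h ∈ M.G, (∀ a ∈ z, h a = a) ∧ ∀ e ∈ E₀, h (k j e) = k j' e) :
    ∃ g₀ ∈ M.G, (∀ b ∈ s₀, g₀ b = b) ∧ ∃ z ∈ Z, s₀ ⊆ z ∧ M.Isol z X (g₀ '' E₀) := by
  classical
  by_contra hneg
  push Not at hneg
  -- one splitting
  have step : ∀ g₀ ∈ M.G, (∀ b ∈ s₀, g₀ b = b) → ∀ z ∈ Z, s₀ ⊆ z →
      ∃ g ∈ M.G, (∀ a ∈ z, g a = a) ∧ ∃ A ⊆ X, #A ≤ ν ∧
        ¬ ∃ h ∈ M.G, (∀ a ∈ A, h a = a) ∧ ∀ e ∈ E₀, h (g₀ e) = g (g₀ e) := by
    intro g₀ hg₀ hg₀s z hz hsz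
    by_contra hcon
    push Not at hcon
    refine hneg g₀ hg₀ hg₀s z hz hsz ?_
    intro g hg hgz A hA hAc
    obtain ⟨h, hh, h1, h2⟩ := hT g₀ hg₀ hg₀s g hg (fun A hA hAν => hcon g hg hgz A hA hAν) A hA hAc
    refine ⟨h, hh, h1, ?_⟩
    rintro _ ⟨e, he, rfl⟩
    exact h2 e he
  have hs₀τ : #s₀ < τ := hs₀.trans_lt hντ
  -- one node
  have node : ∀ (z : Set C) (f : C → C), z ∈ Z → s₀ ⊆ z → Γ.E z f → (∀ b ∈ s₀, f b = b) →
      ∃ A ⊆ X, #A ≤ ν ∧ ∀ z', z' ∈ Z → z ⊆ z' → A ⊆ z' → ∃ f₀ f₁ : C → C, Γ.E z' f₀ ∧ Γ.E z' f₁ ∧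
        (∀ x ∈ z, f₀ x = f x) ∧ (∀ x ∈ z, f₁ x = f x) ∧
        ¬ ∃ h ∈ M.G, (∀ a ∈ A, h (f₀ a) = f₁ a) ∧ ∀ e ∈ E₀, h e = e := by
    intro z f hz hsz hf hfs
    obtain ⟨k, F, hF, hFf, hFk⟩ := Γ.pull hf hE₀.le
    have hkc : #(k '' E₀) < τ := mk_image_le.trans_lt hE₀
    obtain ⟨p, hp, hpF⟩ := Γ.restr hF (D' := s₀ ∪ k '' E₀)
      (union_subset_union_left _ hsz) (Γ.union_lt hs₀τ hkc)
    have hpk : ∀ e ∈ E₀, p⁻¹ e = k e := fun e he => by
      rw [Equiv.Perm.inv_eq_iff_eq, hpF _ (Or.inr (mem_image_of_mem k he)), hFk e he]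
    obtain ⟨t, ht, htz, A, hAX, hAν, htA⟩ := step p⁻¹ (M.G.inv_mem hp) (fun b hb => by
      rw [Equiv.Perm.inv_eq_iff_eq, hpF b (Or.inl hb), hFf b (hsz hb), hfs b hb]) z hz hsz
    refine ⟨A, hAX, hAν, fun z' hz' hzz' hAz' => ?_⟩
    obtain ⟨F₀, h1, h2⟩ := Γ.ext hF (hZc z' hz')
    have h3 := Γ.comp_inv hF ht
    obtain ⟨F₁, h4, h5⟩ := Γ.ext h3 (hZc z' hz')
    have htk : ∀ e ∈ E₀, t (k e) ∈ (t : C → C) '' (z ∪ k '' E₀) := fun e he =>
      mem_image_of_mem t (Or.inr (mem_image_of_mem k he))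
    have h5z : ∀ x ∈ z, F₁ x = f x := by
      intro x hx
      have h6 : x ∈ (t : C → C) '' (z ∪ k '' E₀) := ⟨x, Or.inl hx, htz x hx⟩
      rw [h5 x h6, fix_inv (htz x hx), hFf x hx]
    have h5k : ∀ e ∈ E₀, F₁ (t (k e)) = e := by
      intro e he
      rw [h5 _ (htk e he), inv_ap, hFk e he]
    have h2k : ∀ e ∈ E₀, F₀ (k e) = e := by
      intro e he
      rw [h2 _ (Or.inr (mem_image_of_mem k he)), hFk e he]
    refine ⟨F₀, F₁, Γ.mono h1 subset_union_right, Γ.mono h4 subset_union_right,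
      fun x hx => by rw [h2 x (Or.inl hx), hFf x hx], h5z, ?_⟩
    rintro ⟨h, hh, hhA, hhe⟩
    have hAτ : #A < τ := hAν.trans_lt hντ
    obtain ⟨p₀, hp₀, hp₀F⟩ := Γ.restr h1 (D' := A ∪ k '' E₀) (union_subset
      (hAz'.trans subset_union_right) (subset_union_right.trans subset_union_left))
      (Γ.union_lt hAτ hkc)
    obtain ⟨p₁, hp₁, hp₁F⟩ := Γ.restr h4 (D' := A ∪ (fun e => t (k e)) '' E₀) (union_subset
      (hAz'.trans subset_union_right) (by
        rintro _ ⟨e, he, rfl⟩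
        exact Or.inl (htk e he))) (Γ.union_lt hAτ (mk_image_le.trans_lt hE₀))
    refine htA ⟨p₁⁻¹ * h * p₀, M.G.mul_mem (M.G.mul_mem (M.G.inv_mem hp₁) hh) hp₀,
      fun a ha => ?_, fun e he => ?_⟩
    · simp only [Equiv.Perm.mul_apply]
      rw [hp₀F a (Or.inl ha), hhA a ha, ← hp₁F a (Or.inl ha), inv_ap]
    · simp only [Equiv.Perm.mul_apply]
      rw [hpk e he, hp₀F _ (Or.inr (mem_image_of_mem k he)), h2k e he, hhe e he]
      have h6 := hp₁F (t (k e)) (Or.inr ⟨e, he, rfl⟩)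
      rw [h5k e he] at h6
      rw [Equiv.Perm.inv_eq_iff_eq, h6]
  -- the height
  have hne : ({c : Cardinal.{u} | ν < 2 ^ c} : Set Cardinal.{u}).Nonempty := ⟨ν, cantor ν⟩
  let ρ : Cardinal.{u} := sInf {c | ν < 2 ^ c}
  have hρ : ν < 2 ^ ρ := csInf_mem hne
  have hρν : ρ ≤ ν := csInf_le' (cantor ν)
  have hlt : ∀ c < ρ, 2 ^ c ≤ ν := fun c hc => not_lt.1 fun h => notMem_of_lt_csInf' hc h
  let W : Type u := ρ.ord.ToType
  have hW : #W = ρ := mk_ord_toType ρ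
  have hWi : ∀ i : W, #(Iio i) < ρ := fun i => by
    have h := mk_Iio_lt (α := ρ.ord.ToType) i (by simp)
    rwa [mk_ord_toType] at h
  let D : Type u := Set C × Set C × ((W → Bool) → C → C)
  have : Nonempty D := ⟨(∅, ∅, fun _ a => a)⟩
  let P : W → (W → D) → Prop := fun i d => (d i).1 ∈ Z ∧ s₀ ⊆ (d i).1 ∧
    (∀ k < i, (d k).1 ⊆ (d i).1) ∧ (∀ η, Γ.E (d i).1 ((d i).2.2 η)) ∧
    (∀ η, ∀ b ∈ s₀, (d i).2.2 η b = b) ∧
    (∀ k < i, ∀ η, ∀ z ∈ (d k).1, (d i).2.2 η z = (d k).2.2 η z) ∧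
    (∀ η η' : W → Bool, (∀ k ≤ i, η k = η' k) → (d i).2.2 η = (d i).2.2 η') ∧
    ((d i).2.1 ⊆ (d i).1 ∧ #(d i).2.1 ≤ ν) ∧
    (∀ η η' : W → Bool, (∀ k < i, η k = η' k) → η i = false → η' i = true →
      ¬ ∃ h ∈ M.G, (∀ z ∈ (d i).2.1, h ((d i).2.2 η z) = (d i).2.2 η' z) ∧ ∀ e ∈ E₀, h e = e)
  obtain ⟨d, hd⟩ := exists_rec P (by
    rintro i d d' hdd ⟨h1, h2, h3, h4, h5, h6, h7, h8, h9⟩
    have hi : d i = d' i := hdd i le_rfl
    have hk : ∀ k < i, d k = d' k := fun k hk => hdd k hk.le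
    refine ⟨hi ▸ h1, hi ▸ h2, fun k hki => ?_, fun η => hi ▸ h4 η, fun η => hi ▸ h5 η,
      fun k hki η z hz => ?_, fun η η' hη => ?_, hi ▸ h8, fun η η' hη h10 h11 => ?_⟩
    · rw [← hi, ← hk k hki]
      exact h3 k hki
    · rw [← hi, ← hk k hki]
      rw [← hk k hki] at hz
      exact h6 k hki η z hz
    · rw [← hi]
      exact h7 η η' hη
    · rw [← hi]
      exact h9 η η' hη h10 h11) (by
    intro i d hP
    -- extension of branches
    let ex : (Iio i → Bool) → W → Bool := fun ζ k => if hk : k < i then ζ ⟨k, hk⟩ else false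
    have hex : ∀ (ζ : Iio i → Bool) (k : W) (hk : k < i), ex ζ k = ζ ⟨k, hk⟩ := fun ζ k hk =>
      dif_pos hk
    -- the closed set on which the branches are defined
    have hιτ : #(Iio i) ≤ τ := ((hWi i).le.trans hρν).trans hντ.le
    have hU : #(s₀ ∪ ⋃ k : Iio i, (d k).1 : Set C) ≤ τ := by
      refine Γ.union_le hs₀τ.le ?_
      refine (mk_iUnion_le _).trans ((mul_le_mul' hιτ
        (ciSup_le' fun k : Iio i => hZc _ (hP k k.2).1)).trans (mul_eq_self Γ.hτ).le)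
    obtain ⟨z, hz, hzU⟩ := hZcl _ (union_subset hs₀X
      (iUnion_subset fun k : Iio i => hZX _ (hP k k.2).1)) hU
    have hsz : s₀ ⊆ z := subset_union_left.trans hzU
    have hkz : ∀ k < i, (d k).1 ⊆ z := fun k hk =>
      ((subset_iUnion (fun k : Iio i => (d k).1) ⟨k, hk⟩).trans subset_union_right).trans hzU
    have hF : ∀ ζ : Iio i → Bool, ∃ f : C → C, Γ.E z f ∧ (∀ b ∈ s₀, f b = b) ∧
        ∀ k < i, ∀ a ∈ (d k).1, f a = (d k).2.2 (ex ζ) a := by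
      intro ζ
      by_cases hi : Nonempty (Iio i)
      · have hmono : Monotone fun k : Iio i => (d k).1 := by
          intro k k' hkk
          rcases hkk.lt_or_eq with h | h
          · exact (hP k' k'.2).2.2.1 k h
          · rw [h]
        obtain ⟨f, hf, hf'⟩ := hLim.glue ((hWi i).le.trans hρν) hmono
          (fun k => (hP k k.2).1) (fun k : Iio i => (d k).2.2 (ex ζ))
          (fun k => (hP k k.2).2.2.2.1 _) (fun k k' hkk' a ha =>
            (hP k' k'.2).2.2.2.2.2.1 k hkk' _ a ha)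
        obtain ⟨f', h1, h2⟩ := Γ.ext' hf (hZc z hz) (iUnion_subset fun k => hkz k k.2)
        refine ⟨f', h1, fun b hb => ?_, fun k hk a ha => ?_⟩
        · obtain ⟨k⟩ := hi
          have hbk : b ∈ (d k).1 := (hP k k.2).2.1 hb
          rw [h2 b (mem_iUnion.2 ⟨k, hbk⟩), hf' k b hbk]
          exact (hP k k.2).2.2.2.2.1 _ b hb
        · rw [h2 a (mem_iUnion.2 ⟨⟨k, hk⟩, ha⟩)]
          exact hf' ⟨k, hk⟩ a ha
      · exact ⟨(1 : Equiv.Perm C), Γ.ofG M.G.one_mem (hZc z hz), fun b _ => rfl,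
          fun k hk => absurd ⟨⟨k, hk⟩⟩ hi⟩
    choose F hFE hFs hFc using hF
    have hst := fun ζ : Iio i → Bool => node z (F ζ) hz hsz (hFE ζ) (hFs ζ)
    choose A hAX hAν hA using hst
    have hUA : #(⋃ ζ : Iio i → Bool, A ζ : Set C) ≤ ν := by
      have hc : #(Iio i → Bool) ≤ ν := by
        have h1 : #(Iio i → Bool) = 2 ^ #(Iio i) := by simp
        rw [h1]
        exact hlt _ (hWi i)
      exact (mk_iUnion_le _).trans ((mul_le_mul' hc (ciSup_le' hAν)).trans (mul_eq_self hν).le)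
    obtain ⟨z', hz', hzU'⟩ := hZcl _ (union_subset (hZX z hz) (iUnion_subset hAX))
      (Γ.union_le (hZc z hz) (hUA.trans hντ.le))
    have hzz' : z ⊆ z' := subset_union_left.trans hzU'
    have hAz' : ∀ ζ, A ζ ⊆ z' := fun ζ =>
      ((subset_iUnion A ζ).trans subset_union_right).trans hzU'
    have hA' := fun ζ => hA ζ z' hz' hzz' (hAz' ζ)
    choose F₀ F₁ hF₀ hF₁ hF₀z hF₁z hF₀₁ using hA'
    let re : (W → Bool) → Iio i → Bool := fun η k => η k
    let Gi : (W → Bool) → C → C := fun η => if η i then F₁ (re η) else F₀ (re η)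
    have hGz : ∀ η, ∀ a ∈ z, Gi η a = F (re η) a := by
      intro η a ha
      by_cases hη : η i = true
      · have h1 : Gi η = F₁ (re η) := if_pos hη
        rw [h1, hF₁z _ a ha]
      · have h1 : Gi η = F₀ (re η) := if_neg hη
        rw [h1, hF₀z _ a ha]
    have hex2 : ∀ (η : W → Bool) (k : W), k < i → (d k).2.2 (ex (re η)) = (d k).2.2 η := by
      intro η k hk
      refine (hP k hk).2.2.2.2.2.2.1 _ _ fun j hj => ?_
      exact hex _ j (hj.trans_lt hk)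
    refine ⟨(z', ⋃ ζ, A ζ, Gi), ?_⟩
    have hui : update d i ((z', ⋃ ζ, A ζ, Gi) : D) i = (z', ⋃ ζ, A ζ, Gi) := update_self i _ d
    have huk : ∀ k < i, update d i ((z', ⋃ ζ, A ζ, Gi) : D) k = d k := fun k hk =>
      update_of_ne hk.ne _ d
    refine ⟨?_, ?_, ?_, ?_, ?_, ?_, ?_, ?_, ?_⟩
    · rw [hui]
      exact hz'
    · rw [hui]
      exact hsz.trans hzz'
    · intro k hk
      rw [hui, huk k hk]
      exact (hkz k hk).trans hzz'
    · intro η
      rw [hui]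
      change Γ.E z' (Gi η)
      by_cases hη : η i = true
      · have h1 : Gi η = F₁ (re η) := if_pos hη
        rw [h1]
        exact hF₁ _
      · have h1 : Gi η = F₀ (re η) := if_neg hη
        rw [h1]
        exact hF₀ _
    · intro η b hb
      rw [hui]
      change Gi η b = b
      rw [hGz η b (hsz hb), hFs _ b hb]
    · intro k hk η a ha
      rw [huk k hk] at ha ⊢
      rw [hui]
      change Gi η a = _
      rw [hGz η a (hkz k hk ha), hFc _ k hk a ha, hex2 η k hk]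
    · intro η η' hη
      rw [hui]
      have h1 : re η = re η' := funext fun k => hη k k.2.le
      change Gi η = Gi η'
      have h2 : η i = η' i := hη i le_rfl
      change (if η i then F₁ (re η) else F₀ (re η)) = (if η' i then F₁ (re η') else F₀ (re η'))
      rw [h1, h2]
    · rw [hui]
      exact ⟨iUnion_subset hAz', hUA⟩
    · intro η η' hη hηi hηi'
      rw [hui]
      have h1 : re η = re η' := funext fun k => hη k k.2
      have h2 : Gi η = F₀ (re η) := if_neg (by rw [hηi]; exact Bool.false_ne_true)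
      have h3 : Gi η' = F₁ (re η) := by
        rw [h1]
        exact if_pos hηi'
      rintro ⟨h, hh, hhz, hhe⟩
      refine hF₀₁ (re η) ⟨h, hh, fun a ha => ?_, hhe⟩
      have h4 := hhz a (mem_iUnion.2 ⟨re η, ha⟩)
      change h (Gi η a) = Gi η' a at h4
      rwa [h2, h3] at h4)
  -- the branches
  have hWτ : #W ≤ τ := (hW.le.trans hρν).trans hντ.le
  have hB : ∀ η : W → Bool, ∃ (p : Equiv.Perm C) (F : C → C), p ∈ M.G ∧
      Γ.E ((⋃ k : W, (d k).2.1) ∪ (p : C → C) '' E₀) F ∧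
      (∀ i, ∀ a ∈ (d i).2.1, F a = (d i).2.2 η a) ∧ ∀ e ∈ E₀, F (p e) = e := by
    intro η
    by_cases hi : Nonempty W
    · have hmono : Monotone fun k : W => (d k).1 := by
        intro k k' hkk
        rcases hkk.lt_or_eq with h | h
        · exact (hd k').2.2.1 k h
        · rw [h]
      obtain ⟨f, hf, hf'⟩ := hLim.glue (hW.le.trans hρν) hmono (fun k => (hd k).1)
        (fun k : W => (d k).2.2 η) (fun k => (hd k).2.2.2.1 _) (fun k k' hkk' a ha =>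
          (hd k').2.2.2.2.2.1 k hkk' _ a ha)
      obtain ⟨k, F, hF, hFf, hFk⟩ := Γ.pull hf hE₀.le
      obtain ⟨p, hp, hpF⟩ := Γ.restr hF (D' := k '' E₀) subset_union_right
        (mk_image_le.trans_lt hE₀)
      have hpk : ∀ e ∈ E₀, (p⁻¹ : Equiv.Perm C) e = k e := fun e he => by
        rw [Equiv.Perm.inv_eq_iff_eq, hpF _ (mem_image_of_mem k he), hFk e he]
      refine ⟨p⁻¹, F, M.G.inv_mem hp, Γ.mono hF ?_, fun i a ha => ?_, fun e he => ?_⟩
      · refine union_subset_union (iUnion_mono fun i => (hd i).2.2.2.2.2.2.2.1.1) ?_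
        rintro _ ⟨e, he, rfl⟩
        exact ⟨e, he, (hpk e he).symm⟩
      · have h1 := (hd i).2.2.2.2.2.2.2.1.1 ha
        rw [hFf a (mem_iUnion.2 ⟨i, h1⟩), hf' i a h1]
      · rw [hpk e he, hFk e he]
    · refine ⟨1, (1 : Equiv.Perm C), M.G.one_mem, Γ.ofG M.G.one_mem ?_, fun k => absurd ⟨k⟩ hi,
        fun e _ => rfl⟩
      refine Γ.union_le ?_ (mk_image_le.trans hE₀.le)
      have : IsEmpty W := not_nonempty_iff.1 hi
      rw [iUnion_of_empty]
      simp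
  choose B F hBG hFE hFd hFB using hB
  have hU : #(⋃ k : W, (d k).2.1 : Set C) ≤ ν :=
    (mk_iUnion_le _).trans ((mul_le_mul' (hW.le.trans hρν)
      (ciSup_le' fun k : W => (hd k).2.2.2.2.2.2.2.1.2)).trans (mul_eq_self hν).le)
  have hJ : ν < #(W → Bool) := by
    have h1 : #(W → Bool) = 2 ^ #W := by simp
    rw [h1, hW]
    exact hρ
  obtain ⟨η, η', hηη, h, hh, hhz, hhe⟩ := hFew _ (iUnion_subset fun k : W =>
    (hd k).2.2.2.2.2.2.2.1.1.trans (hZX _ (hd k).1)) hU (W → Bool) hJ B hBG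
  -- the first difference
  have key : ∀ (η η' : W → Bool) (i : W), (∀ k < i, η k = η' k) → η i = false → η' i = true →
      ∀ h ∈ M.G, (∀ a ∈ ⋃ k : W, (d k).2.1, h a = a) → ¬ ∀ e ∈ E₀, h (B η e) = B η' e := by
    intro η η' i hη hi hi' h hh hhz hhe
    have hwi : (d i).2.1 ⊆ ⋃ k : W, (d k).2.1 := subset_iUnion (fun k : W => (d k).2.1) i
    have hwc : #(d i).2.1 < τ := (hd i).2.2.2.2.2.2.2.1.2.trans_lt hντ
    obtain ⟨p, hp, hpF⟩ := Γ.restr (hFE η) (D' := (d i).2.1 ∪ (B η : C → C) '' E₀)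
      (union_subset_union_left _ hwi) (Γ.union_lt hwc (mk_image_le.trans_lt hE₀))
    obtain ⟨p', hp', hpF'⟩ := Γ.restr (hFE η') (D' := (d i).2.1 ∪ (B η' : C → C) '' E₀)
      (union_subset_union_left _ hwi) (Γ.union_lt hwc (mk_image_le.trans_lt hE₀))
    refine (hd i).2.2.2.2.2.2.2.2 η η' hη hi hi' ⟨p' * h * p⁻¹, M.G.mul_mem (M.G.mul_mem hp' hh)
      (M.G.inv_mem hp), fun a ha => ?_, fun e he => ?_⟩
    · simp only [Equiv.Perm.mul_apply]
      have h1 : p⁻¹ ((d i).2.2 η a) = a := by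
        rw [Equiv.Perm.inv_eq_iff_eq, hpF a (Or.inl ha), hFd η i a ha]
      rw [h1, hhz a (hwi ha), hpF' a (Or.inl ha), hFd η' i a ha]
    · simp only [Equiv.Perm.mul_apply]
      have h1 : p⁻¹ e = B η e := by
        rw [Equiv.Perm.inv_eq_iff_eq, hpF _ (Or.inr (mem_image_of_mem _ he)), hFB η e he]
      rw [h1, hhe e he, hpF' _ (Or.inr (mem_image_of_mem _ he)), hFB η' e he]
  obtain ⟨i, hi1, hi2⟩ : ∃ i : W, η i ≠ η' i ∧ ∀ k < i, η k = η' k := by
    have hex : ∃ i, η i ≠ η' i := Function.ne_iff.1 hηη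
    refine ⟨(wellFounded_lt (α := W)).min {i | η i ≠ η' i} hex,
      (wellFounded_lt (α := W)).min_mem _ hex, fun k hk => ?_⟩
    by_contra hcon
    exact (wellFounded_lt (α := W)).not_lt_min {i | η i ≠ η' i} hcon hk
  rcases Bool.eq_false_or_eq_true (η i) with h0 | h0
  · have h0' : η' i = false := by
      rcases Bool.eq_false_or_eq_true (η' i) with h1 | h1
      · exact absurd (h0.trans h1.symm) hi1
      · exact h1
    refine key η' η i (fun k hk => (hi2 k hk).symm) h0' h0 h⁻¹ (M.G.inv_mem hh)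
      (fun a ha => fix_inv (hhz a ha)) fun e he => ?_
    rw [← hhe e he, inv_ap]
  · have h0' : η' i = true := by
      rcases Bool.eq_false_or_eq_true (η' i) with h1 | h1
      · exact h1
      · exact absurd (h0.trans h1.symm) hi1
    exact key η η' i hi2 h0 h0' h hh hhz hhe

end PG.EM

end Vale.Agent.P307.R2.H541
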