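import Vale.Agent.P307.H227.FmLoc

/-!
Members with a good system of strong substructures indexed by finite sets of elements have frames:
the geometry of such systems.
-/

universe u

open FirstOrder Cardinal Set Function Language

namespace Vale.Agent.P307.R2.H427

open Fm (FrameIn FrameOf HasFrames)
open H227 (IsLocFramed)
open scoped Classical

/-! ### Recursion over finite sets -/

theorem exists_finset_rec {α β : Type*} [Nonempty β] (R : (Finset α → β) → Finset α → Prop)
    (hc : ∀ A B s, (∀ t, t ⊆ s → A t = B t) → R A s → R B s)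
    (h : ∀ A s, (∀ t, t ⊂ s → R A t) → ∃ b, R (update A s b) s) : ∃ A, ∀ s, R A s := by
  let G : (s : Finset α) → ((t : Finset α) → t < s → β) → β := fun s ih =>
    if h : ∃ b, R (update (fun t => if ht : t < s then ih t ht else Classical.arbitrary β) s b) s
    then h.choose else Classical.arbitrary β
  let A : Finset α → β := WellFounded.fix (wellFounded_lt (α := Finset α)) G
  have hA : ∀ s, A s = G s fun t _ => A t := fun s => WellFounded.fix_eq _ _ _
  refine ⟨A, fun s => ?_⟩
  induction s using Finset.strongInduction with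
  | H s ih =>
    let A' : Finset α → β := fun t => if t < s then A t else Classical.arbitrary β
    have hA' : ∀ t, t ⊂ s → A' t = A t := fun t ht => if_pos ht
    have h1 : ∃ b, R (update A' s b) s := h A' s fun t ht =>
      hc A A' t (fun r hr => (hA' r (lt_of_le_of_lt hr ht)).symm) (ih t ht)
    have h2 : A s = h1.choose := by
      rw [hA s]
      exact dif_pos h1
    refine hc (update A' s h1.choose) A s (fun t ht => ?_) h1.choose_spec
    rcases eq_or_ne t s with rfl | hts
    · rw [update_self, h2]
    · rw [update_of_ne hts]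
      exact hA' t (lt_of_le_of_ne ht hts)

variable {L : Language.{u, u}} {M : Type u} [L.Structure M]

/-- `f` restricts to an isomorphism of `S` onto `T`. -/
def IsoOn {M' : Type u} [L.Structure M'] (f : M → M') (S : L.Substructure M)
    (T : L.Substructure M') : Prop :=
  ∃ φ : S ≃[L] T, ∀ a : S, (φ a : M') = f a

/-- A geometry of strong substructures over `P`. Here `Q` is a set of elements of `M` outside `P`,
and `PS A s` says, for a finite set `s` of elements of `Q` and a function `A` on the finite subsets
of `M`, that `A t`, for `t ⊆ s`, is a system of substructures free over `P`, each prime over the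
smaller ones. The axioms speak of strong substructures with at most `b` elements. -/
structure Geo (K : AEC L) (l b : Cardinal.{u}) (P : L.Substructure M) (Q : Set M) where
  PS : (Finset M → L.Substructure M) → Finset M → Prop
  lb : l ≤ b
  congr : ∀ {A B : Finset M → L.Substructure M} {s : Finset M}, (∀ t, t ⊆ s → A t = B t) →
    PS A s → PS B s
  mono : ∀ {A : Finset M → L.Substructure M} {s t : Finset M}, PS A s → t ⊆ s → PS A t
  empty : ∀ {A : Finset M → L.Substructure M}, A ∅ = P → PS A ∅
  bot : ∀ {A : Finset M → L.Substructure M} {s : Finset M}, PS A s → A ∅ = P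
  le : ∀ {A : Finset M → L.Substructure M} {s : Finset M}, PS A s → K.le (A s)
  card : ∀ {A : Finset M → L.Substructure M} {s : Finset M}, PS A s → #(A s) ≤ l
  memQ : ∀ {A : Finset M → L.Substructure M} {s : Finset M}, PS A s → ∀ x, x ∈ s → x ∈ Q
  mem : ∀ {A : Finset M → L.Substructure M} {s : Finset M}, PS A s → ∀ x, x ∈ s → x ∈ A s
  /-- independence -/
  int : ∀ {A : Finset M → L.Substructure M} {s : Finset M}, PS A s → ∀ t, t ⊆ s → ∀ t', t' ⊆ s →
    A t ⊓ A t' = A (t ∩ t')
  /-- primeness: existence inside strong substructures -/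
  ext : ∀ {A : Finset M → L.Substructure M} {s : Finset M} {N : L.Substructure M}, K.le N →
    #N ≤ b → s.Nonempty → (∀ t, t ⊂ s → PS A t ∧ A t ≤ N) → (∀ x, x ∈ s → x ∈ Q ∧ x ∈ N) →
    (∀ x, x ∈ s → x ∉ A (s.erase x)) → ∃ B : L.Substructure M, B ≤ N ∧ PS (update A s B) s
  /-- closure -/
  cl : ∀ {A : Finset M → L.Substructure M} {s : Finset M} {V : L.Substructure M}, PS A s →
    K.le V → #V ≤ b → P ≤ V → (∀ x, x ∈ s → x ∈ V) → ∀ y, y ∈ Q → y ∈ A s → y ∈ V
  /-- exchange -/
  exch : ∀ {A : Finset M → L.Substructure M} {s : Finset M} {x y : M}, PS A (insert x s) →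
    PS A (insert y s) → y ∈ Q → y ∈ A (insert x s) → y ∉ A s → x ∈ A (insert y s)
  /-- no Vaughtian pairs -/
  nv : ∀ {N N' : L.Substructure M}, K.le N → K.le N' → #N' ≤ b → P ≤ N → N ≤ N' →
    (∀ y, y ∈ Q → y ∈ N' → y ∈ N) → N = N'
  disj : ∀ y, y ∈ Q → y ∉ P

/-- Coherent isomorphisms of the boundaries of systems over `P` and `P'`, extending `f₀`, extend to
the systems. -/
def CrossIso {K : AEC L} {l b b' : Cardinal.{u}} {P : L.Substructure M} {Q : Set M} {M' : Type u}
    [L.Structure M'] {P' : L.Substructure M'} {Q' : Set M'} (C : Geo K l b P Q)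
    (C' : Geo K l b' P' Q') (f₀ : P ≃[L] P') : Prop :=
  ∀ (A : Finset M → L.Substructure M) (A' : Finset M' → L.Substructure M') (s : Finset M)
    (s' : Finset M'), C.PS A s → C'.PS A' s' → ∀ e : M → M', InjOn e s → s.image e = s' →
    ∀ f : M → M', (∀ t, t ⊂ s → IsoOn f (A t) (A' (t.image e))) →
    (∀ t, t ⊂ s → ∀ x, x ∈ t → f x = e x) → (∀ a : P, f a = f₀ a) →
    ∃ g : M → M', (∀ t, t ⊂ s → ∀ a, a ∈ A t → g a = f a) ∧ IsoOn g (A s) (A' s') ∧
      ∀ x, x ∈ s → g x = e x

namespace Geo

variable {K : AEC L} {l b : Cardinal.{u}} {P : L.Substructure M} {Q : Set M} (C : Geo K l b P Q)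

include C

theorem sub {A : Finset M → L.Substructure M} {s t : Finset M} (h : C.PS A s) (ht : t ⊆ s) :
    A t ≤ A s := by
  have h1 := C.int h t ht s (Finset.Subset.refl s)
  rw [Finset.inter_eq_left.2 ht] at h1
  rw [← h1]
  exact inf_le_right

theorem P_le {A : Finset M → L.Substructure M} {s : Finset M} (h : C.PS A s) : P ≤ A s := by
  rw [← C.bot h]
  exact C.sub h (Finset.empty_subset s)

/-- The elements of `s` outside `t` are not in `A t`. -/
theorem not_mem {A : Finset M → L.Substructure M} {s t : Finset M} (h : C.PS A s) (ht : t ⊆ s)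
    {x : M} (hx : x ∈ s) (hxt : x ∉ t) : x ∉ A t := by
  intro h1
  have h2 : C.PS A {x} := C.mono h (Finset.singleton_subset_iff.2 hx)
  have h3 : x ∈ A {x} := C.mem h2 x (Finset.mem_singleton_self x)
  have h4 := C.int h t ht {x} (Finset.singleton_subset_iff.2 hx)
  have h5 : t ∩ {x} = ∅ := by
    rw [Finset.inter_singleton_of_notMem hxt]
  rw [h5, C.bot h] at h4
  have h6 : x ∈ A t ⊓ A {x} := ⟨h1, h3⟩
  rw [h4] at h6
  exact C.disj x (C.memQ h x hx) h6

/-- Minimality. -/
theorem minimal {A : Finset M → L.Substructure M} {s : Finset M} (h : C.PS A s)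
    {V : L.Substructure M} (hV : K.le V) (hPV : P ≤ V) (hVA : V ≤ A s)
    (hs : ∀ t, t ⊂ s → A t ≤ V) : V = A s ∨ s.card = 1 ∧ V = P := by
  have hVb : #V ≤ b := (mk_le_mk_of_subset hVA).trans ((C.card h).trans C.lb)
  by_cases h1 : ∀ x, x ∈ s → x ∈ V
  · left
    exact C.nv hV (C.le h) ((C.card h).trans C.lb) hPV hVA fun y hy hyA =>
      C.cl h hV hVb hPV h1 y hy hyA
  · push Not at h1
    obtain ⟨x, hx, hxV⟩ := h1
    have h2 : s = {x} := by
      by_contra h3
      have h4 : ({x} : Finset M) ⊂ s :=
        lt_of_le_of_ne (Finset.singleton_subset_iff.2 hx) fun h5 => h3 h5.symm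
      exact hxV (hs _ h4 (C.mem (C.mono h h4.1) x (Finset.mem_singleton_self x)))
    subst h2
    right
    refine ⟨Finset.card_singleton x, ?_⟩
    refine (C.nv (C.bot h ▸ C.le (C.mono h (Finset.empty_subset _))) hV hVb (le_refl P) hPV
      fun y hy hyV => ?_).symm
    by_contra hyP
    -- a point of `V` outside `P` generates `x`
    have h6 : ∃ B : L.Substructure M, B ≤ V ∧ C.PS (update A {y} B) {y} := by
      refine C.ext hV hVb (Finset.singleton_nonempty y) (fun t ht => ?_) (fun z hz => ?_)
        (fun z hz => ?_)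
      · have h7 : t = ∅ := by
          rw [Finset.ssubset_singleton_iff] at ht
          exact ht
        subst h7
        exact ⟨C.mono h (Finset.empty_subset _), by rw [C.bot h]; exact hPV⟩
      · rw [Finset.mem_singleton] at hz
        subst hz
        exact ⟨hy, hyV⟩
      · rw [Finset.mem_singleton] at hz
        subst hz
        rw [Finset.erase_singleton, C.bot h]
        exact hyP
    obtain ⟨B, hB, hB2⟩ := h6
    have hyx : y ≠ x := by
      rintro rfl
      exact hxV hyV
    have h8 : C.PS (update A {y} B) (insert x ∅) := by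
      refine C.congr (fun t ht => ?_) h
      rw [update_of_ne]
      rintro rfl
      rw [Finset.singleton_subset_iff, Finset.mem_insert] at ht
      exact ht.elim hyx (Finset.notMem_empty y)
    have h9 : C.PS (update A {y} B) (insert y ∅) := hB2
    have h10 : y ∈ update A {y} B (insert x ∅) := by
      rw [update_of_ne]
      · exact hVA hyV
      · intro h11
        exact hyx (Finset.singleton_injective h11).symm
    have h12 : y ∉ update A {y} B ∅ := by
      rw [update_of_ne (Finset.singleton_ne_empty y).symm, C.bot h]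
      exact hyP
    have h13 := C.exch h8 h9 hy h10 h12
    have h14 : update A {y} B (insert y ∅) = B := by
      exact update_self _ _ _
    rw [h14] at h13
    exact hxV (hB h13)

/-! ### Frames -/

/-- Systems give frames. -/
theorem frameIn {X : Type u} (b : X ↪ M) (A : Finset M → L.Substructure M)
    (hA : ∀ s : Finset X, C.PS A (s.map b)) {S : L.Substructure M}
    (hS : ∀ s : Finset X, A (s.map b) ≤ S) :
    FrameIn (fun S => K.le S ∧ P ≤ S) S fun s : Finset X => A (s.map b) := by
  refine ⟨fun s => ⟨⟨C.le (hA s), C.P_le (hA s)⟩, hS s⟩, fun s t r hr => ?_, fun s t hst => ?_,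
    fun s V hV hVA ht => ?_⟩
  · have h1 : r = s ∩ t := by
      ext x
      rw [Finset.mem_inter, hr]
    have h2 := C.int (hA (s ∪ t)) (s.map b) (Finset.map_subset_map.2 Finset.subset_union_left)
      (t.map b) (Finset.map_subset_map.2 Finset.subset_union_right)
    rw [← Finset.map_inter, ← h1] at h2
    exact h2
  · intro i hi
    by_contra hit
    have h1 : b i ∈ A (s.map b) := C.mem (hA s) _ (Finset.mem_map_of_mem b hi)
    refine C.not_mem (hA (s ∪ t)) (Finset.map_subset_map.2 Finset.subset_union_right)
      (x := b i) (Finset.mem_map_of_mem b (Finset.mem_union_left t hi)) ?_ (hst h1)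
    rw [Finset.mem_map' b]
    exact hit
  · have h1 : ∀ t, t ⊂ s.map b → A t ≤ V := by
      intro t hts
      obtain ⟨r, hr, rfl⟩ := Finset.subset_map_iff.1 hts.1
      refine ht r (lt_of_le_of_ne hr ?_)
      rintro rfl
      exact hts.2 (Finset.Subset.refl _)
    rcases C.minimal (hA s) hV.1 hV.2 hVA h1 with h2 | ⟨h2, h3⟩
    · exact Or.inl h2
    · right
      rw [Finset.card_map] at h2
      refine ⟨∅, ?_, ?_⟩
      · rw [Finset.empty_ssubset, ← Finset.card_pos, h2]
        exact Nat.one_pos
      · rw [h3]
        exact (C.bot (hA ∅)).symm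

/-- Frames come from systems. -/
theorem exists_of_frameIn (hb : #M ≤ b) {X : Type u} {A : Finset X → L.Substructure M}
    {S : L.Substructure M} (hA : FrameIn (fun S => K.le S ∧ P ≤ S) S A) :
    ∃ (b : X ↪ M) (A' : Finset M → L.Substructure M), (∀ s, A' (s.map b) = A s) ∧
      ∀ s : Finset X, C.PS A' (s.map b) := by
  obtain ⟨h1, h2, h3, h4⟩ := hA
  have hmono : ∀ s t, s ⊆ t → A s ≤ A t := by
    intro s t hst
    have := h2 s t s fun x => ⟨fun h => ⟨h, hst h⟩, fun h => h.1⟩
    rw [← this]
    exact inf_le_right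
  have hP : K.le P := by
    have h5 := C.empty (A := fun _ => P) rfl
    exact C.le h5
  have h0 : A ∅ = P := by
    rcases h4 ∅ P ⟨hP, le_refl P⟩ (h1 ∅).1.2 (fun t ht => absurd ht (Finset.not_ssubset_empty t))
      with h5 | ⟨t, ht, -⟩
    · exact h5.symm
    · exact absurd ht (Finset.not_ssubset_empty t)
  have h5 : ∀ i, ∃ y, y ∈ Q ∧ y ∈ A {i} := by
    intro i
    by_contra h6
    push Not at h6
    have h7 := C.nv hP (h1 {i}).1.1 ((mk_subtype_le _).trans hb) (le_refl P) (h1 {i}).1.2
      fun y hy hyA => absurd hyA (h6 y hy)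
    have h8 : A {i} ≤ A ∅ := by rw [h0, ← h7]
    have h9 := h3 _ _ h8 (Finset.mem_singleton_self i)
    exact absurd h9 (Finset.notMem_empty i)
  choose c hbQ hbA using h5
  have hc : Injective c := by
    intro i j hij
    by_contra hne
    have h6 : c i ∈ A {i} ⊓ A {j} := ⟨hbA i, hij ▸ hbA j⟩
    rw [h2 {i} {j} ∅ (fun x => by
      simp only [Finset.notMem_empty, Finset.mem_singleton, false_iff, not_and]
      rintro rfl rfl
      exact hne rfl), h0] at h6
    exact C.disj _ (hbQ i) h6
  have hbs : ∀ s i, c i ∈ A s → i ∈ s := by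
    intro s i hi
    by_contra hne
    have h6 : c i ∈ A {i} ⊓ A s := ⟨hbA i, hi⟩
    rw [h2 {i} s ∅ (fun x => by
      simp only [Finset.notMem_empty, Finset.mem_singleton, false_iff, not_and]
      rintro rfl h7
      exact hne h7), h0] at h6
    exact C.disj _ (hbQ i) h6
  have hsb : ∀ s i, i ∈ s → c i ∈ A s := fun s i hi =>
    hmono _ _ (Finset.singleton_subset_iff.2 hi) (hbA i)
  let b' : X ↪ M := ⟨c, hc⟩
  let A' : Finset M → L.Substructure M := fun u =>
    if h : ∃ s : Finset X, s.map b' = u then A h.choose else P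
  have hA' : ∀ s, A' (s.map b') = A s := by
    intro s
    have h6 : ∃ t : Finset X, t.map b' = s.map b' := ⟨s, rfl⟩
    have h7 : A' (s.map b') = A h6.choose := dif_pos h6
    rw [h7]
    congr 1
    exact Finset.map_injective b' h6.choose_spec
  refine ⟨b', A', hA', fun s => ?_⟩
  induction s using Finset.strongInduction with
  | H s ih =>
    rcases s.eq_empty_or_nonempty with rfl | hs
    · rw [Finset.map_empty]
      refine C.empty ?_
      have h6 := hA' ∅
      rw [Finset.map_empty] at h6
      rw [h6, h0]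
    have h6 : ∃ B : L.Substructure M, B ≤ A s ∧ C.PS (update A' (s.map b') B) (s.map b') := by
      refine C.ext (h1 s).1.1 ((mk_subtype_le _).trans hb) (hs.map (f := b')) (fun t ht => ?_)
        (fun x hx => ?_) (fun x hx => ?_)
      · obtain ⟨r, hr, rfl⟩ := Finset.subset_map_iff.1 ht.1
        have hrs : r ⊂ s := by
          refine lt_of_le_of_ne hr ?_
          rintro rfl
          exact ht.2 (Finset.Subset.refl _)
        exact ⟨ih r hrs, by rw [hA']; exact hmono _ _ hr⟩
      · obtain ⟨i, hi, rfl⟩ := Finset.mem_map.1 hx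
        exact ⟨hbQ i, hsb s i hi⟩
      · obtain ⟨i, hi, rfl⟩ := Finset.mem_map.1 hx
        have h7 : (s.map b').erase (b' i) = (s.erase i).map b' := by
          rw [Finset.map_erase]
        rw [h7, hA']
        intro h8
        exact Finset.notMem_erase i s (hbs _ i h8)
    obtain ⟨B, hB, hB2⟩ := h6
    have hlt : ∀ t, t ⊂ s → A t ≤ B := by
      intro t ht
      have h7 : t.map b' ⊂ s.map b' := Finset.map_ssubset_map.2 ht
      have h8 := C.sub hB2 h7.1
      rw [update_self, update_of_ne h7.ne, hA'] at h8
      exact h8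
    have hBle := C.le hB2
    have hPB := C.P_le hB2
    rw [update_self] at hBle hPB
    rcases h4 s B ⟨hBle, hPB⟩ hB hlt with h7 | ⟨t, ht, h7⟩
    · refine C.congr (fun t _ => ?_) hB2
      rcases eq_or_ne t (s.map b') with rfl | hts
      · rw [update_self, h7, hA']
      · rw [update_of_ne hts]
    · exfalso
      refine ht.2 fun i hi => hbs t i ?_
      rw [← h7]
      have h8 := C.mem hB2 (b' i) (Finset.mem_map_of_mem b' hi)
      rwa [update_self] at h8

end Geo

end Vale.Agent.P307.R2.H427
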