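import Vale.Agent.P307.R2.H427.Frame1

/-!
Members with a good system of strong substructures indexed by finite sets of elements have frames:
existence and extension of frames.
-/

universe u

open FirstOrder Cardinal Set Function Language

namespace Vale.Agent.P307.R2.H427

open Fm (FrameIn FrameOf HasFrames)
open H227 (IsLocFramed)
open scoped Classical

variable {L : Language.{u, u}} {M : Type u} [L.Structure M]

namespace Geo

variable {K : AEC L} {l b : Cardinal.{u}} {P : L.Substructure M} {Q : Set M} (C : Geo K l b P Q)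

include C

/-- Adding one point to a system. -/
theorem exists_insert {Y : Set M} {A : Finset M → L.Substructure M} {T : L.Substructure M}
    (hT : K.le T) (hTb : #T ≤ b) (hA : ∀ s : Finset M, (s : Set M) ⊆ Y → C.PS A s ∧ A s ≤ T) {y : M}
    (hyQ : y ∈ Q) (hyT : y ∈ T) (hy : ∀ s : Finset M, (s : Set M) ⊆ Y → y ∉ A s) :
    ∃ B : Finset M → L.Substructure M, (∀ s : Finset M, (s : Set M) ⊆ Y → B s = A s) ∧
      ∀ s : Finset M, (s : Set M) ⊆ insert y Y → C.PS B s ∧ B s ≤ T := by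
  have key := exists_finset_rec (β := L.Substructure M)
    (fun B s => ((s : Set M) ⊆ Y → B s = A s) ∧ ((s : Set M) ⊆ insert y Y → C.PS B s ∧ B s ≤ T))
    (fun B B' s hBB' h => ⟨fun hs => (hBB' s (Finset.Subset.refl s)).symm.trans (h.1 hs),
      fun hs => ⟨C.congr hBB' (h.2 hs).1, by
        rw [← hBB' s (Finset.Subset.refl s)]
        exact (h.2 hs).2⟩⟩) ?_
  · obtain ⟨B, hB⟩ := key
    exact ⟨B, fun s => (hB s).1, fun s => (hB s).2⟩
  intro B s hB
  by_cases hsY : (s : Set M) ⊆ Y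
  · refine ⟨A s, fun _ => update_self _ _ _, fun _ => ⟨?_, ?_⟩⟩
    · refine C.congr (fun t ht => ?_) (hA s hsY).1
      rcases eq_or_ne t s with rfl | hts
      · rw [update_self]
      · rw [update_of_ne hts]
        exact ((hB t (lt_of_le_of_ne ht hts)).1
          (fun x hx => hsY (ht hx))).symm
    · rw [update_self]
      exact (hA s hsY).2
  by_cases hsy : (s : Set M) ⊆ insert y Y
  swap
  · exact ⟨P, fun h => absurd h hsY, fun h => absurd h hsy⟩
  have hys : y ∈ s := by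
    by_contra h
    refine hsY fun x hx => ?_
    rcases hsy hx with rfl | h1
    · exact absurd hx h
    · exact h1
  have hlt : ∀ t, t ⊂ s → C.PS B t ∧ B t ≤ T := fun t ht =>
    (hB t ht).2 fun x hx => hsy (ht.1 hx)
  have hle : ∀ t, t ⊆ s → y ∉ t → (t : Set M) ⊆ Y := by
    intro t ht hyt x hx
    rcases hsy (ht hx) with rfl | h1
    · exact absurd hx hyt
    · exact h1
  have herase : y ∉ B (s.erase y) := by
    have h1 : ((s.erase y : Finset M) : Set M) ⊆ Y :=
      hle _ (Finset.erase_subset y s) (Finset.notMem_erase y s)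
    rw [(hB _ (Finset.erase_ssubset hys)).1 h1]
    exact hy _ h1
  have hQ : ∀ x, x ∈ s → x ∈ Q ∧ x ∈ T := by
    intro x hx
    rcases eq_or_ne x y with rfl | hxy
    · exact ⟨hyQ, hyT⟩
    · have h1 : ({x} : Finset M) ⊂ s := by
        refine lt_of_le_of_ne (Finset.singleton_subset_iff.2 hx) ?_
        rintro h2
        rw [← h2, Finset.mem_singleton] at hys
        exact hxy hys.symm
      have h2 := hlt _ h1
      exact ⟨C.memQ h2.1 x (Finset.mem_singleton_self x),
        h2.2 (C.mem h2.1 x (Finset.mem_singleton_self x))⟩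
  obtain ⟨D, hD, hD2⟩ := C.ext hT hTb ⟨y, hys⟩ hlt hQ (fun x hx h1 => by
    rcases eq_or_ne x y with rfl | hxy
    · exact herase h1
    have h2 : insert y ((s.erase x).erase y) = s.erase x :=
      Finset.insert_erase (Finset.mem_erase.2 ⟨hxy.symm, hys⟩)
    have h3 : insert x ((s.erase x).erase y) = s.erase y := by
      rw [Finset.erase_right_comm]
      exact Finset.insert_erase (Finset.mem_erase.2 ⟨hxy, hx⟩)
    have h4 : C.PS B (s.erase x) := (hlt _ (Finset.erase_ssubset hx)).1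
    have h5 : C.PS B (s.erase y) := (hlt _ (Finset.erase_ssubset hys)).1
    have h6 : x ∉ B ((s.erase x).erase y) := by
      refine C.not_mem h5 ?_ (Finset.mem_erase.2 ⟨hxy, hx⟩) ?_
      · rw [Finset.erase_right_comm]
        exact Finset.erase_subset _ _
      · rw [Finset.erase_right_comm]
        exact Finset.notMem_erase _ _
    have h7 := C.exch (s := (s.erase x).erase y) (x := y) (y := x) (by rw [h2]; exact h4)
      (by rw [h3]; exact h5) (hQ x hx).1 (by rw [h2]; exact h1) h6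
    rw [h3] at h7
    exact herase h7)
  refine ⟨D, fun h => absurd h hsY, fun _ => ⟨hD2, ?_⟩⟩
  rw [update_self]
  exact hD

/-- Maximal systems. -/
theorem exists_maximal {Y : Set M} {A : Finset M → L.Substructure M} {T : L.Substructure M}
    (hT : K.le T) (hTb : #T ≤ b) (hA : ∀ s : Finset M, (s : Set M) ⊆ Y → C.PS A s ∧ A s ≤ T) :
    ∃ (Z : Set M) (B : Finset M → L.Substructure M), Y ⊆ Z ∧
      (∀ s : Finset M, (s : Set M) ⊆ Y → B s = A s) ∧
      (∀ s : Finset M, (s : Set M) ⊆ Z → C.PS B s ∧ B s ≤ T) ∧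
      ∀ a, a ∈ T → ∃ s : Finset M, (s : Set M) ⊆ Z ∧ a ∈ B s := by
  let α := {p : Set M × (Finset M → L.Substructure M) // Y ⊆ p.1 ∧
    (∀ s : Finset M, (s : Set M) ⊆ Y → p.2 s = A s) ∧
    ∀ s : Finset M, (s : Set M) ⊆ p.1 → C.PS p.2 s ∧ p.2 s ≤ T}
  let r : α → α → Prop := fun p q => p.1.1 ⊆ q.1.1 ∧
    ∀ s : Finset M, (s : Set M) ⊆ p.1.1 → q.1.2 s = p.1.2 s
  have hr : ∀ {p q w : α}, r p q → r q w → r p w := fun {p q w} h1 h2 =>
    ⟨h1.1.trans h2.1, fun s hs => (h2.2 s (hs.trans h1.1)).trans (h1.2 s hs)⟩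
  have hch : ∀ c : Set α, IsChain r c → ∃ ub, ∀ a ∈ c, r a ub := by
    intro c hc
    rcases c.eq_empty_or_nonempty with rfl | ⟨p₀, hp₀⟩
    · exact ⟨⟨(Y, A), Subset.rfl, fun _ _ => rfl, hA⟩, fun a ha => absurd ha (notMem_empty a)⟩
    have hrefl : ∀ p : α, r p p := fun p => ⟨Subset.rfl, fun _ _ => rfl⟩
    have htot : ∀ p ∈ c, ∀ q ∈ c, r p q ∨ r q p := by
      intro p hp q hq
      rcases eq_or_ne p q with rfl | hne
      · exact Or.inl (hrefl p)
      · exact hc hp hq hne
    have hfin : ∀ s : Finset M, (s : Set M) ⊆ ⋃ p ∈ c, p.1.1 → ∃ p ∈ c, (s : Set M) ⊆ p.1.1 := by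
      intro s hs
      refine DirectedOn.exists_mem_subset_of_finset_subset_biUnion (f := fun p : α => p.1.1)
        ⟨p₀, hp₀⟩ (fun p hp q hq => ?_) hs
      rcases htot p hp q hq with h | h
      · exact ⟨q, hq, h.1, Subset.rfl⟩
      · exact ⟨p, hp, Subset.rfl, h.1⟩
    let B : Finset M → L.Substructure M := fun s =>
      if h : ∃ p ∈ c, (s : Set M) ⊆ p.1.1 then h.choose.1.2 s else P
    have hB : ∀ p ∈ c, ∀ s : Finset M, (s : Set M) ⊆ p.1.1 → B s = p.1.2 s := by
      intro p hp s hs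
      have h : ∃ p ∈ c, (s : Set M) ⊆ p.1.1 := ⟨p, hp, hs⟩
      have h1 : B s = h.choose.1.2 s := dif_pos h
      rw [h1]
      rcases htot p hp _ h.choose_spec.1 with h2 | h2
      · exact h2.2 s hs
      · exact (h2.2 s h.choose_spec.2).symm
    have hsub : ∀ p ∈ c, p.1.1 ⊆ ⋃ p ∈ c, p.1.1 := fun p hp =>
      subset_biUnion_of_mem (u := fun p : α => p.1.1) hp
    refine ⟨⟨(⋃ p ∈ c, p.1.1, B), p₀.2.1.trans (hsub p₀ hp₀), fun s hs => ?_, fun s hs => ?_⟩,
      fun p hp => ⟨hsub p hp, fun s hs => hB p hp s hs⟩⟩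
    · change B s = A s
      rw [hB p₀ hp₀ s (hs.trans p₀.2.1)]
      exact p₀.2.2.1 s hs
    · obtain ⟨p, hp, hps⟩ := hfin s hs
      have h1 := p.2.2.2 s hps
      refine ⟨C.congr (fun t ht => ?_) h1.1, ?_⟩
      · exact (hB p hp t fun x hx => hps (ht hx)).symm
      · change B s ≤ T
        rw [hB p hp s hps]
        exact h1.2
  obtain ⟨m, hm⟩ := exists_maximal_of_chains_bounded hch hr
  obtain ⟨⟨Z, B⟩, hYZ, hBA, hB⟩ := m
  refine ⟨Z, B, hYZ, hBA, hB, ?_⟩
  -- the union is strong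
  let F : {s : Finset M // (s : Set M) ⊆ Z} → L.Substructure M := fun s => B s.1
  have hFm : Monotone F := fun s t hst => C.sub (hB t.1 t.2).1 hst
  have hne : Nonempty {s : Finset M // (s : Set M) ⊆ Z} := ⟨⟨∅, by simp⟩⟩
  have hdir : IsDirectedOrder {s : Finset M // (s : Set M) ⊆ Z} := ⟨fun s t =>
    ⟨⟨s.1 ∪ t.1, by
      rw [Finset.coe_union]
      exact union_subset s.2 t.2⟩,
      (Finset.subset_union_left : s.1 ⊆ s.1 ∪ t.1), (Finset.subset_union_right : t.1 ⊆ s.1 ∪ t.1)⟩⟩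
  have hV : K.le (⨆ s, F s) := AEC.le_iSup_directed F hFm fun s => C.le (hB s.1 s.2).1
  have hVT : (⨆ s, F s) ≤ T := iSup_le fun s => (hB s.1 s.2).2
  have hPV : P ≤ ⨆ s, F s := by
    have h1 : P ≤ F ⟨∅, by simp⟩ := C.P_le (hB ∅ (by simp)).1
    exact h1.trans (le_iSup F _)
  have hmem : ∀ a, a ∈ (⨆ s, F s) ↔ ∃ s, a ∈ F s := fun a =>
    Substructure.mem_iSup_of_directed (directed_of_isDirected_le hFm)
  have hVeq : (⨆ s, F s) = T := by
    refine C.nv hV hT hTb hPV hVT fun y hyQ hyT => ?_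
    by_contra hyV
    have hy : ∀ s : Finset M, (s : Set M) ⊆ Z → y ∉ B s := fun s hs hys =>
      hyV ((hmem y).2 ⟨⟨s, hs⟩, hys⟩)
    obtain ⟨B', hB'1, hB'2⟩ := C.exists_insert hT hTb hB hyQ hyT hy
    have h1 := hm ⟨(insert y Z, B'), hYZ.trans (subset_insert y Z), fun s hs => by
      change B' s = A s
      rw [hB'1 s (hs.trans hYZ)]
      exact hBA s hs, hB'2⟩ ⟨subset_insert y Z, hB'1⟩
    have h2 : y ∈ Z := h1.1 (mem_insert y Z)
    have h3 : (({y} : Finset M) : Set M) ⊆ Z := by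
      rw [Finset.coe_singleton]
      exact singleton_subset_iff.2 h2
    exact hy {y} h3 (C.mem (hB {y} h3).1 y (Finset.mem_singleton_self y))
  intro a ha
  rw [← hVeq] at ha
  obtain ⟨s, hs⟩ := (hmem a).1 ha
  exact ⟨s.1, s.2, hs⟩

/-- Frames in a strong substructure can be extended to frames of it. -/
theorem exists_frameOf (hb : #M ≤ b) {T : L.Substructure M} (hT : K.le T) {X : Type u}
    {A : Finset X → L.Substructure M} (hA : FrameIn (fun S => K.le S ∧ P ≤ S) T A) :
    ∃ (Y : Type u) (j : X ↪ Y) (B : Finset Y → L.Substructure M),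
      FrameOf (fun S => K.le S ∧ P ≤ S) T B ∧ ∀ s, B (s.map j) = A s := by
  obtain ⟨c, A', hA', hPS⟩ := C.exists_of_frameIn hb hA
  have h1 : ∀ s : Finset M, (s : Set M) ⊆ range c → C.PS A' s ∧ A' s ≤ T := by
    intro s hs
    have h2 : ∃ t : Finset X, t.map c = s := by
      refine ⟨s.preimage c c.injective.injOn, ?_⟩
      rw [Finset.map_eq_image, Finset.image_preimage]
      exact Finset.filter_true_of_mem fun x hx => hs hx
    obtain ⟨t, rfl⟩ := h2
    exact ⟨hPS t, by rw [hA']; exact (hA.1 t).2⟩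
  obtain ⟨Z, B, hZ, hBA, hB, hBT⟩ := C.exists_maximal hT ((mk_subtype_le _).trans hb) h1
  have hmapZ : ∀ s : Finset Z, ((s.map (Embedding.subtype _) : Finset M) : Set M) ⊆ Z := by
    intro s x hx
    rw [Finset.mem_coe, Finset.mem_map] at hx
    obtain ⟨z, -, rfl⟩ := hx
    exact z.2
  refine ⟨Z, ⟨fun x => ⟨c x, hZ (mem_range_self x)⟩, fun x y hxy => c.injective
    (congrArg Subtype.val hxy)⟩, fun s => B (s.map (Embedding.subtype _)), ⟨?_, ?_⟩, ?_⟩
  · exact C.frameIn (Embedding.subtype (· ∈ Z)) B (fun s => (hB _ (hmapZ s)).1)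
      fun s => (hB _ (hmapZ s)).2
  · intro a ha
    obtain ⟨s, hs, has⟩ := hBT a ha
    refine ⟨s.subtype (· ∈ Z), ?_⟩
    change a ∈ B ((s.subtype (· ∈ Z)).map (Embedding.subtype (· ∈ Z)))
    rw [Finset.subtype_map_of_mem fun x hx => hs hx]
    exact has
  · intro s
    have h3 : (s.map (⟨fun x => ⟨c x, hZ (mem_range_self x)⟩, fun x y hxy => c.injective
        (congrArg Subtype.val hxy)⟩ : X ↪ Z)).map (Embedding.subtype (· ∈ Z)) = s.map c := by
      rw [Finset.map_map]
      rfl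
    change B _ = A s
    rw [h3, hBA _ (by
      rw [Finset.coe_map]
      exact image_subset_range c _), hA']

end Geo

end Vale.Agent.P307.R2.H427
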