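import Vale.Agent.P307.R2.H427.Frame2

/-!
Members with a good system of strong substructures indexed by finite sets of elements: systems which
cover two members of the same size give an isomorphism of the members.
-/

universe u

open FirstOrder Cardinal Set Function Language

namespace Vale.Agent.P307.R2.H427

open Fm (FrameIn FrameOf HasFrames)
open H227 (IsLocFramed)
open scoped Classical

variable {L : Language.{u, u}} {M M' : Type u} [L.Structure M] [L.Structure M']

theorem IsoOn.congr {f g : M → M'} {S : L.Substructure M} {T : L.Substructure M'}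
    (h : IsoOn f S T) (hfg : ∀ a, a ∈ S → g a = f a) : IsoOn g S T := by
  obtain ⟨φ, hφ⟩ := h
  exact ⟨φ, fun a => (hφ a).trans (hfg a a.2).symm⟩

/-- A function on the union of a directed family of substructures which restricts to isomorphisms
is an isomorphism. -/
theorem exists_equiv_of_isoOn {X Y : Type u} (A : Finset X → L.Substructure M)
    (B : Finset Y → L.Substructure M') (hmA : ∀ s t, s ⊆ t → A s ≤ A t)
    (hA : ∀ a, ∃ s, a ∈ A s) (hB : ∀ a, ∃ s, a ∈ B s) (e : X ≃ Y) (σ : M → M')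
    (hσ : ∀ s, IsoOn σ (A s) (B (s.map e.toEmbedding))) :
    ∃ τ : M ≃[L] M', (∀ a, τ a = σ a) ∧ ∀ s, (A s).map τ.toHom = B (s.map e.toEmbedding) := by
  have hfin : ∀ (n : ℕ) (x : Fin n → M), ∃ s, ∀ i, x i ∈ A s := by
    intro n x
    choose s hs using fun i => hA (x i)
    exact ⟨Finset.univ.biUnion s, fun i => hmA _ _
      (Finset.subset_biUnion_of_mem s (Finset.mem_univ i)) (hs i)⟩
  have hinj : Injective σ := by
    intro a b hab
    obtain ⟨s, hs⟩ := hA a
    obtain ⟨t, ht⟩ := hA b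
    obtain ⟨φ, hφ⟩ := hσ (s ∪ t)
    have h1 := hφ ⟨a, hmA _ _ Finset.subset_union_left hs⟩
    have h2 := hφ ⟨b, hmA _ _ Finset.subset_union_right ht⟩
    have h3 := φ.injective (Subtype.ext (h1.trans (hab.trans h2.symm)))
    exact congrArg Subtype.val h3
  have hsurj : Surjective σ := by
    intro b
    obtain ⟨t, ht⟩ := hB b
    obtain ⟨φ, hφ⟩ := hσ (t.map e.symm.toEmbedding)
    have h1 : (t.map e.symm.toEmbedding).map e.toEmbedding = t := by
      rw [Finset.map_map]
      ext y
      simp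
    have hb : b ∈ B ((t.map e.symm.toEmbedding).map e.toEmbedding) := by rwa [h1]
    refine ⟨φ.symm ⟨b, hb⟩, ?_⟩
    rw [← hφ, φ.apply_symm_apply]
  let τ : M ≃[L] M' :=
    { toEquiv := Equiv.ofBijective σ ⟨hinj, hsurj⟩
      map_fun' := by
        intro n f x
        obtain ⟨s, hs⟩ := hfin n x
        obtain ⟨φ, hφ⟩ := hσ s
        let x' : Fin n → A s := fun i => ⟨x i, hs i⟩
        have h1 := hφ (Structure.funMap f x')
        have h2 : ((Structure.funMap f x' : A s) : M) = Structure.funMap f x := rfl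
        rw [h2] at h1
        change σ (Structure.funMap f x) = Structure.funMap f (σ ∘ x)
        rw [← h1, φ.map_fun]
        change Structure.funMap f (fun i => ((φ (x' i) : B (s.map e.toEmbedding)) : M')) = _
        congr 1
        funext i
        exact hφ (x' i)
      map_rel' := by
        intro n r x
        obtain ⟨s, hs⟩ := hfin n x
        obtain ⟨φ, hφ⟩ := hσ s
        let x' : Fin n → A s := fun i => ⟨x i, hs i⟩
        have h1 := φ.map_rel r x'
        change Structure.RelMap r (fun i => ((φ (x' i) : B (s.map e.toEmbedding)) : M')) ↔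
          Structure.RelMap r x at h1
        change Structure.RelMap r (σ ∘ x) ↔ _
        rw [← h1]
        have h2 : (fun i => ((φ (x' i) : B (s.map e.toEmbedding)) : M')) = σ ∘ x := by
          funext i
          exact hφ (x' i)
        rw [h2] }
  refine ⟨τ, fun _ => rfl, fun s => ?_⟩
  obtain ⟨φ, hφ⟩ := hσ s
  ext b
  rw [Substructure.mem_map]
  constructor
  · rintro ⟨a, ha, rfl⟩
    change σ a ∈ _
    have h1 := hφ ⟨a, ha⟩
    rw [← h1]
    exact (φ ⟨a, ha⟩).2
  · intro hb
    refine ⟨φ.symm ⟨b, hb⟩, (φ.symm ⟨b, hb⟩).2, ?_⟩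
    change σ _ = b
    rw [← hφ, φ.apply_symm_apply]

/-- The size of the index set of a covering system. -/
theorem mk_index {X : Type u} {A : Finset X → L.Substructure M} {l : Cardinal.{u}} (hl : ℵ₀ ≤ l)
    (hM : l < #M) (hA : ∀ a, ∃ s, a ∈ A s) (hAl : ∀ s, #(A s) ≤ l) : #M ≤ #X := by
  have h1 : #M ≤ #(Finset X) * l := by
    have h2 : #M ≤ #(Σ s : Finset X, A s) := by
      refine mk_le_of_surjective (f := fun p : Σ s : Finset X, A s => (p.2 : M)) fun a => ?_
      obtain ⟨s, hs⟩ := hA a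
      exact ⟨⟨s, ⟨a, hs⟩⟩, rfl⟩
    rw [mk_sigma] at h2
    refine h2.trans ((sum_le_sum _ _ hAl).trans ?_)
    rw [sum_const']
  have hX : Infinite X := by
    by_contra hfin
    rw [not_infinite_iff_finite] at hfin
    have h3 : #(Finset X) * l ≤ l := by
      have : Fintype X := Fintype.ofFinite X
      refine (mul_le_max_of_aleph0_le_right hl).trans (max_le ?_ le_rfl)
      exact (lt_aleph0_of_finite (Finset X)).le.trans hl
    exact absurd (h1.trans h3) (not_le.2 hM)
  rw [mk_finset_of_infinite] at h1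
  by_contra h4
  push Not at h4
  exact absurd (h1.trans_lt (mul_lt_of_lt (hl.trans hM.le) h4 hM)) (lt_irrefl _)

section cross

variable {K : AEC L} {l b b' : Cardinal.{u}} {P : L.Substructure M} {Q : Set M}
  {P' : L.Substructure M'} {Q' : Set M'} {C : Geo K l b P Q} {C' : Geo K l b' P' Q'}
  {f₀ : P ≃[L] P'}

/-- Systems which cover `M` and `M'` give an isomorphism. -/
theorem CrossIso.exists_equiv [Nonempty M'] (hI : CrossIso C C' f₀) {X Y : Type u} (c : X ↪ M)
    (c' : Y ↪ M') {A : Finset M → L.Substructure M} {B : Finset M' → L.Substructure M'}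
    (hA : ∀ s : Finset X, C.PS A (s.map c)) (hB : ∀ s : Finset Y, C'.PS B (s.map c'))
    (hAc : ∀ a, ∃ s : Finset X, a ∈ A (s.map c)) (hBc : ∀ a, ∃ s : Finset Y, a ∈ B (s.map c'))
    (e : X ≃ Y) :
    ∃ σ : M ≃[L] M', (∀ a : P, σ a = f₀ a) ∧
      ∀ s : Finset X, (A (s.map c)).map σ.toHom = B ((s.map e.toEmbedding).map c') := by
  have hmA : ∀ s t : Finset X, s ⊆ t → A (s.map c) ≤ A (t.map c) := fun s t hst =>
    C.sub (hA t) (Finset.map_subset_map.2 hst)
  have hA0 : A ∅ = P := C.bot (hA ∅)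
  have hB0 : B ∅ = P' := C'.bot (hB ∅)
  have hA0' : A ((∅ : Finset X).map c) = P := hA0
  have hAint : ∀ s t : Finset X, A (s.map c) ⊓ A (t.map c) = A ((s ∩ t).map c) := fun s t => by
    rw [Finset.map_inter]
    exact C.int (hA (s ∪ t)) (s.map c) (Finset.map_subset_map.2 Finset.subset_union_left)
      (t.map c) (Finset.map_subset_map.2 Finset.subset_union_right)
  -- the bijection of the points
  let m₀ : M' := Classical.arbitrary M'
  let ε : M → M' := Function.extend c (fun i => c' (e i)) fun _ => m₀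
  have hε : ∀ i, ε (c i) = c' (e i) := fun i => c.injective.extend_apply _ _ i
  have hεm : ∀ s : Finset X, (s.map c).image ε = (s.map e.toEmbedding).map c' := by
    intro s
    rw [Finset.map_eq_image, Finset.image_image, Finset.map_eq_image, Finset.map_eq_image,
      Finset.image_image]
    refine Finset.image_congr fun i _ => ?_
    exact hε i
  have hne : Nonempty (M → M') := ⟨ε⟩
  obtain ⟨F, hF⟩ := exists_finset_rec (α := X) (β := M → M') (fun F s =>
    IsoOn (F s) (A (s.map c)) (B ((s.map e.toEmbedding).map c')) ∧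
      (∀ t, t ⊆ s → ∀ a, a ∈ A (t.map c) → F s a = F t a) ∧
      (∀ a : P, F s a = f₀ a) ∧ ∀ i, i ∈ s → F s (c i) = c' (e i))
    (fun F G s hFG h => by
      have h1 := hFG s (Finset.Subset.refl s)
      rw [← h1]
      refine ⟨h.1, fun t ht a ha => ?_, h.2.2⟩
      rw [← hFG t ht]
      exact h.2.1 t ht a ha) (fun F s hF => by
    rcases s.eq_empty_or_nonempty with rfl | hs
    · let g : M → M' := fun a => if h : a ∈ P then f₀ ⟨a, h⟩ else m₀
      have hg : ∀ a : P, g a = f₀ a := fun a => dif_pos a.2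
      refine ⟨g, ?_⟩
      rw [update_self]
      refine ⟨?_, fun t ht a _ => ?_, hg, fun i hi => absurd hi (Finset.notMem_empty i)⟩
      · rw [Finset.map_empty, Finset.map_empty, Finset.map_empty, hA0, hB0]
        exact ⟨f₀, fun a => (hg a).symm⟩
      · rw [Finset.subset_empty.1 ht, update_self]
    -- the function on the boundary
    let f : M → M' := fun a => if h : ∃ t, t ⊂ s ∧ a ∈ A (t.map c) then F h.choose a else m₀
    have hf : ∀ t, t ⊂ s → ∀ a, a ∈ A (t.map c) → f a = F t a := by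
      intro t ht a ha
      have h : ∃ t, t ⊂ s ∧ a ∈ A (t.map c) := ⟨t, ht, ha⟩
      have h1 : f a = F h.choose a := dif_pos h
      have h2 := h.choose_spec
      have h3 : a ∈ A ((h.choose ∩ t).map c) := by
        rw [← hAint]
        exact ⟨h2.2, ha⟩
      rw [h1, (hF _ h2.1).2.1 _ Finset.inter_subset_left a h3,
        (hF t ht).2.1 _ Finset.inter_subset_right a h3]
    have hfs : ∀ t : Finset M, t ⊂ s.map c → ∃ r, r ⊂ s ∧ r.map c = t := by
      intro t ht
      obtain ⟨r, hr, rfl⟩ := Finset.subset_map_iff.1 ht.1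
      refine ⟨r, lt_of_le_of_ne hr ?_, rfl⟩
      rintro rfl
      exact ht.2 (Finset.Subset.refl _)
    obtain ⟨g, hg1, hg2, hg3⟩ := hI A B (s.map c) ((s.map e.toEmbedding).map c') (hA s)
      (hB (s.map e.toEmbedding)) ε (by
        intro x hx y hy hxy
        rw [Finset.mem_coe] at hx hy
        obtain ⟨i, hi, rfl⟩ := Finset.mem_map.1 hx
        obtain ⟨j, hj, rfl⟩ := Finset.mem_map.1 hy
        rw [hε, hε] at hxy
        rw [e.injective (c'.injective hxy)]) (hεm s) f
      (fun t ht => by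
        obtain ⟨r, hr, rfl⟩ := hfs t ht
        rw [hεm]
        exact (hF r hr).1.congr (hf r hr))
      (fun t ht x hx => by
        obtain ⟨r, hr, rfl⟩ := hfs t ht
        obtain ⟨i, hi, rfl⟩ := Finset.mem_map.1 hx
        rw [hε, hf r hr _ (C.mem (hA r) _ hx)]
        exact (hF r hr).2.2.2 i hi)
      (fun a => by
        rw [hf ∅ (Finset.empty_ssubset.2 hs) a (by
          rw [hA0']
          exact a.2)]
        exact (hF ∅ (Finset.empty_ssubset.2 hs)).2.2.1 a)
    refine ⟨g, ?_⟩
    rw [update_self]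
    have hg4 : ∀ t, t ⊂ s → ∀ a, a ∈ A (t.map c) → g a = F t a := by
      intro t ht a ha
      rw [← hf t ht a ha]
      exact hg1 (t.map c) (Finset.map_ssubset_map.2 ht) a ha
    refine ⟨hg2, fun t ht a ha => ?_, fun a => ?_, fun i hi => ?_⟩
    · rcases eq_or_ne t s with rfl | hts
      · rw [update_self]
      · rw [update_of_ne hts]
        exact hg4 t (lt_of_le_of_ne ht hts) a ha
    · rw [hg4 ∅ (Finset.empty_ssubset.2 hs) a (by
        rw [hA0']
        exact a.2)]
      exact (hF ∅ (Finset.empty_ssubset.2 hs)).2.2.1 a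
    · rw [hg3 _ (Finset.mem_map_of_mem c hi), hε])
  -- the union
  let σ : M → M' := fun a => if h : ∃ s : Finset X, a ∈ A (s.map c) then F h.choose a else m₀
  have hσ : ∀ (s : Finset X) (a : M), a ∈ A (s.map c) → σ a = F s a := by
    intro s a ha
    have h : ∃ s : Finset X, a ∈ A (s.map c) := ⟨s, ha⟩
    have h1 : σ a = F h.choose a := dif_pos h
    have h3 : a ∈ A ((h.choose ∩ s).map c) := by
      rw [← hAint]
      exact ⟨h.choose_spec, ha⟩
    rw [h1, (hF _).2.1 _ Finset.inter_subset_left a h3,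
      (hF s).2.1 _ Finset.inter_subset_right a h3]
  obtain ⟨τ, hτ, hτA⟩ := exists_equiv_of_isoOn (fun s : Finset X => A (s.map c))
    (fun s : Finset Y => B (s.map c')) hmA hAc hBc e σ fun s => (hF s).1.congr (hσ s)
  refine ⟨τ, fun a => ?_, hτA⟩
  rw [hτ, hσ ∅ a (by
    rw [hA0']
    exact a.2)]
  exact (hF ∅).2.2.1 a

/-- The size of a covering system. -/
theorem Geo.mk_index (C : Geo K l b P Q) (hl : ℵ₀ ≤ l) (hM : l < #M) {X : Type u} (c : X ↪ M)
    {A : Finset M → L.Substructure M} (hA : ∀ s : Finset X, C.PS A (s.map c))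
    (hAc : ∀ a, ∃ s : Finset X, a ∈ A (s.map c)) : #X = #M :=
  _root_.le_antisymm (mk_le_of_injective c.injective)
    (H427.mk_index hl hM hAc fun s => C.card (hA s))

/-- A member is covered by a system. -/
theorem Geo.exists_cover (C : Geo K l b P Q) (hM : K.mem M) (hb : #M ≤ b) :
    ∃ (X : Type u) (c : X ↪ M) (A : Finset M → L.Substructure M),
      (∀ s : Finset X, C.PS A (s.map c)) ∧ ∀ a, ∃ s : Finset X, a ∈ A (s.map c) := by
  obtain ⟨Z, B, -, -, h1, h2⟩ := C.exists_maximal (K.le_refl hM) ((mk_subtype_le _).trans hb)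
    (Y := ∅) (A := fun _ => P) (T := ⊤) (fun s hs => by
      have h : s = ∅ := by
        rwa [subset_empty_iff, Finset.coe_eq_empty] at hs
      subst h
      exact ⟨C.empty rfl, le_top⟩)
  have hmapZ : ∀ s : Finset Z, ((s.map (Embedding.subtype _) : Finset M) : Set M) ⊆ Z := by
    intro s x hx
    rw [Finset.mem_coe, Finset.mem_map] at hx
    obtain ⟨z, -, rfl⟩ := hx
    exact z.2
  refine ⟨Z, Embedding.subtype _, B, fun s => (h1 _ (hmapZ s)).1, fun a => ?_⟩
  obtain ⟨s, hs, has⟩ := h2 a (Substructure.mem_top a)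
  refine ⟨s.subtype (· ∈ Z), ?_⟩
  rw [Finset.subtype_map_of_mem fun x hx => hs hx]
  exact has

/-- **Members of the same size are isomorphic.** -/
theorem CrossIso.exists_equiv_of_card (hI : CrossIso C C' f₀) (hl : ℵ₀ ≤ l) (hM : K.mem M)
    (hM' : K.mem M') (hb : #M ≤ b) (hb' : #M' ≤ b') (hlM : l < #M) (hMM : #M = #M') :
    ∃ σ : M ≃[L] M', ∀ a : P, σ a = f₀ a := by
  obtain ⟨X, c, A, hA, hAc⟩ := C.exists_cover hM hb
  obtain ⟨Y, c', B, hB, hBc⟩ := C'.exists_cover hM' hb'
  have hX := C.mk_index hl hlM c hA hAc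
  have hY := C'.mk_index hl (hMM ▸ hlM) c' hB hBc
  obtain ⟨e⟩ := Cardinal.eq.1 (hX.trans (hMM.trans hY.symm))
  have hne : Nonempty M' := by
    rw [← mk_ne_zero_iff]
    exact (hl.trans (hMM ▸ hlM).le).trans_lt' aleph0_pos |>.ne'
  obtain ⟨σ, hσ, -⟩ := hI.exists_equiv c c' hA hB hAc hBc e
  exact ⟨σ, hσ⟩

end cross

namespace Geo

variable {K : AEC L} {l b : Cardinal.{u}} {P : L.Substructure M} {Q : Set M} (C : Geo K l b P Q)

include C

/-- Two frames of `M` are conjugate. -/
theorem conj (hI : CrossIso C C (Language.Equiv.refl L P)) (hl : ℵ₀ ≤ l) (hM : l < #M)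
    (hb : #M ≤ b) {X Y : Type u} {A : Finset X → L.Substructure M}
    {B : Finset Y → L.Substructure M} (hA : FrameOf (fun S => K.le S ∧ P ≤ S) ⊤ A)
    (hB : FrameOf (fun S => K.le S ∧ P ≤ S) ⊤ B) :
    ∃ (σ : M ≃[L] M) (j : X ↪ Y), P.map σ.toHom = P ∧ ∀ s, (A s).map σ.toHom = B (s.map j) := by
  obtain ⟨c, A', hA', hPA⟩ := C.exists_of_frameIn hb hA.1
  obtain ⟨c', B', hB', hPB⟩ := C.exists_of_frameIn hb hB.1
  have hAc : ∀ a, ∃ s : Finset X, a ∈ A' (s.map c) := fun a => by
    obtain ⟨s, hs⟩ := hA.2 a (Substructure.mem_top a)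
    exact ⟨s, by rwa [hA']⟩
  have hBc : ∀ a, ∃ s : Finset Y, a ∈ B' (s.map c') := fun a => by
    obtain ⟨s, hs⟩ := hB.2 a (Substructure.mem_top a)
    exact ⟨s, by rwa [hB']⟩
  obtain ⟨e⟩ := Cardinal.eq.1 ((C.mk_index hl hM c hPA hAc).trans
    (C.mk_index hl hM c' hPB hBc).symm)
  have hne : Nonempty M := by
    rw [← mk_ne_zero_iff]
    exact (hl.trans hM.le).trans_lt' aleph0_pos |>.ne'
  obtain ⟨σ, hσ, h1⟩ := hI.exists_equiv c c' hPA hPB hAc hBc e
  refine ⟨σ, e.toEmbedding, ?_, fun s => by rw [← hA', h1 s, hB']⟩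
  have h2 := h1 ∅
  rw [Finset.map_empty, Finset.map_empty, Finset.map_empty] at h2
  have h3 : A' ∅ = P := C.bot (hPA ∅)
  have h4 : B' ∅ = P := C.bot (hPB ∅)
  rwa [h3, h4] at h2

/-- **Members with a geometry have frames.** -/
theorem isLocFramed (hI : CrossIso C C (Language.Equiv.refl L P)) (hl : ℵ₀ ≤ l) (hM : l < #M)
    (hb : #M ≤ b) (hhom : ∀ P' : L.Substructure M, K.le P' → Nonempty (P ≃[L] P') →
      ∃ σ : M ≃[L] M, P.map σ.toHom = P') : IsLocFramed K l M := by
  have hP0 := C.empty (A := fun _ => P) rfl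
  have hP : K.le P := C.le hP0
  refine ⟨P, hP, C.card hP0, hhom, ?_, ?_, ?_⟩
  · rintro S ⟨hS, hPS⟩ -
    have h1 : FrameIn (fun S => K.le S ∧ P ≤ S) S fun _ : Finset PEmpty.{u + 1} => P := by
      refine ⟨fun _ => ⟨⟨hP, le_refl P⟩, hPS⟩, fun _ _ _ _ => inf_idem _, fun s t _ i => i.elim,
        fun s V hV hVP _ => Or.inl (_root_.le_antisymm hVP hV.2)⟩
    obtain ⟨Y, j, B, hB, -⟩ := C.exists_frameOf hb hS h1
    exact ⟨Y, B, hB⟩
  · rintro S T - ⟨hT, -⟩ - hST X A hA
    exact C.exists_frameOf hb hT ⟨fun s => ⟨(hA.1 s).1, (hA.1 s).2.trans hST⟩, hA.2⟩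
  · intro X Y A B hA hB
    exact C.conj hI hl hM hb hA hB

end Geo

end Vale.Agent.P307.R2.H427
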