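import Vale.Agent.P307.R2.H427.LevTr

/-!
The levels of the size reduction of the isolating sets: a size for the sets closed under the
representatives of the orbits of the small tuples.
-/

set_option linter.unusedSectionVars false

universe u v

open FirstOrder Cardinal Set

namespace Vale.Agent.P307.R2.H427

open Vale.Agent.P307 Vale.Agent.P307.H304 Vale.Agent.P307.R2.H287 Vale.Agent.P307.R2.H1
  Vale.Agent.P307.R2.H806 Vale.Agent.P307.R2.H971 Vale.Agent.P307.R2.H804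
  Language.Structure Language.Substructure
open Vale.Agent.P307.R2.H541 Vale.Agent.P307.R2.H541.PG Vale.Agent.P307.R2.H533
  Vale.Agent.P307.R2.H718
open Vale.Agent.P307.R2.H514 (tH lt_tH')

variable {L : Language.{u, u}} {K : AEC L} {ℓ θ τ τ₀ τ₁ σ₀ : Cardinal.{u}}
  {κf α : Cardinal.{u} → Cardinal.{u}}

/-- Cardinals below a base point which are closed under small powers. -/
theorem exists_pow (hK : K.IsLS ℓ) (hτ : BasePt K ℓ κf α τ) {ρ β : Cardinal.{u}} (hρ : ρ < τ)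
    (hβ : β < τ) : ∃ lam, β ≤ lam ∧ 2 ^ ρ ≤ lam ∧ lam ^ ρ ≤ lam ∧ ℵ₀ ≤ lam ∧ lam < τ := by
  have h1 : max (max ρ β) ℓ < τ := max_lt (max_lt hρ hβ) hτ.pt.lt
  have h2 : ℵ₀ ≤ max (max ρ β) ℓ := hK.1.trans (le_max_right _ _)
  have hρ' : ρ ≤ max (max ρ β) ℓ := (le_max_left _ _).trans (le_max_left _ _)
  refine ⟨2 ^ max (max ρ β) ℓ, ?_, ?_, ?_, h2.trans (cantor _).le, hτ.pow _ h1⟩
  · exact ((le_max_right _ _).trans (le_max_left _ _)).trans (cantor _).le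
  · exact power_le_power_left two_ne_zero hρ'
  · rw [← power_mul]
    refine power_le_power_left two_ne_zero ?_
    exact (mul_le_mul' le_rfl hρ').trans (mul_eq_self h2).le

/-- **The levels** of the size reduction of the isolating sets. The function `β` bounds the number
of the orbits. -/
theorem exists_lev_tiny (hK : K.IsLS ℓ) (hunb : ∀ ν, ν < κf ν ∧ K.CategoricalIn (κf ν))
    (hst : Stab K ℓ α (H287.thr κf)) (hτ : BasePt K ℓ κf α τ) (hσ : σ₀ < τ)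
    (β : Cardinal.{u} → Cardinal.{u}) (hβ : ∀ x < τ, β x < τ) :
    ∃ μ₀ μ₁ ν μ ρ lam : Cardinal.{u}, σ₀ ≤ μ₀ ∧ ℵ₀ ≤ μ₀ ∧ tH (max ℓ σ₀) ≤ μ₀ ∧
      μ₀ ≤ μ₁ ∧ tH (max ℓ μ₀) ≤ μ₁ ∧ μ₁ ≤ ν ∧ α ν ≤ μ ∧ Lvl ℓ κf α ν μ ρ τ ∧ μ₀ < τ ∧ μ₁ < τ ∧
        ν < τ ∧ μ < τ ∧ ρ < τ ∧ H287.thr κf ρ ≤ lam ∧ β ρ ≤ lam ∧ σ₀ ≤ lam ∧ 2 ^ ρ ≤ lam ∧
          lam ^ ρ ≤ lam ∧ ℵ₀ ≤ lam ∧ ℓ ≤ lam ∧ lam < τ := by
  obtain ⟨μ₀, μ₁, ν, μ, ρ, h1, h2, h3, h4, h5, h6, h7, hl, h8, h9, h10, h11, h12⟩ :=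
    exists_lev hK hunb hst hτ hσ
  have h13 : H287.thr κf ρ < τ := hτ.pt.thr ρ h12
  obtain ⟨lam, h14, h15, h16, h17, h18⟩ := exists_pow hK hτ h12
    (max_lt (max_lt (max_lt h13 (hβ ρ h12)) hσ) hτ.pt.lt)
  refine ⟨μ₀, μ₁, ν, μ, ρ, lam, h1, h2, h3, h4, h5, h6, h7, hl, h8, h9, h10, h11, h12,
    ((le_max_left _ _).trans ((le_max_left _ _).trans (le_max_left _ _))).trans h14,
    ((le_max_right _ _).trans ((le_max_left _ _).trans (le_max_left _ _))).trans h14,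
    ((le_max_right _ _).trans (le_max_left _ _)).trans h14, h15, h16, h17,
    (le_max_right _ _).trans h14, h18⟩

end Vale.Agent.P307.R2.H427
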