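import Vale.Agent.P307.R2.H732.TmStd
import Vale.Agent.P307.R2.H718.Master
import Vale.Agent.P307.R2.H287.TopR
import Vale.Agent.P307.R2.H68.AllD

/-!
The levels of the shrinking of the isolating sets, and shrinking from the shrinking at the base
points below.
-/

set_option linter.unusedSectionVars false

universe u v

open FirstOrder Cardinal Set

namespace Vale.Agent.P307.R2.H427

open Vale.Agent.P307 Vale.Agent.P307.H304 Vale.Agent.P307.R2.H287 Vale.Agent.P307.R2.H1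
  Vale.Agent.P307.R2.H806 Vale.Agent.P307.R2.H971 Vale.Agent.P307.R2.H804
  Language.Structure Language.Substructure
open Vale.Agent.P307.R2.H541 Vale.Agent.P307.R2.H541.PG Vale.Agent.P307.R2.H533
  Vale.Agent.P307.R2.H718
open Vale.Agent.P307.R2.H514 (tH lt_tH')
open Vale.Agent.P307.R2.H68 (Clo exists_clo)

open scoped Classical

section abs

variable {C : Type u} {M : PG C} {τ : Cardinal.{u}} {X : Set C}

/-- A weak form of the shrinking of the isolating sets: the closed traces of size at most `τ` are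
isolating. -/
def TrW (M : PG C) (τ : Cardinal.{u}) (X R : Set C) : Prop :=
  ∃ φ : Finset C → Set C, (∀ s, #(φ s) ≤ τ) ∧ ∀ H, Clo φ H → #H ≤ τ →
    ∀ e ⊆ R ∩ H, #e < τ → (∃ B ⊆ X ∩ R, M.Isol B X e) → M.Isol (X ∩ H) X e

/-- Closed subsets of a closed set. -/
theorem exists_clo_sub {φ : Finset C → Set C} {H : Set C} (hH : Clo φ H) (hτ : ℵ₀ ≤ τ)
    (hφ : ∀ s, #(φ s) ≤ τ) {e : Set C} (he : e ⊆ H) (hec : #e ≤ τ) :
    ∃ H₁, Clo φ H₁ ∧ e ⊆ H₁ ∧ H₁ ⊆ H ∧ #H₁ ≤ τ := by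
  obtain ⟨H₁, h1, h2, h3⟩ := exists_clo hτ hφ e hec
  exact ⟨H₁ ∩ H, fun s hs => subset_inter (h1 s (hs.trans inter_subset_left))
    (hH s (hs.trans inter_subset_right)), subset_inter h2 he, inter_subset_right,
    (mk_le_mk_of_subset inter_subset_left).trans h3⟩

/-- **Shrinking from the levels below.** -/
theorem TrR.of_weak (hτ : ℵ₀ ≤ τ)
    (h : ∀ R ∈ M.T, (∃ B ⊆ X, #B < M.χ ∧ M.Isol B X R) →
      ∀ σ < τ, ∃ τ₁, σ < τ₁ ∧ τ₁ < τ ∧ ℵ₀ ≤ τ₁ ∧ TrW M τ₁ X R) : TrR M τ X := by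
  refine ⟨fun R hR hRi => ?_⟩
  have h1 := h R hR hRi
  choose! f hf1 hf2 hf3 hf4 using h1
  choose! φ hφ1 hφ2 using hf4
  have hlt : ∀ y : τ.ord.ToType, #(Iio y) < τ := fun y => by simpa using mk_Iio_lt y
  refine ⟨fun s => ⋃ y : τ.ord.ToType, φ #(Iio y) s, fun s => ?_, fun H hH hHc e he hec hei => ?_⟩
  · refine (mk_iUnion_le _).trans ?_
    refine (mul_le_mul' ?_ (ciSup_le' fun (y : τ.ord.ToType) => ?_)).trans (mul_eq_self hτ).le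
    · rw [mk_toType, card_ord]
    · exact (hφ1 _ (hlt y) s).trans (hf2 _ (hlt y)).le
  · have h2 : (#e).ord < Ordinal.type (α := τ.ord.ToType) (· < ·) := by
      rw [Ordinal.type_toType]
      exact ord_lt_ord.2 hec
    obtain ⟨y, hy⟩ := Ordinal.typein_surj (α := τ.ord.ToType) (· < ·) h2
    have h3 := Ordinal.card_typein (α := τ.ord.ToType) (r := (· < ·)) y
    rw [hy, card_ord] at h3
    have h4 : #(Iio y) = #e := h3.symm
    have hH' : Clo (φ #e) H := hH.mono fun s => by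
      have h5 : φ #(Iio y) s ⊆ ⋃ y : τ.ord.ToType, φ #(Iio y) s :=
        subset_iUnion (fun y : τ.ord.ToType => φ #(Iio y) s) y
      rwa [h4] at h5
    obtain ⟨H₁, h5, h6, h7, h8⟩ := exists_clo_sub hH' (hf3 _ hec) (hφ1 _ hec)
      (he.trans inter_subset_right) (hf1 _ hec).le
    refine ⟨X ∩ H₁, inter_subset_inter_right X h7,
      ((mk_le_mk_of_subset inter_subset_right).trans h8).trans_lt (hf2 _ hec), ?_⟩
    exact hφ2 _ hec H₁ h5 h8 e (subset_inter (he.trans inter_subset_left) h6) (hf1 _ hec) hei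

end abs

section

variable {L : Language.{u, u}} {K : AEC L} {ℓ θ τ τ₀ τ₁ σ₀ : Cardinal.{u}}
  {κf α : Cardinal.{u} → Cardinal.{u}}

/-- **The levels** of the shrinking of the isolating sets at a base point. -/
theorem exists_lev (hK : K.IsLS ℓ) (hunb : ∀ ν, ν < κf ν ∧ K.CategoricalIn (κf ν))
    (hst : Stab K ℓ α (H287.thr κf)) (hτ₁ : BasePt K ℓ κf α τ₁)
    (hσ : σ₀ < τ₁) : ∃ μ₀ μ₁ ν μ ρ : Cardinal.{u}, σ₀ ≤ μ₀ ∧ ℵ₀ ≤ μ₀ ∧ tH (max ℓ σ₀) ≤ μ₀ ∧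
      μ₀ ≤ μ₁ ∧ tH (max ℓ μ₀) ≤ μ₁ ∧ μ₁ ≤ ν ∧ α ν ≤ μ ∧ Lvl ℓ κf α ν μ ρ τ₁ ∧ μ₀ < τ₁ ∧ μ₁ < τ₁ ∧
        ν < τ₁ ∧ μ < τ₁ ∧ ρ < τ₁ := by
  have h1 : tH (max ℓ σ₀) < τ₁ := H541.tH_lt hτ₁ hst hσ
  have h2 : tH (max ℓ (tH (max ℓ σ₀))) < τ₁ := H541.tH_lt hτ₁ hst h1
  have h3 : ℓ ≤ tH (max ℓ σ₀) := (le_max_left _ _).trans (lt_tH' _).le
  have h4 : tH (max ℓ σ₀) ≤ tH (max ℓ (tH (max ℓ σ₀))) := (le_max_right _ _).trans (lt_tH' _).le
  obtain ⟨ν, μ, ρ, h5, h6, hl⟩ := exists_lvl hτ₁ h2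
  have h7 : ρ < τ₁ := hl.lt
  refine ⟨tH (max ℓ σ₀), tH (max ℓ (tH (max ℓ σ₀))), ν, μ, ρ, (le_max_right _ _).trans
    (lt_tH' _).le, hK.1.trans h3, le_rfl, h4, le_rfl, h5, h6, hl, h1, h2, ?_, ?_, h7⟩
  · exact hl.νμ.trans_lt (hl.μΛ hunb)
  · exact hl.μΛ hunb

/-- The base points below, above a given level. -/
theorem exists_rk_lt {r : ℕ} (hτ : Rk K ℓ κf α (r + 1) τ) (h₀ : τ₀ < τ) (h₁ : σ₀ < τ) :
    ∃ τ₁, τ₀ < τ₁ ∧ σ₀ < τ₁ ∧ τ₁ < τ ∧ Rk K ℓ κf α r τ₁ := by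
  obtain ⟨τ₁, h2, h3, h4⟩ := hτ.exists_btw (max_lt h₀ h₁)
  exact ⟨τ₁, (le_max_left _ _).trans_lt h2, (le_max_right _ _).trans_lt h2, h3, h4⟩

end

end Vale.Agent.P307.R2.H427
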