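import Vale.Agent.P307.R2.H427.ChartB

/-!
The index sets of the standard families contain the least upper bounds of their subsets.
-/

set_option linter.unusedSectionVars false

universe u v

open FirstOrder Cardinal Set

namespace Vale.Agent.P307.R2.H427

open Vale.Agent.P307 Vale.Agent.P307.H304 Vale.Agent.P307.R2.H287 Vale.Agent.P307.R2.H1
  Vale.Agent.P307.R2.H806 Vale.Agent.P307.R2.H971 Vale.Agent.P307.R2.H541
  Language.Structure Language.Substructure

variable {ι : Type v} {L : Language.{u, u}} {K : AEC L} {ℓ θ σ : Cardinal.{u}} {B : Type u}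
  [LinearOrder B] {C : Type u} [L.Structure C]

namespace ChartB

variable {c : ChartB ι K ℓ θ B C} {b b' : Finset ι → SuccTy θ} {v w : Finset ι}

variable (c) in
/-- The marks of the standard families. -/
def Mk (b : Finset ι → SuccTy θ) : Set (Reg θ c.m) :=
  range (fun i : Fin c.m => rp i 2 c.a₀) ∪ range (fun i : Fin c.m => rp i 0 (c.bd b (c.r i)))

theorem finite_Mk (b : Finset ι → SuccTy θ) : (c.Mk b).Finite :=
  (finite_range _).union (finite_range _)

/-- The index sets of the standard families are unions of intervals ending in marks. -/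
theorem exists_mark {x : Reg θ c.m} (hx : x ∈ c.Sx b v) :
    ∃ y ∈ c.Mk b, x ≤ y ∧ Icc x y ⊆ c.Sx b v := by
  rcases hx with ⟨i, rfl⟩ | ⟨i, h1, y, h2, rfl⟩
  · refine ⟨_, Or.inl ⟨i, rfl⟩, le_rfl, ?_⟩
    rintro p ⟨hp, hp'⟩
    have h3 : p = rp i 2 c.a₀ := le_antisymm hp' hp
    rw [h3]
    exact ChartB.top_mem i
  · refine ⟨_, Or.inr ⟨i, rfl⟩, rp_le.2 (Or.inr ⟨rfl, Or.inr ⟨rfl, h2⟩⟩), ?_⟩
    rintro p ⟨hp, hp'⟩
    obtain ⟨j, k, z, rfl⟩ := rp_surj p
    have h3 : j = i := by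
      rcases rp_le.1 hp with h4 | ⟨h4, -⟩
      · rcases rp_le.1 hp' with h5 | ⟨h5, -⟩
        · exact absurd (h4.trans h5) (lt_irrefl _)
        · exact h5
      · exact h4.symm
    subst h3
    rcases rp_le.1 hp with h4 | ⟨-, h4⟩
    · exact absurd h4 (lt_irrefl _)
    rcases rp_le.1 hp' with h5 | ⟨-, h5⟩
    · exact absurd h5 (lt_irrefl _)
    rcases h5 with h5 | ⟨rfl, h5⟩
    · exact absurd h5 (Fin.not_lt_zero k)
    exact ChartB.reg_mem.2 ⟨h1, h5⟩

/-- The index sets of the standard families contain the least upper bounds of their subsets. -/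
theorem lub_mem {A : Set (Reg θ c.m)} (hA : A.Nonempty) (hAS : A ⊆ c.Sx b v) {s : Reg θ c.m}
    (hs : IsLUB A s) : s ∈ c.Sx b v := by
  classical
  by_contra hn
  have h1 : ∀ x ∈ A, ∃ y ∈ c.Mk b, x ≤ y ∧ y < s := by
    intro x hx
    obtain ⟨y, hy, hxy, h2⟩ := exists_mark (hAS hx)
    refine ⟨y, hy, hxy, ?_⟩
    by_contra h3
    exact hn (h2 ⟨hs.1 hx, not_lt.1 h3⟩)
  let Y : Set (Reg θ c.m) := {y | y ∈ c.Mk b ∧ y < s}
  have hY : Y.Finite := (finite_Mk b).subset fun y hy => hy.1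
  have hY0 : Y.Nonempty := by
    obtain ⟨x, hx⟩ := hA
    obtain ⟨y, hy, -, hys⟩ := h1 x hx
    exact ⟨y, hy, hys⟩
  obtain ⟨y, hy, hymax⟩ := hY.exists_maximal hY0
  have h3 : ∀ x ∈ A, x ≤ y := by
    intro x hx
    obtain ⟨z, hz, hxz, hzs⟩ := h1 x hx
    rcases le_total z y with h | h
    · exact hxz.trans h
    · exact hxz.trans (hymax ⟨hz, hzs⟩ h)
  exact absurd (hs.2 h3) (not_le.2 hy.2)

end ChartB

end Vale.Agent.P307.R2.H427
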