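import Vale.Agent.P307.R2.H427.Frame3

/-!
Transport of a geometry of small strong substructures of a homogeneous member to the other members.
-/

universe u

open FirstOrder Cardinal Set Function Language

namespace Vale.Agent.P307.R2.H427

open scoped Classical

variable {L : Language.{u, u}} {K : AEC L} {l : Cardinal.{u}}

/-- Small strong substructures inside a strong substructure. -/
theorem exists_small_le {M : Type u} [L.Structure M] (hLS : K.IsLS l) {N : L.Substructure M}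
    (hN : K.le N) (A : Set M) (hA : A ⊆ N) (hAl : #A ≤ l) :
    ∃ S : L.Substructure M, S ≤ N ∧ K.le S ∧ A ⊆ S ∧ #S ≤ l := by
  obtain ⟨S, h1, h2, h3⟩ := hLS.2.2 N (K.mem_of_le N hN).1 (Subtype.val ⁻¹' A : Set N)
  refine ⟨S.map N.subtype.toHom, ?_, K.le_trans N S h1 hN, ?_, ?_⟩
  · rintro x ⟨y, -, rfl⟩
    exact y.2
  · intro x hx
    exact ⟨⟨x, hA hx⟩, h2 hx, rfl⟩
  · have h4 : #(S.map N.subtype.toHom) ≤ #S := by
      refine mk_le_of_surjective (f := fun y : S =>
        (⟨y.1.1, ⟨y.1, y.2, rfl⟩⟩ : (S.map N.subtype.toHom))) ?_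
      rintro ⟨x, ⟨y, hy, rfl⟩⟩
      exact ⟨⟨y, hy⟩, rfl⟩
    refine h4.trans (h3.trans (add_le_of_le hLS.1 ?_ le_rfl))
    exact (mk_preimage_of_injective _ A Subtype.val_injective).trans hAl

/-- A member in which the strong substructures with `l` elements behave well. -/
structure Mon (K : AEC L) (l : Cardinal.{u}) (CC : Type u) [L.Structure CC] : Prop where
  mem : K.mem CC
  hom : ∀ N N' : L.Substructure CC, K.le N → K.le N' → #N = l → ∀ φ : N ≃[L] N',
    ∃ σ : CC ≃[L] CC, ∀ a : N, σ a = φ a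
  univ : ∀ (M : Type u) [L.Structure M], K.mem M → #M = l → ∃ f : M ↪[L] CC, K.Emb f

section

variable {CC M : Type u} [L.Structure CC] [L.Structure M] {P : L.Substructure CC}
  {R : L.Substructure M}

/-- Strong embeddings in `CC` of small strong substructures of `M`, over an isomorphism of `R` and
`P`. -/
structure GE (K : AEC L) (l : Cardinal.{u}) (φ : R ≃[L] P) where
  N : L.Substructure M
  le : K.le N
  card : #N ≤ l
  RN : R ≤ N
  ψ : N ↪[L] CC
  emb : K.Emb ψ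
  ext : ∀ a : R, ψ ⟨a, RN a.2⟩ = φ a

namespace GE

variable [Nonempty CC] {φ : R ≃[L] P} (g : GE K l φ)

/-- The embedding as a function on `M`. -/
noncomputable def fn : M → CC := fun a => if h : a ∈ g.N then g.ψ ⟨a, h⟩ else
  Classical.arbitrary CC

theorem fn_mk {a : M} (h : a ∈ g.N) : g.fn a = g.ψ ⟨a, h⟩ := dif_pos h

theorem fn_inj {a b : M} (ha : a ∈ g.N) (hb : b ∈ g.N) (h : g.fn a = g.fn b) : a = b := by
  rw [g.fn_mk ha, g.fn_mk hb] at h
  exact congrArg Subtype.val (g.ψ.injective h)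

theorem fn_R {a : M} (ha : a ∈ R) : g.fn a = φ ⟨a, ha⟩ := by
  rw [g.fn_mk (g.RN ha)]
  exact g.ext ⟨a, ha⟩

/-- The image of the part of `S` in the domain. -/
def push (S : L.Substructure M) : L.Substructure CC :=
  (S.comap g.N.subtype.toHom).map g.ψ.toHom

theorem mem_push {S : L.Substructure M} {b : CC} :
    b ∈ g.push S ↔ ∃ a, a ∈ g.N ∧ a ∈ S ∧ g.fn a = b := by
  constructor
  · rintro ⟨a, ha, rfl⟩
    exact ⟨a.1, a.2, ha, g.fn_mk a.2⟩
  · rintro ⟨a, ha, haS, rfl⟩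
    exact ⟨⟨a, ha⟩, haS, (g.fn_mk ha).symm⟩

theorem fn_mem_push {S : L.Substructure M} {a : M} (ha : a ∈ g.N) :
    g.fn a ∈ g.push S ↔ a ∈ S := by
  rw [g.mem_push]
  constructor
  · rintro ⟨b, hb, hbS, h⟩
    rwa [← g.fn_inj hb ha h]
  · intro h
    exact ⟨a, ha, h, rfl⟩

/-- The inverse image. -/
def pull (T : L.Substructure CC) : L.Substructure M :=
  (T.comap g.ψ.toHom).map g.N.subtype.toHom

theorem mem_pull {T : L.Substructure CC} {a : M} : a ∈ g.pull T ↔ a ∈ g.N ∧ g.fn a ∈ T := by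
  constructor
  · rintro ⟨b, hb, rfl⟩
    refine ⟨b.2, ?_⟩
    change g.fn b ∈ T
    rw [g.fn_mk b.2]
    exact hb
  · rintro ⟨h1, h2⟩
    refine ⟨⟨a, h1⟩, ?_, rfl⟩
    rw [g.fn_mk h1] at h2
    exact h2

theorem pull_le (T : L.Substructure CC) : g.pull T ≤ g.N := fun _ ha => (g.mem_pull.1 ha).1

theorem pull_push {S : L.Substructure M} (hS : S ≤ g.N) : g.pull (g.push S) = S := by
  ext a
  rw [g.mem_pull]
  constructor
  · rintro ⟨h1, h2⟩
    exact (g.fn_mem_push h1).1 h2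
  · intro h
    exact ⟨hS h, (g.fn_mem_push (hS h)).2 h⟩

theorem push_pull {T : L.Substructure CC} (hT : T ≤ g.push g.N) : g.push (g.pull T) = T := by
  ext b
  rw [g.mem_push]
  constructor
  · rintro ⟨a, -, ha, rfl⟩
    exact (g.mem_pull.1 ha).2
  · intro hb
    obtain ⟨a, ha, -, rfl⟩ := g.mem_push.1 (hT hb)
    exact ⟨a, ha, g.mem_pull.2 ⟨ha, hb⟩, rfl⟩

theorem push_mono {S S' : L.Substructure M} (h : S ≤ S') : g.push S ≤ g.push S' := by
  intro b hb
  obtain ⟨a, ha, haS, rfl⟩ := g.mem_push.1 hb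
  exact g.mem_push.2 ⟨a, ha, h haS, rfl⟩

theorem push_inf (S S' : L.Substructure M) : g.push (S ⊓ S') = g.push S ⊓ g.push S' := by
  ext b
  rw [Substructure.mem_inf, g.mem_push]
  constructor
  · rintro ⟨a, ha, haS, rfl⟩
    exact ⟨(g.fn_mem_push ha).2 haS.1, (g.fn_mem_push ha).2 haS.2⟩
  · rintro ⟨h1, h2⟩
    obtain ⟨a, ha, haS, rfl⟩ := g.mem_push.1 h1
    exact ⟨a, ha, ⟨haS, (g.fn_mem_push ha).1 h2⟩, rfl⟩

theorem push_R : g.push R = P := by
  ext b
  rw [g.mem_push]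
  constructor
  · rintro ⟨a, -, haR, rfl⟩
    rw [g.fn_R haR]
    exact (φ ⟨a, haR⟩).2
  · intro hb
    refine ⟨φ.symm ⟨b, hb⟩, g.RN (φ.symm ⟨b, hb⟩).2, (φ.symm ⟨b, hb⟩).2, ?_⟩
    rw [g.fn_R (φ.symm ⟨b, hb⟩).2]
    exact congrArg Subtype.val (φ.apply_symm_apply ⟨b, hb⟩)

theorem push_eq_range {S : L.Substructure M} (hS : S ≤ g.N) :
    g.push S = (g.ψ.comp (Substructure.inclusion hS)).toHom.range := by
  ext b
  rw [g.mem_push]
  constructor
  · rintro ⟨a, ha, haS, rfl⟩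
    exact ⟨⟨a, haS⟩, (g.fn_mk ha).symm⟩
  · rintro ⟨a, rfl⟩
    exact ⟨a, hS a.2, a.2, g.fn_mk _⟩

theorem le_push {S : L.Substructure M} (hS : S ≤ g.N) : K.le (g.push S) ↔ K.le S := by
  rw [g.push_eq_range hS]
  have h1 : K.le S ↔ K.Emb (Substructure.inclusion hS) := by
    rw [← AEC.emb_subtype]
    have h2 : S.subtype = g.N.subtype.comp (Substructure.inclusion hS) := rfl
    rw [h2]
    exact ⟨fun h => AEC.Emb.of_comp (AEC.emb_subtype.2 g.le) h,
      fun h => AEC.Emb.comp (AEC.emb_subtype.2 g.le) h⟩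
  rw [h1]
  exact ⟨fun h => AEC.Emb.of_comp g.emb h, fun h => AEC.Emb.comp g.emb h⟩

theorem card_push {S : L.Substructure M} (hS : S ≤ g.N) : #(g.push S) = #S := by
  have h1 : (g.push S : Set CC) = g.fn '' S := by
    ext b
    rw [SetLike.mem_coe, g.mem_push]
    constructor
    · rintro ⟨a, -, haS, rfl⟩
      exact ⟨a, haS, rfl⟩
    · rintro ⟨a, haS, rfl⟩
      exact ⟨a, hS haS, haS, rfl⟩
  have h2 : #(g.push S : Set CC) = #(S : Set M) := by
    rw [h1]
    exact mk_image_eq_of_injOn _ _ fun a ha b hb h => g.fn_inj (hS ha) (hS hb) h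
  exact h2

/-- The restriction of the embedding is an isomorphism. -/
theorem isoOn {S : L.Substructure M} (hS : S ≤ g.N) : IsoOn g.fn S (g.push S) := by
  rw [g.push_eq_range hS]
  refine ⟨(g.ψ.comp (Substructure.inclusion hS)).equivRange, fun a => ?_⟩
  rw [Embedding.equivRange_apply, g.fn_mk (hS a.2)]
  rfl

end GE

end

end Vale.Agent.P307.R2.H427
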