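import Vale.Agent.P307.R2.H427.Mon1

/-!
Transport of a geometry of small strong substructures of a homogeneous member to the other members:
comparison of embeddings.
-/

universe u

open FirstOrder Cardinal Set Function Language

namespace Vale.Agent.P307.R2.H427

open scoped Classical

variable {L : Language.{u, u}} {K : AEC L} {l : Cardinal.{u}} {CC M : Type u} [L.Structure CC]
  [L.Structure M] {P : L.Substructure CC} {R : L.Substructure M}

theorem card_eq_of_iso (φ : R ≃[L] P) : #R = #P := Cardinal.mk_congr φ.toEquiv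

namespace GE

variable {φ : R ≃[L] P}

/-- A strong embedding of `N₀` extends to every larger small `N`. -/
theorem exists_ext_aux (hmon : Mon K l CC) (hRl : l ≤ #R) {N₀ N : L.Substructure M}
    (hN₀ : K.le N₀) (hN : K.le N) (hNl : #N ≤ l) (h0 : N₀ ≤ N) (hR : R ≤ N₀) (ψ : N₀ ↪[L] CC)
    (hψ : K.Emb ψ) : ∃ ψ' : N ↪[L] CC, K.Emb ψ' ∧ ∀ a : N₀, ψ' ⟨a, h0 a.2⟩ = ψ a := by
  have hl1 : #N = l := _root_.le_antisymm hNl (hRl.trans (mk_le_mk_of_subset (hR.trans h0)))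
  have hl0 : #N₀ = l := _root_.le_antisymm ((mk_le_mk_of_subset h0).trans hNl)
    (hRl.trans (mk_le_mk_of_subset hR))
  obtain ⟨f, hf⟩ := hmon.univ N (K.mem_of_le N hN).1 hl1
  let j : N₀ ↪[L] N := Substructure.inclusion h0
  have hj : K.Emb j := by
    refine AEC.Emb.of_comp (g := N.subtype) (AEC.emb_subtype.2 hN) ?_
    exact AEC.emb_subtype.2 hN₀
  have hfj : K.Emb (f.comp j) := AEC.Emb.comp hf hj
  obtain ⟨σ, hσ⟩ := hmon.hom (f.comp j).toHom.range ψ.toHom.range hfj hψ (by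
    rw [← hl0]
    exact (Cardinal.mk_congr (f.comp j).equivRange.toEquiv).symm)
    (ψ.equivRange.comp (f.comp j).equivRange.symm)
  refine ⟨σ.toEmbedding.comp f, AEC.Emb.comp (AEC.Emb.of_equiv σ hmon.mem) hf, fun a => ?_⟩
  have h1 := hσ ((f.comp j).equivRange a)
  rw [Embedding.equivRange_apply] at h1
  change σ (f (j a)) = _
  refine h1.trans ?_
  change (ψ.equivRange ((f.comp j).equivRange.symm ((f.comp j).equivRange a)) : CC) = _
  rw [Language.Equiv.symm_apply_apply, Embedding.equivRange_apply]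

variable [Nonempty CC]

/-- Good embeddings extend. -/
theorem exists_ext (hmon : Mon K l CC) (hPl : #P = l) (g : GE K l φ) {N : L.Substructure M}
    (hN : K.le N) (hNl : #N ≤ l) (h : g.N ≤ N) :
    ∃ g' : GE K l φ, g'.N = N ∧ ∀ a, a ∈ g.N → g'.fn a = g.fn a := by
  obtain ⟨ψ, hψ, h1⟩ := exists_ext_aux hmon
    (by rw [Cardinal.mk_congr φ.toEquiv, hPl] : l ≤ #R) g.le hN hNl h g.RN g.ψ g.emb
  let g' : GE K l φ := ⟨N, hN, hNl, g.RN.trans h, ψ, hψ, fun a => by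
    rw [← g.ext a]
    exact h1 ⟨a, g.RN a.2⟩⟩
  refine ⟨g', rfl, fun a ha => ?_⟩
  rw [g.fn_mk ha, g'.fn_mk (h ha)]
  exact h1 ⟨a, ha⟩

/-- Good embeddings exist. -/
theorem exists_GE (hmon : Mon K l CC) (hPl : #P = l) (hP : K.le P) (hR : K.le R)
    {N : L.Substructure M} (hN : K.le N) (hNl : #N ≤ l) (h : R ≤ N) :
    ∃ g : GE K l φ, g.N = N := by
  have hRl : #R ≤ l := by
    rw [Cardinal.mk_congr φ.toEquiv, hPl]
  let g₀ : GE K l φ := ⟨R, hR, hRl, _root_.le_refl R, P.subtype.comp φ.toEmbedding,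
    AEC.Emb.comp (AEC.emb_subtype.2 hP) (AEC.Emb.of_equiv φ (K.mem_of_le R hR).1), fun a => rfl⟩
  obtain ⟨g, h1, -⟩ := exists_ext hmon hPl g₀ hN hNl h
  exact ⟨g, h1⟩

/-- Two good embeddings differ by an automorphism over `P`. -/
theorem compare (hLS : K.IsLS l) (hmon : Mon K l CC) (hPl : #P = l) (g g' : GE K l φ) :
    ∃ σ : CC ≃[L] CC, (∀ a, a ∈ P → σ a = a) ∧
      ∀ a, a ∈ g.N → a ∈ g'.N → g'.fn a = σ (g.fn a) := by
  have hM : K.mem M := (K.mem_of_le _ g.le).2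
  obtain ⟨N, -, hN, hgN, hNl⟩ := exists_small_le hLS (K.le_refl hM)
    ((g.N : Set M) ∪ (g'.N : Set M)) (fun a _ => Substructure.mem_top a)
    ((mk_union_le _ _).trans (add_le_of_le hLS.1 g.card g'.card))
  obtain ⟨g₁, h1, h1'⟩ := exists_ext hmon hPl g hN hNl (fun a ha => hgN (Or.inl ha))
  obtain ⟨g₂, h2, h2'⟩ := exists_ext hmon hPl g' hN hNl (fun a ha => hgN (Or.inr ha))
  have hRl : l ≤ #R := by
    rw [Cardinal.mk_congr φ.toEquiv, hPl]
  have hl1 : #N = l := _root_.le_antisymm hNl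
    (hRl.trans (mk_le_mk_of_subset (g.RN.trans fun a ha => hgN (Or.inl ha))))
  obtain ⟨φ₁, hφ₁⟩ := g₁.isoOn (S := N) (by rw [h1])
  obtain ⟨φ₂, hφ₂⟩ := g₂.isoOn (S := N) (by rw [h2])
  obtain ⟨σ, hσ⟩ := hmon.hom (g₁.push N) (g₂.push N) ((g₁.le_push (by rw [h1])).2 hN)
    ((g₂.le_push (by rw [h2])).2 hN) ((g₁.card_push (by rw [h1])).trans hl1)
    (φ₂.comp φ₁.symm)
  have key : ∀ a, a ∈ N → g₂.fn a = σ (g₁.fn a) := by
    intro a ha
    have h3 := hσ (φ₁ ⟨a, ha⟩)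
    rw [hφ₁ ⟨a, ha⟩] at h3
    rw [h3]
    change _ = ((φ₂ (φ₁.symm (φ₁ ⟨a, ha⟩)) : g₂.push N) : CC)
    rw [Language.Equiv.symm_apply_apply, hφ₂]
  refine ⟨σ, fun a ha => ?_, fun a ha ha' => ?_⟩
  · have h3 : ((φ.symm ⟨a, ha⟩ : R) : M) ∈ R := (φ.symm ⟨a, ha⟩).2
    have h4 := key (φ.symm ⟨a, ha⟩ : R) (hgN (Or.inl (g.RN h3)))
    rw [g₁.fn_R h3, g₂.fn_R h3] at h4
    have h5 : φ ⟨((φ.symm ⟨a, ha⟩ : R) : M), h3⟩ = ⟨a, ha⟩ := φ.apply_symm_apply ⟨a, ha⟩
    rw [h5] at h4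
    exact h4.symm
  · rw [← h1' a ha, ← h2' a ha']
    exact key a (hgN (Or.inl ha))

end GE

/-! ### The transported predicates -/

variable [Nonempty CC] {Q : Set CC}

/-- The geometry is invariant under the automorphisms of `CC` over `P`. -/
def Geo.Inv (C : Geo K l l P Q) : Prop :=
  ∀ σ : CC ≃[L] CC, (∀ a, a ∈ P → σ a = a) → (∀ x, x ∈ Q → σ x ∈ Q) ∧
    ∀ (A B : Finset CC → L.Substructure CC) (s : Finset CC), C.PS A s →
      (∀ t, t ⊆ s → B (t.image σ) = (A t).map σ.toHom) → C.PS B (s.image σ)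

/-- The points. -/
def QM (K : AEC L) (l : Cardinal.{u}) (φ : R ≃[L] P) (Q : Set CC) : Set M :=
  {x | ∃ g : GE K l φ, x ∈ g.N ∧ g.fn x ∈ Q}

/-- The systems. -/
def PSM (C : Geo K l l P Q) (φ : R ≃[L] P) (A : Finset M → L.Substructure M) (s : Finset M) :
    Prop :=
  ∃ (g : GE K l φ) (B : Finset CC → L.Substructure CC), C.PS B (s.image g.fn) ∧
    (∀ t, t ⊆ s → A t ≤ g.N ∧ B (t.image g.fn) = g.push (A t)) ∧ ∀ x, x ∈ s → x ∈ g.N

/-- The function on the finite subsets of `CC` given by a function on the finite subsets of `M`. -/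
noncomputable def GE.tr {φ : R ≃[L] P} (g : GE K l φ) (A : Finset M → L.Substructure M)
    (s : Finset M) : Finset CC → L.Substructure CC :=
  fun u => g.push (A (s.filter fun x => g.fn x ∈ u))

theorem GE.tr_image {φ : R ≃[L] P} (g : GE K l φ) (A : Finset M → L.Substructure M)
    {s t : Finset M} (hs : ∀ x, x ∈ s → x ∈ g.N) (ht : t ⊆ s) :
    g.tr A s (t.image g.fn) = g.push (A t) := by
  unfold GE.tr
  congr 2
  ext x
  rw [Finset.mem_filter, Finset.mem_image]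
  constructor
  · rintro ⟨hx, y, hy, hyx⟩
    rwa [← g.fn_inj (hs y (ht hy)) (hs x hx) hyx]
  · intro hx
    exact ⟨ht hx, x, hx, rfl⟩

section

variable {C : Geo K l l P Q} {φ : R ≃[L] P} (hLS : K.IsLS l) (hmon : Mon K l CC) (hPl : #P = l)
  (hinv : C.Inv)

include hLS hmon hPl hinv

theorem mem_QM (g : GE K l φ) {x : M} (hx : x ∈ g.N) : x ∈ QM K l φ Q ↔ g.fn x ∈ Q := by
  constructor
  · rintro ⟨g', hx', h⟩
    obtain ⟨σ, h1, h2⟩ := g'.compare hLS hmon hPl g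
    rw [h2 x hx' hx]
    exact (hinv σ h1).1 _ h
  · intro h
    exact ⟨g, hx, h⟩

theorem psM_iff (g : GE K l φ) {A : Finset M → L.Substructure M} {s : Finset M}
    (hs : ∀ x, x ∈ s → x ∈ g.N) (hA : ∀ t, t ⊆ s → A t ≤ g.N)
    {D : Finset CC → L.Substructure CC} (hD : ∀ t, t ⊆ s → D (t.image g.fn) = g.push (A t)) :
    PSM C φ A s ↔ C.PS D (s.image g.fn) := by
  constructor
  · rintro ⟨g', B, hB, hAB, hs'⟩
    obtain ⟨σ, h1, h2⟩ := g'.compare hLS hmon hPl g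
    have h3 : ∀ t, t ⊆ s → (t.image g'.fn).image σ = t.image g.fn := by
      intro t ht
      rw [Finset.image_image]
      refine Finset.image_congr fun x hx => ?_
      exact (h2 x (hs' x (ht hx)) (hs x (ht hx))).symm
    rw [← h3 s (Finset.Subset.refl s)]
    refine (hinv σ h1).2 B D _ hB fun t ht => ?_
    obtain ⟨r, hr, rfl⟩ := Finset.subset_image_iff.1 ht
    rw [h3 r hr, hD r hr, (hAB r hr).2]
    ext b
    rw [Substructure.mem_map, g.mem_push]
    constructor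
    · rintro ⟨a, ha, haA, rfl⟩
      exact ⟨g'.fn a, g'.mem_push.2 ⟨a, (hAB r hr).1 haA, haA, rfl⟩,
        (h2 a ((hAB r hr).1 haA) ha).symm⟩
    · rintro ⟨c, hc, rfl⟩
      obtain ⟨a, ha, haA, rfl⟩ := g'.mem_push.1 hc
      exact ⟨a, hA r hr haA, haA, h2 a ha (hA r hr haA)⟩
  · intro h
    exact ⟨g, D, h, fun t ht => ⟨hA t ht, hD t ht⟩, hs⟩

end

end Vale.Agent.P307.R2.H427
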