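import Vale.Agent.P307.R2.H427.Mon2

/-!
Transport of a geometry of small strong substructures of a homogeneous member to the other members:
the axioms.
-/

universe u

open FirstOrder Cardinal Set Function Language

namespace Vale.Agent.P307.R2.H427

open scoped Classical

variable {L : Language.{u, u}} {K : AEC L} {l : Cardinal.{u}}

/-- Small pairs inside a pair of strong substructures. -/
theorem exists_small_pair {M : Type u} [L.Structure M] (hLS : K.IsLS l)
    {N N' : L.Substructure M} (hN : K.le N) (hN' : K.le N') (h : N ≤ N') (A : Set M)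
    (hA : A ⊆ N') (hAl : #A ≤ l) :
    ∃ S' : L.Substructure M, S' ≤ N' ∧ K.le S' ∧ K.le (N ⊓ S') ∧ A ⊆ S' ∧ #S' ≤ l := by
  obtain ⟨H, h1, h2, h3, h4⟩ := AEC.exists_hull' hLS (K.mem_of_le N hN).1
  let r : Finset N' → Finset N := fun F => (F.image Subtype.val).subtype (· ∈ N)
  let c : Finset N' → Set N' := fun F => {y | ∃ z : N, z ∈ H (r F) ∧ (z : M) = y}
  have hc : ∀ F, #(c F) ≤ l := by
    intro F
    refine _root_.le_trans ?_ (h4 (r F))
    refine mk_le_of_surjective (f := fun z : H (r F) => (⟨⟨z.1, h z.1.2⟩, z.1, z.2, rfl⟩ : c F)) ?_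
    rintro ⟨y, z, hz, h5⟩
    exact ⟨⟨z, hz⟩, Subtype.ext (Subtype.ext h5)⟩
  obtain ⟨S₀, g1, g2, g3, g4⟩ := AEC.exists_closed_le hLS (K.mem_of_le N' hN').1 c hc
    (Subtype.val ⁻¹' A : Set N') ((mk_preimage_of_injective _ A Subtype.val_injective).trans hAl)
  let S' : L.Substructure M := S₀.map N'.subtype.toHom
  have hS' : ∀ x (hx : x ∈ N'), x ∈ S' ↔ (⟨x, hx⟩ : N') ∈ S₀ := by
    intro x hx
    constructor
    · rintro ⟨y, hy, rfl⟩
      exact hy
    · intro h
      exact ⟨⟨x, hx⟩, h, rfl⟩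
  refine ⟨S', ?_, K.le_trans N' S₀ g1 hN', ?_, fun x hx => ⟨⟨x, hA hx⟩, g2 hx, rfl⟩, ?_⟩
  · rintro x ⟨y, -, rfl⟩
    exact y.2
  · obtain ⟨T, hT, hT2⟩ := AEC.le_of_hull_closed h1 h2 h3 {z : N | (z : M) ∈ S'} (by
      intro a ha z hz
      let F : Finset N' := a.image fun y : N => (⟨y, h y.2⟩ : N')
      have hF : (F : Set N') ⊆ S₀ := by
        intro y hy
        rw [Finset.mem_coe, Finset.mem_image] at hy
        obtain ⟨w, hw, rfl⟩ := hy
        exact (hS' w (h w.2)).1 (ha hw)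
      have hr : r F = a := by
        ext w
        rw [Finset.mem_subtype, Finset.mem_image]
        constructor
        · rintro ⟨y, hy, hyw⟩
          obtain ⟨v, hv, rfl⟩ := Finset.mem_image.1 hy
          have : v = w := Subtype.ext hyw
          rwa [← this]
        · intro hw
          exact ⟨⟨w, h w.2⟩, Finset.mem_image_of_mem _ hw, rfl⟩
      have h5 : (⟨z, h z.2⟩ : N') ∈ c F := ⟨z, by rw [hr]; exact hz, rfl⟩
      exact (hS' z (h z.2)).2 (g4 F hF h5))
    have h6 : N ⊓ S' = T.map N.subtype.toHom := by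
      ext x
      rw [Substructure.mem_inf]
      constructor
      · rintro ⟨hx, hx'⟩
        refine ⟨⟨x, hx⟩, ?_, rfl⟩
        rw [hT2]
        exact hx'
      · rintro ⟨y, hy, rfl⟩
        rw [hT2] at hy
        exact ⟨y.2, hy⟩
    rw [h6]
    exact K.le_trans N T hT hN
  · have h4 : #S' ≤ #S₀ := by
      refine mk_le_of_surjective (f := fun y : S₀ => (⟨y.1.1, ⟨y.1, y.2, rfl⟩⟩ : S')) ?_
      rintro ⟨x, ⟨y, hy, rfl⟩⟩
      exact ⟨⟨y, hy⟩, rfl⟩
    exact h4.trans g3

variable {CC M : Type u} [L.Structure CC] [L.Structure M] {P : L.Substructure CC}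
  {R : L.Substructure M} [Nonempty CC] {Q : Set CC} {C : Geo K l l P Q} {φ : R ≃[L] P}

section

omit [Nonempty CC] in
theorem GE.card_R (hPl : #P = l) (φ : R ≃[L] P) : #R = l := by
  rw [Cardinal.mk_congr φ.toEquiv, hPl]

/-- Good embeddings are defined on given small sets. -/
theorem GE.exists_of_set (hLS : K.IsLS l) (hmon : Mon K l CC) (hPl : #P = l) (hP : K.le P)
    (hR : K.le R) (φ : R ≃[L] P) (X : Set M) (hX : #X ≤ l) : ∃ g : GE K l φ, X ⊆ g.N := by
  have hM : K.mem M := (K.mem_of_le _ hR).2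
  obtain ⟨N, -, hN, hgN, hNl⟩ := exists_small_le hLS (K.le_refl hM)
    ((R : Set M) ∪ X) (fun a _ => Substructure.mem_top a)
    ((mk_union_le _ _).trans (add_le_of_le hLS.1 (GE.card_R hPl φ).le hX))
  obtain ⟨g, rfl⟩ := GE.exists_GE (φ := φ) hmon hPl hP hR hN hNl fun a ha => hgN (Or.inl ha)
  exact ⟨g, fun a ha => hgN (Or.inr ha)⟩

/-- The first properties of the transported systems. -/
theorem psM_basic {A : Finset M → L.Substructure M} {s : Finset M} (h : PSM C φ A s) :
    K.le (A s) ∧ #(A s) ≤ l ∧ A ∅ = R ∧ (∀ t, t ⊆ s → A t ≤ A s) ∧ (∀ x, x ∈ s → x ∈ A s) ∧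
      (∀ t, t ⊆ s → ∀ t', t' ⊆ s → A t ⊓ A t' = A (t ∩ t')) := by
  obtain ⟨g, B, h1, h2, h3⟩ := h
  have hs : B (s.image g.fn) = g.push (A s) := (h2 s (Finset.Subset.refl s)).2
  have hinj : ∀ t, t ⊆ s → ∀ t', t' ⊆ s → g.push (A t) ≤ g.push (A t') → A t ≤ A t' := by
    intro t ht t' ht' h a ha
    exact (g.fn_mem_push ((h2 t ht).1 ha)).1 (h ((g.fn_mem_push ((h2 t ht).1 ha)).2 ha))
  refine ⟨?_, ?_, ?_, fun t ht => ?_, fun x hx => ?_, fun t ht t' ht' => ?_⟩
  · have h4 := C.le h1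
    rw [hs] at h4
    exact (g.le_push (h2 s (Finset.Subset.refl s)).1).1 h4
  · have h4 := C.card h1
    rw [hs] at h4
    rwa [g.card_push (h2 s (Finset.Subset.refl s)).1] at h4
  · have h4 := C.bot h1
    have h5 := (h2 ∅ (Finset.empty_subset s)).2
    rw [Finset.image_empty, h4] at h5
    have h6 : g.push (A ∅) = g.push R := h5.symm.trans g.push_R.symm
    rw [← g.pull_push (h2 ∅ (Finset.empty_subset s)).1, h6, g.pull_push g.RN]
  · refine hinj t ht s (Finset.Subset.refl s) ?_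
    rw [← (h2 t ht).2, ← hs]
    exact C.sub h1 (Finset.image_subset_image ht)
  · have h4 := C.mem h1 (g.fn x) (Finset.mem_image_of_mem _ hx)
    rw [hs] at h4
    exact (g.fn_mem_push (h3 x hx)).1 h4
  · have h4 := C.int h1 _ (Finset.image_subset_image ht) _ (Finset.image_subset_image ht')
    have h5 : t.image g.fn ∩ t'.image g.fn = (t ∩ t').image g.fn := by
      refine (Finset.image_inter_of_injOn _ _ ?_).symm
      intro x hx y hy hxy
      refine g.fn_inj (h3 x ?_) (h3 y ?_) hxy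
      · rcases hx with hx | hx
        · exact ht hx
        · exact ht' hx
      · rcases hy with hy | hy
        · exact ht hy
        · exact ht' hy
    have h6 : t ∩ t' ⊆ s := Finset.inter_subset_left.trans ht
    rw [h5, (h2 t ht).2, (h2 t' ht').2, (h2 _ h6).2, ← g.push_inf] at h4
    rw [← g.pull_push (S := A t ⊓ A t') (inf_le_left.trans (h2 t ht).1), h4,
      g.pull_push (h2 _ h6).1]

theorem psM_congr {A B : Finset M → L.Substructure M} {s : Finset M}
    (hAB : ∀ t, t ⊆ s → A t = B t) (h : PSM C φ A s) : PSM C φ B s := by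
  obtain ⟨g, D, h1, h2, h3⟩ := h
  refine ⟨g, D, h1, fun t ht => ?_, h3⟩
  rw [← hAB t ht]
  exact h2 t ht

end

section

variable (hLS : K.IsLS l) (hmon : Mon K l CC) (hPl : #P = l) (hP : K.le P) (hR : K.le R)
  (hinv : C.Inv)

include hLS hmon hPl hinv

/-- The transported systems through the standard function. -/
theorem psM_tr (g : GE K l φ) {A : Finset M → L.Substructure M} {s s' : Finset M}
    (hs : ∀ x, x ∈ s' → x ∈ g.N) (hss : s ⊆ s') (hA : ∀ t, t ⊆ s → A t ≤ g.N) :
    PSM C φ A s ↔ C.PS (g.tr A s') (s.image g.fn) :=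
  psM_iff hLS hmon hPl hinv g (fun x hx => hs x (hss hx)) hA
    fun t ht => g.tr_image A hs (ht.trans hss)

/-- A version for systems. -/
theorem psM_of (g : GE K l φ) {A : Finset M → L.Substructure M} {s s' : Finset M}
    (hs : ∀ x, x ∈ s' → x ∈ g.N) (hss : s ⊆ s') (hA : A s ≤ g.N) (h : PSM C φ A s) :
    C.PS (g.tr A s') (s.image g.fn) :=
  (psM_tr hLS hmon hPl hinv g hs hss fun r hr =>
    ((psM_basic h).2.2.2.1 r hr).trans hA).1 h

include hP hR

theorem psM_ext {A : Finset M → L.Substructure M} {s : Finset M} {N : L.Substructure M}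
    (hN : K.le N) (hs : s.Nonempty) (hA : ∀ t, t ⊂ s → PSM C φ A t ∧ A t ≤ N)
    (hx : ∀ x, x ∈ s → x ∈ QM K l φ Q ∧ x ∈ N) (hx' : ∀ x, x ∈ s → x ∉ A (s.erase x)) :
    ∃ B : L.Substructure M, B ≤ N ∧ PSM C φ (update A s B) s := by
  have hl := hLS.1
  obtain ⟨N₀, hN₀N, hN₀, hX, hN₀l⟩ := exists_small_le hLS hN
    ((⋃ t : {t : Finset M // t < s}, (A t.1 : Set M)) ∪ s) (by
      refine union_subset (iUnion_subset fun t => (hA t.1 t.2).2) fun x hx1 => (hx x hx1).2)
    ((mk_union_le _ _).trans (add_le_of_le hl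
      (AEC.mk_iUnion_lt_le hl s (fun t => (A t : Set M)) fun _ ht =>
        (psM_basic (hA _ ht).1).2.1) ((lt_aleph0_of_finite _).le.trans hl)))
  have hAN : ∀ t, t ⊂ s → A t ≤ N₀ := fun t ht a ha =>
    hX (Or.inl (mem_iUnion.2 ⟨⟨t, ht⟩, ha⟩))
  have h0 : A ∅ = R := (psM_basic (hA ∅ (Finset.empty_ssubset.2 hs)).1).2.2.1
  obtain ⟨g, rfl⟩ := GE.exists_GE (φ := φ) hmon hPl hP hR hN₀ hN₀l
    (h0 ▸ hAN ∅ (Finset.empty_ssubset.2 hs))
  have hsN : ∀ x, x ∈ s → x ∈ g.N := fun x hx => hX (Or.inr hx)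
  have himg : ∀ t, t ⊆ s → t.image g.fn = s.image g.fn → t = s := by
    intro t ht h
    refine Finset.Subset.antisymm ht fun x hx => ?_
    have h1 : g.fn x ∈ t.image g.fn := by
      rw [h]
      exact Finset.mem_image_of_mem _ hx
    obtain ⟨y, hy, hyx⟩ := Finset.mem_image.1 h1
    rwa [← g.fn_inj (hsN y (ht hy)) (hsN x hx) hyx]
  obtain ⟨B, hB, hPS⟩ := C.ext (A := g.tr A s) (s := s.image g.fn) (N := g.push g.N)
    ((g.le_push (le_refl _)).2 g.le) (by
      rw [g.card_push (le_refl _)]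
      exact g.card) (hs.image _) (fun u hu => by
        obtain ⟨t, ht, rfl⟩ := Finset.subset_image_iff.1 hu.1
        have hts : t ⊂ s := by
          refine lt_of_le_of_ne ht ?_
          rintro rfl
          exact hu.2 (Finset.Subset.refl _)
        refine ⟨psM_of hLS hmon hPl hinv g hsN ht (hAN t hts) (hA t hts).1, ?_⟩
        rw [g.tr_image A hsN ht]
        exact g.push_mono (hAN t hts)) (fun y hy => by
        obtain ⟨x, hx1, rfl⟩ := Finset.mem_image.1 hy
        exact ⟨(mem_QM hLS hmon hPl hinv g (hsN x hx1)).1 (hx x hx1).1,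
          (g.fn_mem_push (hsN x hx1)).2 (hsN x hx1)⟩) (fun y hy => by
        obtain ⟨x, hx1, rfl⟩ := Finset.mem_image.1 hy
        have h1 : (s.image g.fn).erase (g.fn x) = (s.erase x).image g.fn := by
          ext z
          rw [Finset.mem_erase, Finset.mem_image, Finset.mem_image]
          constructor
          · rintro ⟨h2, w, hw, rfl⟩
            refine ⟨w, Finset.mem_erase.2 ⟨?_, hw⟩, rfl⟩
            rintro rfl
            exact h2 rfl
          · rintro ⟨w, hw, rfl⟩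
            rw [Finset.mem_erase] at hw
            refine ⟨fun h2 => hw.1 (g.fn_inj (hsN w hw.2) (hsN x hx1) h2), w, hw.2, rfl⟩
        rw [h1, g.tr_image A hsN (Finset.erase_subset x s), g.fn_mem_push (hsN x hx1)]
        exact hx' x hx1)
  refine ⟨g.pull B, (g.pull_le B).trans hN₀N, ?_⟩
  refine (psM_iff hLS hmon hPl hinv g hsN (fun t ht => ?_) fun t ht => ?_).2 hPS
  · rcases eq_or_ne t s with rfl | hts
    · rw [update_self]
      exact g.pull_le B
    · rw [update_of_ne hts]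
      exact hAN t (lt_of_le_of_ne ht hts)
  · rcases eq_or_ne t s with rfl | hts
    · rw [update_self, update_self, g.push_pull hB]
    · rw [update_of_ne hts, update_of_ne fun h => hts (himg t ht h), g.tr_image A hsN ht]

theorem psM_cl {A : Finset M → L.Substructure M} {s : Finset M} {V : L.Substructure M}
    (h : PSM C φ A s) (hV : K.le V) (hRV : R ≤ V) (hs : ∀ x, x ∈ s → x ∈ V) (y : M)
    (hy : y ∈ QM K l φ Q) (hyA : y ∈ A s) : y ∈ V := by
  have hl := hLS.1
  obtain ⟨V₀, hV₀V, hV₀, hX, hV₀l⟩ := exists_small_le hLS hV ((R : Set M) ∪ s)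
    (union_subset hRV hs) ((mk_union_le _ _).trans (add_le_of_le hl (GE.card_R hPl φ).le
      ((lt_aleph0_of_finite _).le.trans hl)))
  obtain ⟨g, hg⟩ := GE.exists_of_set hLS hmon hPl hP hR φ ((V₀ : Set M) ∪ A s)
    ((mk_union_le _ _).trans (add_le_of_le hl hV₀l (psM_basic h).2.1))
  have hV₀g : V₀ ≤ g.N := fun a ha => hg (Or.inl ha)
  have hAg : A s ≤ g.N := fun a ha => hg (Or.inr ha)
  have hsN : ∀ x, x ∈ s → x ∈ g.N := fun x hx => hAg ((psM_basic h).2.2.2.2.1 x hx)
  have h1 := C.cl (psM_of hLS hmon hPl hinv g hsN (Finset.Subset.refl s) hAg h)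
    ((g.le_push hV₀g).2 hV₀) (by rwa [g.card_push hV₀g]) (by
      have h2 : g.push R ≤ g.push V₀ := g.push_mono fun a ha => hX (Or.inl ha)
      rwa [g.push_R] at h2) (fun z hz => by
      obtain ⟨x, hx, rfl⟩ := Finset.mem_image.1 hz
      exact (g.fn_mem_push (hsN x hx)).2 (hX (Or.inr hx))) (g.fn y)
    ((mem_QM hLS hmon hPl hinv g (hAg hyA)).1 hy) (by
      rw [g.tr_image A hsN (Finset.Subset.refl s)]
      exact (g.fn_mem_push (hAg hyA)).2 hyA)
  exact hV₀V ((g.fn_mem_push (hAg hyA)).1 h1)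

theorem psM_exch {A : Finset M → L.Substructure M} {s : Finset M} {x y : M}
    (hx : PSM C φ A (insert x s)) (hy : PSM C φ A (insert y s)) (hyQ : y ∈ QM K l φ Q)
    (hyA : y ∈ A (insert x s)) (hyA' : y ∉ A s) : x ∈ A (insert y s) := by
  have hl := hLS.1
  obtain ⟨g, hg⟩ := GE.exists_of_set hLS hmon hPl hP hR φ
    ((A (insert x s) : Set M) ∪ A (insert y s))
    ((mk_union_le _ _).trans (add_le_of_le hl (psM_basic hx).2.1 (psM_basic hy).2.1))
  have hxg : A (insert x s) ≤ g.N := fun a ha => hg (Or.inl ha)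
  have hyg : A (insert y s) ≤ g.N := fun a ha => hg (Or.inr ha)
  have hsN : ∀ z, z ∈ insert x (insert y s) → z ∈ g.N := by
    intro z hz
    rw [Finset.mem_insert] at hz
    rcases hz with rfl | hz
    · exact hxg ((psM_basic hx).2.2.2.2.1 z (Finset.mem_insert_self z s))
    · exact hyg ((psM_basic hy).2.2.2.2.1 z hz)
  have hxs : insert x s ⊆ insert x (insert y s) :=
    Finset.insert_subset_insert x (Finset.subset_insert y s)
  have hys : insert y s ⊆ insert x (insert y s) := Finset.subset_insert x _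
  have hs : s ⊆ insert x (insert y s) := (Finset.subset_insert y s).trans hys
  have h1 := psM_of hLS hmon hPl hinv g hsN hxs hxg hx
  have h2 := psM_of hLS hmon hPl hinv g hsN hys hyg hy
  rw [Finset.image_insert] at h1 h2
  have h3 := C.exch h1 h2 ((mem_QM hLS hmon hPl hinv g (hxg hyA)).1 hyQ) (by
    rw [← Finset.image_insert, g.tr_image A hsN hxs]
    exact (g.fn_mem_push (hxg hyA)).2 hyA) (by
    rw [g.tr_image A hsN hs, g.fn_mem_push (hxg hyA)]
    exact hyA')
  rw [← Finset.image_insert, g.tr_image A hsN hys, g.fn_mem_push (hsN x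
    (Finset.mem_insert_self x _))] at h3
  exact h3

theorem psM_nv {N N' : L.Substructure M} (hN : K.le N) (hN' : K.le N') (hRN : R ≤ N)
    (hNN : N ≤ N') (h : ∀ y, y ∈ QM K l φ Q → y ∈ N' → y ∈ N) : N = N' := by
  have hl := hLS.1
  by_contra hne
  obtain ⟨a, ha, haN⟩ : ∃ a, a ∈ N' ∧ a ∉ N := by
    by_contra h1
    push Not at h1
    exact hne (_root_.le_antisymm hNN h1)
  obtain ⟨S, hSN, hS, hNS, hX, hSl⟩ := exists_small_pair hLS hN hN' hNN ((R : Set M) ∪ {a})
    (union_subset (hRN.trans hNN) (singleton_subset_iff.2 ha)) ((mk_union_le _ _).trans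
      (add_le_of_le hl (GE.card_R hPl φ).le ((mk_singleton a).le.trans (one_le_aleph0.trans hl))))
  obtain ⟨g, rfl⟩ := GE.exists_GE (φ := φ) hmon hPl hP hR hS hSl fun b hb => hX (Or.inl hb)
  have h1 := C.nv (N := g.push (N ⊓ g.N)) (N' := g.push g.N) ((g.le_push inf_le_right).2 hNS)
    ((g.le_push (le_refl _)).2 hS) (by rwa [g.card_push (le_refl _)]) (by
      have h2 : g.push R ≤ g.push (N ⊓ g.N) := g.push_mono fun b hb => ⟨hRN hb, g.RN hb⟩
      rwa [g.push_R] at h2) (g.push_mono inf_le_right) (fun z hz hzN => by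
      obtain ⟨y, hy, -, rfl⟩ := g.mem_push.1 hzN
      exact (g.fn_mem_push hy).2 ⟨h y ((mem_QM hLS hmon hPl hinv g hy).2 hz) (hSN hy), hy⟩)
  have h2 : N ⊓ g.N = g.N := by
    rw [← g.pull_push (S := N ⊓ g.N) inf_le_right, h1, g.pull_push (le_refl _)]
  have h3 : a ∈ N ⊓ g.N := by
    rw [h2]
    exact hX (Or.inr rfl)
  exact haN h3.1

/-- The transported geometry. -/
noncomputable def geoM (b : Cardinal.{u}) (hb : l ≤ b) (φ : R ≃[L] P) :
    Geo K l b R (QM K l φ Q) where
  PS := PSM C φ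
  lb := hb
  congr := fun h1 h2 => psM_congr h1 h2
  mono := by
    rintro A s t ⟨g, D, h1, h2, h3⟩ ht
    exact ⟨g, D, C.mono h1 (Finset.image_subset_image ht), fun r hr => h2 r (hr.trans ht),
      fun x hx => h3 x (ht hx)⟩
  empty := by
    intro A hA
    obtain ⟨g, -⟩ := GE.exists_of_set hLS hmon hPl hP hR φ ∅ (by simp)
    refine ⟨g, fun _ => P, ?_, fun t ht => ?_, fun x hx => absurd hx (Finset.notMem_empty x)⟩
    · rw [Finset.image_empty]
      exact C.empty rfl
    · rw [Finset.subset_empty.1 ht, hA]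
      exact ⟨g.RN, g.push_R.symm⟩
  bot := fun h => (psM_basic h).2.2.1
  le := fun h => (psM_basic h).1
  card := fun h => (psM_basic h).2.1
  memQ := by
    rintro A s ⟨g, D, h1, h2, h3⟩ x hx
    exact ⟨g, h3 x hx, C.memQ h1 _ (Finset.mem_image_of_mem _ hx)⟩
  mem := fun h => (psM_basic h).2.2.2.2.1
  int := fun h => (psM_basic h).2.2.2.2.2
  ext := fun hN _ hs hA hx hx' => psM_ext hLS hmon hPl hP hR hinv hN hs hA hx hx'
  cl := fun h hV _ hRV hs y hy hyA => psM_cl hLS hmon hPl hP hR hinv h hV hRV hs y hy hyA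
  exch := fun hx hy hyQ hyA hyA' => psM_exch hLS hmon hPl hP hR hinv hx hy hyQ hyA hyA'
  nv := fun hN hN' _ hRN hNN h => psM_nv hLS hmon hPl hP hR hinv hN hN' hRN hNN h
  disj := by
    rintro y ⟨g, hy, h⟩ hyR
    refine C.disj _ h ?_
    rw [g.fn_R hyR]
    exact (φ ⟨y, hyR⟩).2

end

end Vale.Agent.P307.R2.H427
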