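import Vale.Agent.P307.R2.H427.Mon3

/-!
A geometry of the small strong substructures of a homogeneous member gives categoricity.
-/

universe u

open FirstOrder Cardinal Set Function Language

namespace Vale.Agent.P307.R2.H427

open scoped Classical

variable {L : Language.{u, u}} {K : AEC L} {l : Cardinal.{u}}

section isoOn

variable {M M' M'' : Type u} [L.Structure M] [L.Structure M'] [L.Structure M'']
  {S : L.Substructure M} {T : L.Substructure M'} {U : L.Substructure M''}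

theorem IsoOn.mem {f : M → M'} (h : IsoOn f S T) {a : M} (ha : a ∈ S) : f a ∈ T := by
  obtain ⟨φ, hφ⟩ := h
  rw [← hφ ⟨a, ha⟩]
  exact (φ ⟨a, ha⟩).2

theorem IsoOn.surj {f : M → M'} (h : IsoOn f S T) {b : M'} (hb : b ∈ T) : ∃ a, a ∈ S ∧ f a = b := by
  obtain ⟨φ, hφ⟩ := h
  refine ⟨φ.symm ⟨b, hb⟩, (φ.symm ⟨b, hb⟩).2, ?_⟩
  rw [← hφ, φ.apply_symm_apply]

theorem IsoOn.symm {f : M → M'} (h : IsoOn f S T) {k : M' → M} (hk : ∀ a, a ∈ S → k (f a) = a) :
    IsoOn k T S := by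
  obtain ⟨φ, hφ⟩ := h
  refine ⟨φ.symm, fun b => ?_⟩
  have h1 := hk (φ.symm b) (φ.symm b).2
  rw [← hφ, φ.apply_symm_apply] at h1
  exact h1.symm

theorem IsoOn.comp {f : M → M'} {k : M' → M''} (h : IsoOn f S T) (hk : IsoOn k T U) :
    IsoOn (fun a => k (f a)) S U := by
  obtain ⟨φ, hφ⟩ := h
  obtain ⟨χ, hχ⟩ := hk
  refine ⟨χ.comp φ, fun a => ?_⟩
  change ((χ (φ a) : U) : M'') = _
  rw [hχ, hφ]

end isoOn

variable {CC M M' : Type u} [L.Structure CC] [L.Structure M] [L.Structure M']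
  {P : L.Substructure CC} {R : L.Substructure M} {R' : L.Substructure M'} [Nonempty CC]
  {Q : Set CC} {C : Geo K l l P Q} {φ : R ≃[L] P} {φ' : R' ≃[L] P}

theorem crossIso_geoM (hLS : K.IsLS l) (hmon : Mon K l CC) (hPl : #P = l) (hP : K.le P)
    (hR : K.le R) (hR' : K.le R') (hinv : C.Inv)
    (hI : CrossIso C C (Language.Equiv.refl L P)) (b b' : Cardinal.{u}) (hb : l ≤ b)
    (hb' : l ≤ b') :
    CrossIso (geoM hLS hmon hPl hP hR hinv b hb φ) (geoM hLS hmon hPl hP hR' hinv b' hb' φ')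
      (φ'.symm.comp φ) := by
  intro A A' s s' hs hs' e he hes f hf hfe hf₀
  change PSM C φ A s at hs
  change PSM C φ' A' s' at hs'
  have hne : Nonempty M := by
    have h1 : #R = l := GE.card_R hPl φ
    have h2 : Nonempty R := by
      rw [← mk_ne_zero_iff, h1]
      exact (hLS.1.trans_lt' aleph0_pos).ne'
    exact h2.map Subtype.val
  have hne' : Nonempty M' := by
    have h1 : #R' = l := GE.card_R hPl φ'
    have h2 : Nonempty R' := by
      rw [← mk_ne_zero_iff, h1]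
      exact (hLS.1.trans_lt' aleph0_pos).ne'
    exact h2.map Subtype.val
  obtain ⟨g, hg⟩ := GE.exists_of_set hLS hmon hPl hP hR φ (A s) (psM_basic hs).2.1
  obtain ⟨g', hg'⟩ := GE.exists_of_set hLS hmon hPl hP hR' φ' (A' s') (psM_basic hs').2.1
  have hsN : ∀ x, x ∈ s → x ∈ g.N := fun x hx => hg ((psM_basic hs).2.2.2.2.1 x hx)
  have hsN' : ∀ x, x ∈ s' → x ∈ g'.N := fun x hx => hg' ((psM_basic hs').2.2.2.2.1 x hx)
  have hAg : ∀ t, t ⊆ s → A t ≤ g.N := fun t ht => ((psM_basic hs).2.2.2.1 t ht).trans hg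
  have hAg' : ∀ t, t ⊆ s' → A' t ≤ g'.N := fun t ht => ((psM_basic hs').2.2.2.1 t ht).trans hg'
  let iv : CC → M := invFunOn g.fn g.N
  let iv' : CC → M' := invFunOn g'.fn g'.N
  have hiv : ∀ a, a ∈ g.N → iv (g.fn a) = a := fun a ha =>
    InjOn.leftInvOn_invFunOn (s := (g.N : Set M)) (fun x hx y hy h => g.fn_inj hx hy h) ha
  have hiv' : ∀ a, a ∈ g'.N → iv' (g'.fn a) = a := fun a ha =>
    InjOn.leftInvOn_invFunOn (s := (g'.N : Set M')) (fun x hx y hy h => g'.fn_inj hx hy h) ha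
  let eC : CC → CC := fun c => g'.fn (e (iv c))
  let fC : CC → CC := fun c => g'.fn (f (iv c))
  have heC : ∀ x, x ∈ s → eC (g.fn x) = g'.fn (e x) := fun x hx => by
    change g'.fn (e (iv (g.fn x))) = _
    rw [hiv x (hsN x hx)]
  have hfC : ∀ x, x ∈ g.N → fC (g.fn x) = g'.fn (f x) := fun x hx => by
    change g'.fn (f (iv (g.fn x))) = _
    rw [hiv x hx]
  have hem : ∀ x, x ∈ s → e x ∈ s' := fun x hx => by
    rw [← hes]
    exact Finset.mem_image_of_mem e hx
  have himg : ∀ t, t ⊆ s → (t.image g.fn).image eC = (t.image e).image g'.fn := by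
    intro t ht
    rw [Finset.image_image, Finset.image_image]
    exact Finset.image_congr fun x hx => heC x (ht hx)
  have hte : ∀ t, t ⊆ s → t.image e ⊆ s' := fun t ht => by
    rw [← hes]
    exact Finset.image_subset_image ht
  have hus : ∀ u, u ⊂ s.image g.fn → ∃ t, t ⊂ s ∧ t.image g.fn = u := by
    intro u hu
    obtain ⟨t, ht, rfl⟩ := Finset.subset_image_iff.1 hu.1
    refine ⟨t, lt_of_le_of_ne ht ?_, rfl⟩
    rintro rfl
    exact hu.2 (Finset.Subset.refl _)
  have hiso : ∀ t (ht : t ⊆ s), IsoOn iv (g.push (A t)) (A t) := fun t ht =>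
    (g.isoOn (hAg t ht)).symm fun a ha => hiv a (hAg t ht ha)
  obtain ⟨G, hG1, hG2, hG3⟩ := hI (g.tr A s) (g'.tr A' s') (s.image g.fn) (s'.image g'.fn)
    (psM_of hLS hmon hPl hinv g hsN (Finset.Subset.refl s) hg hs)
    (psM_of hLS hmon hPl hinv g' hsN' (Finset.Subset.refl s') hg' hs') eC (by
      intro x hx y hy hxy
      rw [Finset.mem_coe, Finset.mem_image] at hx hy
      obtain ⟨x, hx, rfl⟩ := hx
      obtain ⟨y, hy, rfl⟩ := hy
      rw [heC x hx, heC y hy] at hxy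
      rw [he hx hy (g'.fn_inj (hsN' _ (hem x hx)) (hsN' _ (hem y hy)) hxy)])
    (by rw [himg s (Finset.Subset.refl s), hes]) fC (by
      intro u hu
      obtain ⟨t, ht, rfl⟩ := hus u hu
      rw [himg t ht.1, g.tr_image A hsN ht.1, g'.tr_image A' hsN' (hte t ht.1)]
      exact ((hiso t ht.1).comp (hf t ht)).comp (g'.isoOn (hAg' _ (hte t ht.1)))) (by
      intro u hu y hy
      obtain ⟨t, ht, rfl⟩ := hus u hu
      obtain ⟨x, hx, rfl⟩ := Finset.mem_image.1 hy
      rw [heC x (ht.1 hx), hfC x (hsN x (ht.1 hx)), hfe t ht x hx]) (by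
      intro a
      change fC a = a
      have h1 : ((φ.symm a : R) : M) ∈ R := (φ.symm a).2
      have h2 : g.fn (φ.symm a : R) = a := by
        rw [g.fn_R h1]
        exact congrArg Subtype.val (φ.apply_symm_apply a)
      have h3 : f (φ.symm a : R) = (φ'.symm a : R') := by
        rw [hf₀ (φ.symm a)]
        change ((φ'.symm (φ (φ.symm a)) : R') : M') = _
        rw [φ.apply_symm_apply]
      have h4 : ((φ'.symm a : R') : M') ∈ R' := (φ'.symm a).2
      rw [← h2, hfC _ (g.RN h1), h3, g'.fn_R h4, h2]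
      exact congrArg Subtype.val (φ'.apply_symm_apply a))
  rw [g.tr_image A hsN (Finset.Subset.refl s), g'.tr_image A' hsN' (Finset.Subset.refl s')] at hG2
  refine ⟨fun a => iv' (G (g.fn a)), fun t ht a ha => ?_, ?_, fun x hx => ?_⟩
  · change iv' (G (g.fn a)) = f a
    have h1 : t.image g.fn ⊂ s.image g.fn := by
      refine lt_of_le_of_ne (Finset.image_subset_image ht.1) fun h => ?_
      refine ht.2 fun x hx => ?_
      have h2 : g.fn x ∈ t.image g.fn := by
        rw [h]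
        exact Finset.mem_image_of_mem _ hx
      obtain ⟨y, hy, hyx⟩ := Finset.mem_image.1 h2
      rwa [← g.fn_inj (hsN y (ht.1 hy)) (hsN x hx) hyx]
    rw [hG1 _ h1 _ (by
      rw [g.tr_image A hsN ht.1]
      exact (g.fn_mem_push (hAg t ht.1 ha)).2 ha), hfC a (hAg t ht.1 ha)]
    exact hiv' _ (hAg' _ (hte t ht.1) ((hf t ht).mem ha))
  · refine ((g.isoOn (hAg s (Finset.Subset.refl s))).comp hG2).comp ?_
    exact (g'.isoOn (hAg' s' (Finset.Subset.refl s'))).symm fun a ha =>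
      hiv' a (hAg' s' (Finset.Subset.refl s') ha)
  · change iv' (G (g.fn x)) = e x
    rw [hG3 _ (Finset.mem_image_of_mem _ hx), heC x hx]
    exact hiv' _ (hsN' _ (hem x hx))

omit [Nonempty CC] [L.Structure M] [L.Structure M'] in
/-- **A geometry of the strong substructures with `l` elements of a homogeneous member gives
categoricity above `l`.** -/
theorem categoricalIn_of_geo (hLS : K.IsLS l) (hcat : K.CategoricalIn l) (hmon : Mon K l CC)
    (hPl : #P = l) (hP : K.le P) (hinv : C.Inv)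
    (hI : CrossIso C C (Language.Equiv.refl L P))
    (hbig : ∀ κ, l ≤ κ → ∃ (M : Type u) (_ : L.Structure M), K.mem M ∧ #M = κ)
    (κ : Cardinal.{u}) (hκ : l ≤ κ) : K.CategoricalIn κ := by
  rcases eq_or_lt_of_le hκ with rfl | hκ
  · exact hcat
  refine ⟨hbig κ hκ.le, fun M M' _ _ hM hM' hMκ hM'κ => ?_⟩
  have hne : Nonempty CC := by
    have h2 : Nonempty P := by
      rw [← mk_ne_zero_iff, hPl]
      exact (hLS.1.trans_lt' aleph0_pos).ne'
    exact h2.map Subtype.val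
  have hsub : ∀ (N : Type u) [L.Structure N], K.mem N → #N = κ →
      ∃ R : L.Substructure N, K.le R ∧ Nonempty (R ≃[L] P) := by
    intro N _ hN hNκ
    obtain ⟨X, hX⟩ := le_mk_iff_exists_set.1 (hκ.le.trans hNκ.ge)
    obtain ⟨R, -, hR, hXR, hRl⟩ := exists_small_le hLS (K.le_refl hN) X
      (fun a _ => Substructure.mem_top a) hX.le
    have hRl' : #R = l := _root_.le_antisymm hRl (by
      rw [← hX]
      exact mk_le_mk_of_subset hXR)
    exact ⟨R, hR, hcat.2 R P (K.mem_of_le R hR).1 (K.mem_of_le P hP).1 hRl' hPl⟩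
  obtain ⟨R, hR, ⟨φ⟩⟩ := hsub M hM hMκ
  obtain ⟨R', hR', ⟨φ'⟩⟩ := hsub M' hM' hM'κ
  have h1 := crossIso_geoM (φ := φ) (φ' := φ') hLS hmon hPl hP hR hR' hinv hI κ κ hκ.le hκ.le
  obtain ⟨σ, -⟩ := h1.exists_equiv_of_card hLS.1 hM hM' hMκ.le hM'κ.le (hMκ.symm ▸ hκ)
    (hMκ.trans hM'κ.symm)
  exact ⟨σ⟩

end Vale.Agent.P307.R2.H427
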