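import Vale.Agent.P307.R2.H287.PgLv
import Vale.Agent.P307.R2.H806.LimPG
import Vale.Agent.P307.R2.H427.MapPG

/-!
The closed traces of the boundary of an extension of an independent system by one direction, at the
level of a smaller base point: tameness and continuity.
-/

set_option linter.unusedSectionVars false

universe u

open FirstOrder Cardinal Set

namespace Vale.Agent.P307.R2.H541

open Vale.Agent.P307 Vale.Agent.P307.H304 Vale.Agent.P307.R2.H287 Vale.Agent.P307.R2.H1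
  Vale.Agent.P307.R2.H68 Vale.Agent.P307.R2.H971 Vale.Agent.P307.R2.H804
  Language.Structure Language.Substructure
open Vale.Agent.P307.R2.H301 (Lv TrX)
open Vale.Agent.P307.R2.H533 (Ext1 ISys ibd)
open Vale.Agent.P307.R2.H806 (Good1 ChnAt StrZ pg_lim_point pg_lim_pair)

open scoped Classical

variable {L : Language.{u, u}} {K : AEC L} {ℓ θ τ : Cardinal.{u}}
  {κf α : Cardinal.{u} → Cardinal.{u}} {C : Type u} [L.Structure C]

variable (K ℓ κf α) in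
/-- Tameness over the boundaries of the extensions by one direction of the independent systems of
dimension `n`, at the base point `τ`. -/
def TX (n : ℕ) (τ : Cardinal.{u}) : Prop :=
  ∀ (h₀ : BasePt K ℓ κf α τ) (hK : K.IsLS ℓ) (hunb : ∀ ν, ν < κf ν ∧ K.CategoricalIn (κf ν))
    (hst : Stab K ℓ α (H287.thr κf)) (C : Type u) [L.Structure C] (hCm : K.mem C)
    (hs : Sat K τ C) (hCc : #C = Order.succ τ) (ι : Type u) (A : Finset ι → Set C)
    (S : Finset ι) (c : ι), S.card = n → Ext1 (pg h₀ hK hunb hst hCm hs hCc) A S c →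
      (pg h₀ hK hunb hst hCm hs hCc).Tm (ibd A (insert c S))

section

variable (h₀ : BasePt K ℓ κf α θ) (hK : K.IsLS ℓ)
  (hunb : ∀ ν, ν < κf ν ∧ K.CategoricalIn (κf ν)) (hst : Stab K ℓ α (H287.thr κf))
  (hCm : K.mem C) (hs : Sat K θ C) (hCc : #C = Order.succ θ)
  {ι : Type u} {A : Finset ι → Set C} {S : Finset ι} {c : ι}

/-- A closure for the traces of finitely many strong submodels. -/
theorem exists_clo_faces (hτ : BasePt K ℓ κf α τ) (hτθ : τ < θ) (T : Finset (Finset ι))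
    (hA : ∀ t ∈ T, A t ∈ (pg h₀ hK hunb hst hCm hs hCc).S) :
    ∃ φ : Finset C → Set C, (∀ s, #(φ s) ≤ τ) ∧ ∀ z ∈ Zc φ τ, ∀ t ∈ T, A t ∩ z ∈ Sm K τ C := by
  have hτ0 : ℵ₀ ≤ τ := aleph0_le_pt hτ hK
  have h1 : ∀ t : {t : Finset ι // t ∈ T}, ∃ φ : Finset C → Set C, (∀ s, #(φ s) ≤ τ) ∧
      ∀ z ∈ Zc φ τ, A t ∩ z ∈ Sm K τ C := fun t => by
    obtain ⟨φ, h1, h2⟩ := exists_clo_pack h₀ hK hunb hst hCm hs hCc hτ hτθ (hA t t.2)
      (R := fun _ => A t) (by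
        obtain ⟨D, h3, -, h4⟩ := hA t t.2
        exact fun _ => ⟨D, h3, h4⟩)
    exact ⟨φ, h1, fun z hz => (h2 z hz).1⟩
  choose ψ h2 h3 using h1
  obtain ⟨φ, h4, h5⟩ := exists_clo_common hτ0 ((lt_aleph0_of_finite _).le.trans hτ0) ψ h2
  exact ⟨φ, h4, fun z hz t ht => h3 ⟨t, ht⟩ z (Zc.mono (h5 ⟨t, ht⟩) hz)⟩

/-- Tameness of the closed traces. -/
theorem tmA_trace (hτ : BasePt K ℓ κf α τ) (hτθ : τ < θ) {Z : Set (Set C)}
    (h : Good1 (pg h₀ hK hunb hst hCm hs hCc) τ A S c Z) (hZS : StrZ K τ A S c Z)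
    (hT : TX K ℓ κf α S.card τ) {z : Set C} (hz : z ∈ Z) :
    TmA hK hunb hst hτ (ibd A (insert c S) ∩ z) := by
  intro C' hC' hC'c hC's hXC'
  have hL := pg_low h₀ hK hunb hst hCm hs hCc hτ hτθ hC' hC'c hC's
  have hD : ∀ t, t ⊂ insert c S → A t ∩ z ⊆ (C' : Set C) := fun t ht x hx =>
    hXC' ⟨⟨t, ht, hx.1⟩, hx.2⟩
  have h1 : Ext1 (pgLow hK hunb hst hτ hC' hC'c hC's)
      (fun t => PG.tr (C' : Set C) (A t ∩ z)) S c :=
    PG.Low.ext1_tr' hL (pg_noOrd h₀ hK hunb hst hCm hs hCc hτ hτθ) h.ext h.ne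
      (fun t ht => tr_mem hK hunb hst hτ hC' hC'c hC's (hZS z hz t ht) (hD t ht)) hD
      (h.jr z hz) (h.tiny z hz)
  have h2 := hT hτ hK hunb hst C' (K.mem_of_le _ hC').1 hC's hC'c ι _ S c rfl h1
  have h3 : ibd (fun t => PG.tr (C' : Set C) (A t ∩ z)) (insert c S) =
      PG.tr (C' : Set C) (ibd A (insert c S) ∩ z) := PG.ibd_tr
  rw [← h3]
  exact h2

include h₀ hCm hs hCc in
/-- Maps which preserve the types of the tiny pieces of a tame set are elementary. -/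
theorem emp_of_tmA (hτ : BasePt K ℓ κf α τ) (hτθ : τ < θ) {X : Set C} (hX : #X ≤ τ) {f : C → C}
    (hf : ∀ A ⊆ X, #A < τ → ∃ g ∈ (pg h₀ hK hunb hst hCm hs hCc).G, ∀ a ∈ A, g a = f a)
    (hT : TmA hK hunb hst hτ X) : EMp L τ X f := by
  obtain ⟨C', hC', hC'c, hC's, hXC', -, g, hg, hgf⟩ := exists_low_aut h₀ hK hunb hst hCm hs hCc
    hτ hτθ (Y := ∅) hX (by simp) hf hT
  have h1 := low_emp h₀ hK hunb hst hCm hs hCc hτ hτθ hC' hC'c hC's hg
    (z := PG.tr (C' : Set C) X) ((PG.mk_tr_le (D := (C' : Set C)) X).trans hX) (f := f)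
    (fun x hx => (hgf x hx).symm)
  have h2 : Subtype.val '' PG.tr (C' : Set C) X = X := PG.image_tr hXC'
  change EMp L τ (Subtype.val '' PG.tr (C' : Set C) X) f at h1
  rwa [h2] at h1

/-- **The closed traces of the boundary**, for a direction generated by finitely many points. -/
theorem pg_trX_point (hτ : BasePt K ℓ κf α τ) (hτθ : τ < θ) {φ : Finset C → Set C}
    (hφ : ∀ s, #(φ s) ≤ τ) (h : Good1 (pg h₀ hK hunb hst hCm hs hCc) τ A S c (Zc φ τ))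
    (hZS : StrZ K τ A S c (Zc φ τ)) (hT : TX K ℓ κf α S.card τ)
    (hC : ChnAt hK hunb hst hτ C) {p : Set C} (hp : p.Finite) (hpZ : ∀ z ∈ Zc φ τ, p ⊆ z)
    (hat : (pg h₀ hK hunb hst hCm hs hCc).Atomic (A {c}) (p ∪ A ∅))
    (htiny : ∀ z ∈ Zc φ τ, ∀ E ⊆ A {c} ∩ z, #E < τ →
      ∃ B ⊆ p ∪ A ∅, #B < τ ∧ (pg h₀ hK hunb hst hCm hs hCc).Isol B (p ∪ A ∅) E) :
    TrX (pgLv h₀ hK hunb hst hCm hs hCc hτ hτθ) (ibd A (insert c S)) φ where
  card := hφ
  tame := fun H hH hHc f hf => emp_of_tmA h₀ hK hunb hst hCm hs hCc hτ hτθ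
    ((mk_le_mk_of_subset inter_subset_right).trans hHc) hf
    (tmA_trace h₀ hK hunb hst hCm hs hCc hτ hτθ h hZS hT ⟨hH, hHc⟩)
  lim := fun I _ _ _ hI H hH hHφ hHc f hf => pg_lim_point h₀ hK hunb hst hCm hs hCc hτ hτθ h
    (fun z hz => hz.2) hZS hC hp hpZ hat htiny hH (fun i => ⟨hHφ i, hHc i⟩)
    (Zc.iUnion (aleph0_le_pt hτ hK) hI H hH fun i => ⟨hHφ i, hHc i⟩) hf

/-- **The closed traces of the boundary**, for an arbitrary direction. -/
theorem pg_trX_pair (hτ : BasePt K ℓ κf α τ) (hτθ : τ < θ) {φ : Finset C → Set C}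
    (hφ : ∀ s, #(φ s) ≤ τ) (h : Good1 (pg h₀ hK hunb hst hCm hs hCc) τ A S c (Zc φ τ))
    (hZS : StrZ K τ A S c (Zc φ τ)) (hT : TX K ℓ κf α S.card τ)
    (hC : ChnAt hK hunb hst hτ C)
    (hLL : ∀ (I : Type u) [LinearOrder I] [WellFoundedLT I] [Nonempty I], #I ≤ τ →
      ∀ H : I → Set C, Monotone H → (∀ i, H i ∈ Zc φ τ) → ∀ f : C → C,
      (∀ i, (pg h₀ hK hunb hst hCm hs hCc).LET τ f ((A {c} ∪ A S) ∩ H i)) →
        (pg h₀ hK hunb hst hCm hs hCc).LET τ f ((A {c} ∪ A S) ∩ ⋃ i, H i)) :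
    TrX (pgLv h₀ hK hunb hst hCm hs hCc hτ hτθ) (ibd A (insert c S)) φ where
  card := hφ
  tame := fun H hH hHc f hf => emp_of_tmA h₀ hK hunb hst hCm hs hCc hτ hτθ
    ((mk_le_mk_of_subset inter_subset_right).trans hHc) hf
    (tmA_trace h₀ hK hunb hst hCm hs hCc hτ hτθ h hZS hT ⟨hH, hHc⟩)
  lim := fun I _ _ _ hI H hH hHφ hHc f hf => by
    have hSc : S ⊂ insert c S := Finset.ssubset_insert h.ext.notMem
    have hc1 := PG.singleton_ssubset_insert h.ne h.ext.notMem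
    refine pg_lim_pair h₀ hK hunb hst hCm hs hCc hτ hτθ h (fun z hz => hz.2) hZS hC hH
      (fun i => ⟨hHφ i, hHc i⟩)
      (Zc.iUnion (aleph0_le_pt hτ hK) hI H hH fun i => ⟨hHφ i, hHc i⟩) hf
      (hLL I hI H hH (fun i => ⟨hHφ i, hHc i⟩) f fun i B hB hBc => hf i B (hB.trans ?_) hBc)
    rintro x ⟨hx | hx, hx'⟩
    · exact ⟨⟨_, hc1, hx⟩, hx'⟩
    · exact ⟨⟨S, hSc, hx⟩, hx'⟩

end

end Vale.Agent.P307.R2.H541
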